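import Vale.Agent.P014.H74.A4

/-!
# Module A, part 4b: the homomorphisms attached to quadratic characters
-/

set_option linter.unusedSectionVars false

namespace Vale.Agent.P014.H74

open Finset

theorem fam_congr {b b' d : ℤ} (h : d ∣ b - b') (N : M4) : Fam b d N ↔ Fam b' d N := by
  have key : ∀ b b' : ℤ, d ∣ b - b' → Fam b d N → Fam b' d N := by
    intro b b' h hN
    obtain ⟨h1, h2, h3⟩ := hN
    refine ⟨h1, ?_, ?_⟩
    · have e : N.Y - b' * N.X = (N.Y - b * N.X) + (b - b') * N.X := by ring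
      rw [e]; exact dvd_add h2 (Dvd.dvd.mul_right h _)
    · have e : N.v - 17 * b' * N.w = (N.v - 17 * b * N.w) + (b - b') * (17 * N.w) := by ring
      rw [e]; exact dvd_add h3 (Dvd.dvd.mul_right h _)
  exact ⟨key b b' h, key b' b (by rw [← neg_sub, dvd_neg]; exact h)⟩

theorem hom_congr {b b' d : ℤ} (h : d ∣ b - b') (A : G) : hom b d A = hom b' d A := by
  classical
  unfold hom Psi
  refine finsum_congr fun N => ?_
  simp only [fam_congr h]

/-- `ℓ_ρ(d) = ∑_c (c / d) ρ[c / d]` -/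
noncomputable def ell (ρ : G → ℝ) (d : ℕ) : ℝ :=
  ∑ c ∈ range d, ((jacobiSym (c : ℤ) d : ℤ) : ℝ) * sv ρ c d

/-- twice the sum of the symbol over the upper half -/
def Shalf (n : ℕ) : ℤ := ∑ b ∈ range n, jacobiSym (b : ℤ) n * (2 * (b : ℤ) - n).sign

/-- the matrix with second column `(1, 2)` -/
def gh : G := ⟨⟨9, 1, 1, 2⟩, by simp [M4.det]⟩

section

variable {d : ℕ} [NeZero d]

theorem ell_units {ρ : G → ℝ} (h : Par ρ) (hd : Nat.Coprime 17 d) :
    ell ρ d = ∑ x : (ZMod d)ˣ, ((chi x : ℤ) : ℝ) * ρ (gam hd x) := by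
  unfold ell
  rw [sum_unitsR (fun c => sv ρ c d)]
  refine Finset.sum_congr rfl fun x _ => ?_
  have := h.sv2 (gam hd x)
  change sv ρ (bz x) d = _ at this
  rw [this]

variable (d) in
/-- the homomorphism attached to the quadratic character of conductor `d` -/
noncomputable def rc (A : G) : ℤ := ∑ y : (ZMod d)ˣ, chi y * hom (bz y) d A

theorem dpos : (0 : ℤ) < d := by exact_mod_cast Nat.pos_of_ne_zero (NeZero.ne d)

theorem not_dvd (hd : Nat.Coprime 17 d) : ¬ (17 : ℤ) ∣ d := by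
  intro h
  have h' : 17 ∣ d := by exact_mod_cast h
  have := Nat.Coprime.eq_one_of_dvd hd h'
  omega

theorem rc_mul (A B : G) : rc d (A * B) = rc d A + rc d B := by
  unfold rc
  rw [← Finset.sum_add_distrib]
  refine Finset.sum_congr rfl fun y _ => ?_
  rw [hom_mul dpos]; ring

theorem rc_T (hk : Odd d) (hsq : Squarefree d) (h1 : d ≠ 1) (hd : Nat.Coprime 17 d) :
    rc d (tz 1) = 0 := by
  unfold rc
  have : ∀ y : (ZMod d)ˣ, chi y * hom (bz y) d (tz 1) = chi y * 4 := by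
    intro y; rw [hom_tz (bz_ok y) (not_dvd hd)]
  rw [Finset.sum_congr rfl (fun y _ => this y), ← Finset.sum_mul, sum_chi hk hsq h1, zero_mul]

theorem rc_V (hk : Odd d) (hsq : Squarefree d) (h1 : d ≠ 1) (hd : Nat.Coprime 17 d) :
    rc d (vz 1) = 0 := by
  unfold rc
  have : ∀ y : (ZMod d)ˣ, chi y * hom (bz y) d (vz 1) = chi y * 4 := by
    intro y; rw [hom_vz dpos (bz_ok (pr hd y)) (not_dvd hd) (pr_dvd hd y)]
  rw [Finset.sum_congr rfl (fun y _ => this y), ← Finset.sum_mul, sum_chi hk hsq h1, zero_mul]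

theorem rc_par (hk : Odd d) (hsq : Squarefree d) (h1 : d ≠ 1) (hd : Nat.Coprime 17 d) :
    Par (fun A => (rc d A : ℝ)) where
  mul A B := by rw [rc_mul]; push_cast; ring
  T := by rw [rc_T hk hsq h1 hd]; norm_num
  V := by rw [rc_V hk hsq h1 hd]; norm_num

theorem bz_neg (y : (ZMod d)ˣ) : (d : ℤ) ∣ bz (-y) - (-bz y) := by
  rw [← ZMod.intCast_zmod_eq_zero_iff_dvd]
  push_cast
  rw [bz_cast, bz_cast]; simp

theorem rc_cG (A : G) : rc d (cG A) = - jacobiSym (-1) d * rc d A := by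
  have h : rc d (cG A) = ∑ y : (ZMod d)ˣ, chi (-y) * hom (bz (-y)) d (cG A) :=
    (Equiv.sum_comp (Equiv.neg _) (fun y : (ZMod d)ˣ => chi y * hom (bz y) d (cG A))).symm
  rw [h]
  unfold rc
  rw [Finset.mul_sum]
  refine Finset.sum_congr rfl fun y _ => ?_
  rw [hom_congr (bz_neg y), hom_c dpos, chi_neg]; ring

end

/-- the homomorphism attached to `2` -/
noncomputable def muh (A : G) : ℤ := hom 1 2 A - hom 0 1 A

theorem Ok12 : Ok 1 2 := Or.inl ⟨by norm_num, by norm_num⟩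
theorem Ok01 : Ok 0 1 := Or.inr ⟨rfl, rfl⟩

theorem muh_par : Par (fun A => (muh A : ℝ)) where
  mul A B := by unfold muh; rw [hom_mul (by norm_num), hom_mul (by norm_num)]; push_cast; ring
  T := by unfold muh; rw [hom_tz Ok12 (by norm_num), hom_tz Ok01 (by norm_num)]; norm_num
  V := by
    unfold muh
    rw [hom_vz (by norm_num) Ok12 (by norm_num) (by norm_num),
      hom_vz (by norm_num) Ok01 (by norm_num) (by norm_num)]; norm_num

theorem muh_cG (A : G) : muh (cG A) = (-1) * muh A := by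
  unfold muh
  rw [hom_congr (b := 1) (b' := -1) (d := 2) (by norm_num), hom_c (by norm_num)]
  have := hom_c (b := 0) (d := 1) (by norm_num) A
  rw [neg_zero] at this
  rw [this]; ring

section

variable {n : ℕ} [NeZero n]

theorem shalf_units : Shalf n = ∑ x : (ZMod n)ˣ, chi x * (2 * bz x - n).sign := by
  unfold Shalf
  exact sum_units (fun b => (2 * b - n).sign)

theorem bz_pos (h1 : n ≠ 1) (x : (ZMod n)ˣ) : 0 < bz x := by
  rcases bz_ok x with h | h
  · exact h.1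
  · exact absurd h.2 (by exact_mod_cast h1)

/-- the difference of the crossing numbers -/
noncomputable def Dl (n : ℕ) [NeZero n] : ℤ :=
  ∑ x : (ZMod n)ˣ, chi x * (Icr (bz x) n 1 2 - Icr (bz x) n 0 1)

theorem ell_mu (hk : Odd n) (hsq : Squarefree n) (h1 : n ≠ 1) (hd : Nat.Coprime 17 n)
    (h17 : jacobiSym (-17) n = 1) :
    ∑ x : (ZMod n)ˣ, chi x * muh (gam hd x) = - Dl n + 4 * Shalf n := by
  have hn0 : (0 : ℤ) < n := dpos
  have e1 : ∀ x : (ZMod n)ˣ, Icr (bz x) n 1 2 = - hom 1 2 (gam hd x) + (2 * T0 1 2 + 4)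
      + 2 * (2 * bz x - n).sign + 2 * (2 * bz (pr hd x) - n).sign := by
    intro x
    have h := key_identity (b := 1) (b' := 1) (d := 2) Ok12 Ok12 (by norm_num) (by norm_num)
      (gam hd x) (bz_nonneg x) (bz_lt x) (bz_nonneg _) (bz_lt _) (by
        have h2 : Nat.Coprime 2 n := (Nat.coprime_two_left).mpr hk
        exact (Nat.isCoprime_iff_coprime (m := 2) (n := n)).mpr h2)
    change Icr (bz x) n 1 2 = -hom 1 2 (gam hd x) + T0 1 2 + T0 1 2 +
      2 * Sx 1 2 ((bz x : ℝ) / ((n : ℤ) : ℝ)) +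
      2 * Sx 1 2 ((bz (pr hd x) : ℝ) / ((n : ℤ) : ℝ)) at h
    rw [Sx_int Ok12 hn0, Sx_int Ok12 hn0] at h
    rw [h]
    simp only [one_mul, one_ne_zero, if_false]
    ring
  have e2 : ∀ x : (ZMod n)ˣ, Icr (bz x) n 0 1 = - hom 0 1 (gam hd x) + (2 * T0 0 1 + 4) := by
    intro x
    have h := key_identity (b := 0) (b' := 0) (d := 1) Ok01 Ok01 (by norm_num) (by norm_num)
      (gam hd x) (bz_nonneg x) (bz_lt x) (bz_nonneg _) (bz_lt _) isCoprime_one_left
    change Icr (bz x) n 0 1 = -hom 0 1 (gam hd x) + T0 0 1 + T0 0 1 +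
      2 * Sx 0 1 ((bz x : ℝ) / ((n : ℤ) : ℝ)) +
      2 * Sx 0 1 ((bz (pr hd x) : ℝ) / ((n : ℤ) : ℝ)) at h
    rw [Sx_int Ok01 hn0, Sx_int Ok01 hn0] at h
    rw [h]
    simp only [one_mul, zero_mul, sub_zero, if_true]
    rw [Int.sign_eq_one_of_pos (bz_pos h1 x), Int.sign_eq_one_of_pos (bz_pos h1 _)]
    ring
  have hs := sum_chi (d := n) hk hsq h1
  have e3 : ∑ x : (ZMod n)ˣ, chi x * (2 * bz (pr hd x) - n).sign = Shalf n := by
    rw [shalf_units]
    rw [← Equiv.sum_comp (pr hd) (fun x => chi x * (2 * bz x - n).sign)]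
    refine Finset.sum_congr rfl fun x _ => ?_
    rw [chi_pr, h17, one_mul]
  unfold Dl muh
  have e4 : ∀ x : (ZMod n)ˣ, chi x * (Icr (bz x) n 1 2 - Icr (bz x) n 0 1) =
      - (chi x * (hom 1 2 (gam hd x) - hom 0 1 (gam hd x))) + chi x * (2 * T0 1 2 - 2 * T0 0 1)
      + 2 * (chi x * (2 * bz x - n).sign) + 2 * (chi x * (2 * bz (pr hd x) - n).sign) := by
    intro x; rw [e1, e2]; ring
  rw [Finset.sum_congr rfl (fun x _ => e4 x)]
  rw [Finset.sum_add_distrib, Finset.sum_add_distrib, Finset.sum_add_distrib,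
    Finset.sum_neg_distrib, ← Finset.sum_mul, hs, ← Finset.mul_sum, ← Finset.mul_sum, e3,
    ← shalf_units]
  ring

theorem gam_one (h : Nat.Coprime 17 1) (x : (ZMod 1)ˣ) : gam h x = 1 := by
  have h0 : ∀ x : (ZMod 1)ˣ, bz x = 0 := by
    intro x
    rcases bz_ok x with h | h
    · have := h.1; have := h.2; omega
    · exact h.1
  apply G.ext'
  rw [G.one_val]
  ext
  · simp [gam, h0]
  · simp [gam, h0]
  · simp [gam, h0]
  · simp [gam]

/-- the second expression of the difference of the crossing numbers -/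
theorem Dl_rc (hk : Odd n) (hsq : Squarefree n) (h1 : n ≠ 1) (hd : Nat.Coprime 17 n)
    (h17 : jacobiSym (-17) n = 1) : Dl n = rc n gh + 4 * Shalf n := by
  have hn0 : (0 : ℤ) < n := dpos
  have hn17 := not_dvd hd
  have e1 : ∀ y : (ZMod n)ˣ, Icr 1 2 (bz y) n = - hom (bz y) n gh + KK hd y
      - 2 * (2 * bz y - n).sign - 2 * (2 * bz (pr hd y) - n).sign := by
    intro y
    have h := key_identity (b := bz y) (b' := bz (pr hd y)) (d := n) (bz_ok y) (bz_ok _) hn17
      (pr_dvd hd y) gh (by simp [gh]) (by simp [gh]) (by simp [gh]) (by simp [gh]) (by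
        have h2 : Nat.Coprime n 2 := (Nat.coprime_two_right).mpr hk
        exact (Nat.isCoprime_iff_coprime (m := n) (n := 2)).mpr h2)
    change Icr 1 2 (bz y) n = -hom (bz y) n gh + T0 (bz y) n + T0 (bz (pr hd y)) n +
      2 * Sx (bz y) n (((1 : ℤ) : ℝ) / ((2 : ℤ) : ℝ)) +
      2 * Sx (bz (pr hd y)) n (((1 : ℤ) : ℝ) / ((2 : ℤ) : ℝ)) at h
    rw [Sx_int (bz_ok y) (by norm_num), Sx_int (bz_ok _) (by norm_num)] at h
    rw [h]
    unfold KK
    have k1 : ∀ t : ℤ, ((n : ℤ) * 1 - t * 2).sign = - (2 * t - n).sign := by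
      intro t; rw [← Int.sign_neg]; congr 1; ring
    rw [k1, k1]
    ring
  have e2 : ∀ y : (ZMod n)ˣ, Icr 0 1 (bz y) n = KK hd y - 4 := by
    intro y
    have h := key_identity (b := bz y) (b' := bz (pr hd y)) (d := n) (bz_ok y) (bz_ok _) hn17
      (pr_dvd hd y) 1 (by simp [G.one_val]) (by simp [G.one_val]) (by simp [G.one_val])
      (by simp [G.one_val]) isCoprime_one_right
    change Icr 0 1 (bz y) n = -hom (bz y) n 1 + T0 (bz y) n + T0 (bz (pr hd y)) n +
      2 * Sx (bz y) n (((0 : ℤ) : ℝ) / ((1 : ℤ) : ℝ)) +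
      2 * Sx (bz (pr hd y)) n (((0 : ℤ) : ℝ) / ((1 : ℤ) : ℝ)) at h
    rw [Sx_int (bz_ok y) (by norm_num), Sx_int (bz_ok _) (by norm_num), hom_one hn0] at h
    rw [h]
    unfold KK
    have k1 : ∀ t : ℤ, 0 < t → ((n : ℤ) * 0 - t * 1).sign = - 1 := by
      intro t ht; rw [Int.sign_eq_neg_one_of_neg]; omega
    rw [k1 _ (bz_pos h1 y), k1 _ (bz_pos h1 _)]
    ring
  have hs := sum_chi (d := n) hk hsq h1
  have e3 : ∑ x : (ZMod n)ˣ, chi x * (2 * bz (pr hd x) - n).sign = Shalf n := by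
    rw [shalf_units]
    rw [← Equiv.sum_comp (pr hd) (fun x => chi x * (2 * bz x - n).sign)]
    refine Finset.sum_congr rfl fun x _ => ?_
    rw [chi_pr, h17, one_mul]
  unfold Dl rc
  have e4 : ∀ x : (ZMod n)ˣ, chi x * (Icr (bz x) n 1 2 - Icr (bz x) n 0 1) =
      (chi x * hom (bz x) n gh) - chi x * 4
      + 2 * (chi x * (2 * bz x - n).sign) + 2 * (chi x * (2 * bz (pr hd x) - n).sign) := by
    intro x; rw [Icr_swap (bz x) n 1 2, Icr_swap (bz x) n 0 1, e1, e2]; ring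
  rw [Finset.sum_congr rfl (fun x _ => e4 x)]
  rw [Finset.sum_add_distrib, Finset.sum_add_distrib, Finset.sum_sub_distrib,
    ← Finset.sum_mul, hs, ← Finset.mul_sum, ← Finset.mul_sum, e3,
    ← shalf_units]
  ring

theorem ell_mu_rc (hk : Odd n) (hsq : Squarefree n) (h1 : n ≠ 1) (hd : Nat.Coprime 17 n)
    (h17 : jacobiSym (-17) n = 1) :
    ∑ x : (ZMod n)ˣ, chi x * muh (gam hd x) = - rc n gh := by
  rw [ell_mu hk hsq h1 hd h17, Dl_rc hk hsq h1 hd h17]; ring

end

/-! ### the two-variable sums -/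

section

/-- the twisted sum of the crossing numbers -/
noncomputable def N4 (e d : ℕ) [NeZero e] [NeZero d] : ℤ :=
  ∑ x : (ZMod e)ˣ, ∑ y : (ZMod d)ˣ, chi x * chi y * Icr (bz x) e (bz y) d

/-- the twisted sum of the signs -/
noncomputable def SS (e d : ℕ) [NeZero e] [NeZero d] : ℤ :=
  ∑ x : (ZMod e)ˣ, ∑ y : (ZMod d)ˣ, chi x * chi y * (d * bz x - bz y * e).sign

variable {d e : ℕ} [NeZero d] [NeZero e]

theorem N4_eq (hk : Odd e) (hsq : Squarefree e) (h1 : e ≠ 1) (he : Nat.Coprime 17 e)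
    (hd : Nat.Coprime 17 d) (hde : Nat.Coprime d e)
    (h17 : jacobiSym (-17) e * jacobiSym (-17) d = 1) :
    N4 e d = - (∑ x : (ZMod e)ˣ, chi x * rc d (gam he x)) + 4 * SS e d := by
  unfold N4 rc
  have hs := sum_chi (d := e) hk hsq h1
  have e3 : ∑ x : (ZMod e)ˣ, ∑ y : (ZMod d)ˣ, chi x * chi y *
      (d * bz (pr he x) - bz (pr hd y) * e).sign = SS e d := by
    unfold SS
    rw [← Equiv.sum_comp (pr he) (fun x => ∑ y : (ZMod d)ˣ, chi x * chi y *
      (d * bz x - bz y * e).sign)]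
    refine Finset.sum_congr rfl fun x _ => ?_
    rw [← Equiv.sum_comp (pr hd) (fun y => chi (pr he x) * chi y *
      (d * bz (pr he x) - bz y * e).sign)]
    refine Finset.sum_congr rfl fun y _ => ?_
    rw [chi_pr, chi_pr]
    linear_combination (-(chi x * chi y * (d * bz (pr he x) - bz (pr hd y) * e).sign)) * h17
  have e4 : ∀ x : (ZMod e)ˣ, ∑ y : (ZMod d)ˣ, chi x * chi y * Icr (bz x) e (bz y) d =
      - (chi x * ∑ y : (ZMod d)ˣ, chi y * hom (bz y) d (gam he x)) +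
      chi x * (∑ y : (ZMod d)ˣ, chi y * KK hd y) +
      2 * (∑ y : (ZMod d)ˣ, chi x * chi y * (d * bz x - bz y * e).sign) +
      2 * (∑ y : (ZMod d)ˣ, chi x * chi y *
        (d * bz (pr he x) - bz (pr hd y) * e).sign) := by
    intro x
    rw [Finset.mul_sum, Finset.mul_sum, Finset.mul_sum, Finset.mul_sum, ← Finset.sum_neg_distrib,
      ← Finset.sum_add_distrib, ← Finset.sum_add_distrib, ← Finset.sum_add_distrib]
    refine Finset.sum_congr rfl fun y _ => ?_
    rw [key2 hd he hde]; ring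
  rw [Finset.sum_congr rfl (fun x _ => e4 x)]
  rw [Finset.sum_add_distrib, Finset.sum_add_distrib, Finset.sum_add_distrib,
    Finset.sum_neg_distrib, ← Finset.sum_mul, hs, ← Finset.mul_sum, ← Finset.mul_sum, e3]
  unfold SS
  ring

end

end Vale.Agent.P014.H74
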