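import Vale.Agent.P014.H74.A7

/-!
# P014, module C: the induction

`BD n C phi chi` collects what the quaternionic side provides for the imaginary quadratic field of
discriminant `-n`: `C` is its class group, `phi` takes the values `1` and `-3`, `chi V` is the genus
character attached to `n = V * (n / V)`, `V % 4 = 1`.
-/

set_option linter.unusedSectionVars false
set_option linter.style.haveILetI false

namespace Vale.Agent.P014.H74

open Finset

/-- the divisors which are `1` modulo `4` -/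
def D1 (n : ℕ) : Finset ℕ := n.divisors.filter (fun V => V % 4 = 1)

open Classical in
/-- the output of the quaternionic side -/
structure BD (n : ℕ) (C : Type) [CommGroup C] [Fintype C] (phi : C → ℤ) (chi : ℕ → C → ℤ) :
    Prop where
  phi_val : ∀ x, phi x = 1 ∨ phi x = -3
  chi_mul : ∀ V ∈ D1 n, ∀ x y, chi V (x * y) = chi V x * chi V y
  chi_one : ∀ x, chi 1 x = 1
  chi_val : ∀ V ∈ D1 n, ∀ x, chi V x = 1 ∨ chi V x = -1
  chi_ne : ∀ V ∈ D1 n, V ≠ 1 → ∃ x, chi V x = -1
  orth : ∀ x, ∑ V ∈ D1 n, chi V x = if IsSquare x then 2 ^ (n.primeFactors.card - 1) else 0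
  B1 : ∀ V ∈ D1 n, V ≠ 1 → 2 ^ n.primeFactors.card * (∑ x, chi V x * phi x) ^ 2 =
    2 ^ (n.primeFactors.card + 2) * (Fintype.card C : ℤ) + 4 * SA V (n / V) 1
  B2 : 2 ^ n.primeFactors.card * (∑ x, phi x) ^ 2 =
    2 ^ n.primeFactors.card * (Fintype.card C : ℤ) * (2 - jacobiSym 2 n) +
      3 * SA 1 n 1 - SA 1 n 2
  CN : AH n = - (n * (Fintype.card C : ℤ))

open Classical in
/-- the number of squares -/
noncomputable def nsq (C : Type) [CommGroup C] [Fintype C] : ℕ :=
  (Finset.univ.filter (fun x : C => IsSquare x)).card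

section

variable {n : ℕ} {C : Type} [CommGroup C] [Fintype C] {phi : C → ℤ} {chi : ℕ → C → ℤ}

/-- the toric period -/
def PV (phi : C → ℤ) (chi : ℕ → C → ℤ) (V : ℕ) : ℤ := ∑ x, chi V x * phi x

theorem BD.coset (h : BD n C phi chi) (x : C) : ∃ k : ℤ,
    ∑ V ∈ D1 n, chi V x * PV phi chi V = 2 ^ (n.primeFactors.card - 1) * (nsq C + 4 * k) := by
  classical
  have e1 : ∑ V ∈ D1 n, chi V x * PV phi chi V =
      ∑ a : C, phi a * ∑ V ∈ D1 n, chi V (x * a) := by
    unfold PV
    simp only [Finset.mul_sum]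
    rw [Finset.sum_comm]
    refine Finset.sum_congr rfl fun a _ => Finset.sum_congr rfl fun V hV => ?_
    rw [h.chi_mul V hV]; ring
  have e2 : ∀ a : C, phi a * ∑ V ∈ D1 n, chi V (x * a) =
      if IsSquare (x * a) then 2 ^ (n.primeFactors.card - 1) * phi a else 0 := by
    intro a
    rw [h.orth]
    split_ifs <;> ring
  have e3 : (Finset.univ.filter (fun a : C => IsSquare (x * a))).card = nsq C := by
    unfold nsq
    refine Finset.card_nbij' (fun a => x * a) (fun a => x⁻¹ * a) ?_ ?_ ?_ ?_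
    · intro a ha; simpa using ha
    · intro a ha; simpa using ha
    · intro a _; simp
    · intro a _; simp
  have e4 : ∀ a : C, ∃ k : ℤ, phi a = 1 + 4 * k := by
    intro a
    rcases h.phi_val a with h1 | h1
    · exact ⟨0, by rw [h1]; norm_num⟩
    · exact ⟨-1, by rw [h1]; norm_num⟩
  choose k hk using e4
  refine ⟨∑ a ∈ Finset.univ.filter (fun a : C => IsSquare (x * a)), k a, ?_⟩
  rw [e1, Finset.sum_congr rfl (fun a _ => e2 a), ← Finset.sum_filter, ← Finset.mul_sum,
    Finset.sum_congr rfl (fun a _ => hk a), Finset.sum_add_distrib, ← Finset.mul_sum]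
  simp [e3]

theorem one_mem_D1 (hn : n ≠ 0) : 1 ∈ D1 n := by
  simp [D1, hn]

/-- the character sum argument -/
theorem BD.argument (h : BD n C phi chi) (hn : n ≠ 0) (ht : 0 < n.primeFactors.card)
    (hV : ∀ V ∈ D1 n, V ≠ 1 → V ≠ n / 3 → (2 : ℤ) ^ n.primeFactors.card ∣ PV phi chi V) :
    (∀ V ∈ D1 n, V ≠ 1 → (2 : ℤ) ^ n.primeFactors.card ∣ PV phi chi V) ∧
    (2 : ℤ) ^ n.primeFactors.card ∣ PV phi chi 1 - 2 ^ (n.primeFactors.card - 1) * nsq C := by
  classical
  obtain ⟨t, ht'⟩ : ∃ t, n.primeFactors.card = t + 1 := ⟨n.primeFactors.card - 1, by omega⟩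
  have hc := h.coset
  rw [ht'] at hV hc ⊢
  simp only [Nat.add_sub_cancel] at hc ⊢
  have hall : ∀ V ∈ D1 n, V ≠ 1 → (2 : ℤ) ^ (t + 1) ∣ PV phi chi V := by
    intro V hVm hV1
    by_cases hV3 : V = n / 3
    · obtain ⟨x, hx⟩ := h.chi_ne V hVm hV1
      obtain ⟨k1, h1⟩ := hc 1
      obtain ⟨k2, h2⟩ := hc x
      have hone : ∀ V ∈ D1 n, chi V 1 = 1 := by
        intro V hV
        have := h.chi_mul V hV 1 1
        rw [mul_one] at this
        rcases h.chi_val V hV 1 with h | h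
        · exact h
        · rw [h] at this; norm_num at this
      have hdiff : ∑ V ∈ D1 n, (1 - chi V x) * PV phi chi V = 2 ^ (t + 2) * (k1 - k2) := by
        have : ∑ V ∈ D1 n, (1 - chi V x) * PV phi chi V =
            ∑ V ∈ D1 n, chi V 1 * PV phi chi V - ∑ V ∈ D1 n, chi V x * PV phi chi V := by
          rw [← Finset.sum_sub_distrib]
          refine Finset.sum_congr rfl fun V hV => ?_
          rw [hone V hV]; ring
        rw [this, h1, h2]; ring
      rw [← Finset.add_sum_erase _ _ hVm, hx] at hdiff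
      have hrest : (2 : ℤ) ^ (t + 2) ∣ ∑ V' ∈ (D1 n).erase V, (1 - chi V' x) * PV phi chi V' := by
        refine Finset.dvd_sum fun V' hV' => ?_
        obtain ⟨hne, hm⟩ := Finset.mem_erase.mp hV'
        by_cases h1 : V' = 1
        · rw [h1, h.chi_one]; simp
        · have h3 := hV V' hm h1 (fun h => hne (by rw [h, hV3]))
          rcases h.chi_val V' hm x with h2 | h2
          · rw [h2]; simp
          · have e : (2 : ℤ) ^ (t + 2) = 2 * 2 ^ (t + 1) := by ring
            rw [h2, e]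
            exact mul_dvd_mul (by norm_num) h3
      obtain ⟨r, hr⟩ := hrest
      rw [hr] at hdiff
      refine ⟨k1 - k2 - r, ?_⟩
      have : 2 * PV phi chi V = 2 * (2 ^ (t + 1) * (k1 - k2 - r)) := by
        rw [pow_succ] at hdiff ⊢
        linear_combination hdiff
      linarith
    · exact hV V hVm hV1 hV3
  refine ⟨hall, ?_⟩
  obtain ⟨k1, h1⟩ := hc 1
  have hone : ∀ V ∈ D1 n, chi V 1 = 1 := by
    intro V hV
    have := h.chi_mul V hV 1 1
    rw [mul_one] at this
    rcases h.chi_val V hV 1 with h | h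
    · exact h
    · rw [h] at this; norm_num at this
  rw [← Finset.add_sum_erase _ _ (one_mem_D1 hn), h.chi_one, one_mul] at h1
  have hrest : (2 : ℤ) ^ (t + 1) ∣ ∑ V ∈ (D1 n).erase 1, chi V 1 * PV phi chi V := by
    refine Finset.dvd_sum fun V hV => ?_
    obtain ⟨hne, hm⟩ := Finset.mem_erase.mp hV
    exact Dvd.dvd.mul_left (hall V hm hne) _
  obtain ⟨r, hr⟩ := hrest
  rw [hr] at h1
  refine ⟨2 * k1 - r, ?_⟩
  rw [pow_succ] at h1 ⊢
  linear_combination h1

end

/-! ### the periods in terms of the homomorphisms -/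

/-- the chosen odd period -/
noncomputable def eo (n : ℕ) : ℝ := ell (fun A => (muh A : ℝ)) n

/-- the chosen even period -/
noncomputable def ee (n : ℕ) : ℝ := ell (fun A => (rc 3 A : ℝ)) n

theorem eo3 : eo 3 = -8 := by
  unfold eo
  rw [ell_cast muh_par (by norm_num) (ell_mu_three (by norm_num))]; norm_num

theorem rc3_par : Par (fun A => (rc 3 A : ℝ)) :=
  rc_par (d := 3) (by decide) sq3 (by norm_num) (by norm_num)

theorem rc3_even (A : G) : ((rc 3 (cG A) : ℤ) : ℝ) = 1 * ((rc 3 A : ℤ) : ℝ) := by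
  rw [rc_cG, Jneg_three (by norm_num)]; push_cast; ring

section

variable {n : ℕ} {C : Type} [CommGroup C] [Fintype C] {phi : C → ℤ} {chi : ℕ → C → ℤ}

/-- the odd period of a general odd homomorphism -/
theorem BD.ell_odd (h : BD n C phi chi) (h4 : n % 4 = 3) (hsq : Squarefree n)
    (h17 : jacobiSym n 17 = -1) {ρ : G → ℝ} (hρ : Par ρ) (ho : ∀ A, ρ (cG A) = (-1) * ρ A) :
    ell ρ n = ell ρ 3 * ((PV phi chi 1 : ℤ) : ℝ) ^ 2 := by
  have hT := T1 h4 hsq h17 hρ ho
  have hP : PV phi chi 1 = ∑ x, phi x := by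
    unfold PV; exact Finset.sum_congr rfl fun x _ => by rw [h.chi_one, one_mul]
  have hB := h.B2
  rw [← hP] at hB
  have hn0 : (0 : ℝ) < n := by
    have : 0 < n := by omega
    exact_mod_cast this
  have hZ : (n * (3 * SA 1 n 1 - SA 1 n 2) -
        2 ^ n.primeFactors.card * (2 - jacobiSym 2 n) * AH n : ℤ) =
        n * 2 ^ n.primeFactors.card * PV phi chi 1 ^ 2 := by
    rw [h.CN]
    linear_combination (-(n : ℤ)) * hB
  rw [hZ] at hT
  push_cast at hT
  have h2 : (0 : ℝ) < n * 2 ^ n.primeFactors.card := by positivity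
  apply mul_left_cancel₀ h2.ne'
  rw [hT]; ring

theorem BD.eo_eq (h : BD n C phi chi) (h4 : n % 4 = 3) (hsq : Squarefree n)
    (h17 : jacobiSym n 17 = -1) : eo n = -8 * ((PV phi chi 1 : ℤ) : ℝ) ^ 2 := by
  have := h.ell_odd h4 hsq h17 muh_par muh_cG'
  have h3 := eo3
  unfold eo at h3 ⊢
  rw [this, h3]

theorem BD.mixed (h : BD n C phi chi) (h4 : n % 4 = 3) (hsq : Squarefree n)
    (h17 : jacobiSym n 17 = -1) {V : ℕ} (hV : V ∈ D1 n) (hV1 : V ≠ 1)
    (hJ : jacobiSym V 17 = 1) : ee V * eo (n / V) = 16 * ((PV phi chi V : ℤ) : ℝ) ^ 2 := by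
  obtain ⟨hVn, hV4⟩ := Finset.mem_filter.mp hV
  obtain ⟨W, hW⟩ := Nat.dvd_of_mem_divisors hVn
  have hB := h.B1 V hV hV1
  have hCN := h.CN
  subst hW
  have hV0 : 0 < V := by omega
  rw [Nat.mul_div_cancel_left _ hV0] at hB ⊢
  have hW4 : W % 4 = 3 := by
    have : V * W % 4 = 3 := h4
    rw [Nat.mul_mod, hV4] at this
    omega
  have hJW : jacobiSym W 17 = -1 := by
    have : jacobiSym ((V * W : ℕ) : ℤ) 17 = jacobiSym V 17 * jacobiSym W 17 := by
      push_cast; exact jacobiSym.mul_left _ _ _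
    rw [h17, hJ, one_mul] at this
    exact this.symm
  have hT := T2 hV4 hW4 hsq hV1 hJ hJW rc3_par rc3_even muh_par muh_cG'
  have hn0 : (0 : ℝ) < ((V * W : ℕ) : ℝ) := by
    have : 0 < V * W := by
      apply Nat.pos_of_ne_zero; intro h0; rw [h0] at h4; omega
    exact_mod_cast this
  have hZ : (2 ^ (V * W).primeFactors.card * AH (V * W) -
        ((V * W : ℕ) : ℤ) * SA V W 1 : ℤ) * 4 =
        - (((V * W : ℕ) : ℤ) * 2 ^ (V * W).primeFactors.card * PV phi chi V ^ 2) := by
    rw [hCN]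
    unfold PV
    rw [pow_add] at hB
    linear_combination (((V * W : ℕ) : ℤ)) * hB
  have hZ' : ((2 ^ (V * W).primeFactors.card * AH (V * W) -
        ((V * W : ℕ) : ℤ) * SA V W 1 : ℤ) : ℝ) * 4 =
        - (((V * W : ℕ) : ℝ) * 2 ^ (V * W).primeFactors.card * ((PV phi chi V : ℤ) : ℝ) ^ 2) := by
    exact_mod_cast hZ
  have e3 : ((rc 3 gh : ℤ) : ℝ) = 8 := by rw [rc3_gh]; norm_num
  have e4 := eo3
  unfold eo at e4
  rw [e3, e4] at hT
  have h2 : (0 : ℝ) < ((V * W : ℕ) : ℝ) * 2 ^ (V * W).primeFactors.card := by positivity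
  apply mul_left_cancel₀ h2.ne'
  unfold ee eo
  linear_combination hT - 16 * hZ'

theorem BD.vanish (h : BD n C phi chi) (h4 : n % 4 = 3) (hsq : Squarefree n)
    (h17 : jacobiSym n 17 = -1) {V : ℕ} (hV : V ∈ D1 n) (hV1 : V ≠ 1)
    (hJ : jacobiSym V 17 = -1) : PV phi chi V = 0 := by
  obtain ⟨hVn, hV4⟩ := Finset.mem_filter.mp hV
  obtain ⟨W, hW⟩ := Nat.dvd_of_mem_divisors hVn
  have hB := h.B1 V hV hV1
  have hCN := h.CN
  subst hW
  have hV0 : 0 < V := by omega
  rw [Nat.mul_div_cancel_left _ hV0] at hB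
  have hW4 : W % 4 = 3 := by
    have : V * W % 4 = 3 := h4
    rw [Nat.mul_mod, hV4] at this
    omega
  have hJW : jacobiSym W 17 = 1 := by
    have : jacobiSym ((V * W : ℕ) : ℤ) 17 = jacobiSym V 17 * jacobiSym W 17 := by
      push_cast; exact jacobiSym.mul_left _ _ _
    rw [h17, hJ] at this
    linarith
  have hT := T2_zero hV4 hW4 hsq hV1 hJ hJW
  have hn0 : (0 : ℤ) < ((V * W : ℕ) : ℤ) := by
    have : 0 < V * W := by
      apply Nat.pos_of_ne_zero; intro h0; rw [h0] at h4; omega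
    exact_mod_cast this
  have hZ : (((V * W : ℕ) : ℤ) * 2 ^ (V * W).primeFactors.card) * PV phi chi V ^ 2 = 0 := by
    rw [hCN] at hT
    unfold PV
    rw [pow_add] at hB
    linear_combination (((V * W : ℕ) : ℤ)) * hB + 4 * hT
  rcases mul_eq_zero.mp hZ with h0 | h0
  · exfalso
    have : (0 : ℤ) < ((V * W : ℕ) : ℤ) * 2 ^ (V * W).primeFactors.card := by positivity
    omega
  · exact pow_eq_zero_iff (two_ne_zero) |>.mp h0

end

end Vale.Agent.P014.H74
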