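import Vale.Agent.P014.H74.E6
import Vale.Agent.P014.H74.C1

/-!
# Conductor 3, part 7: the structure `BD3`, its period relations
-/

set_option linter.unusedSectionVars false
set_option linter.style.haveILetI false

namespace Vale.Agent.P014.H74

open Finset

theorem R_comm (A B x : ℕ) : R A B x = R B A x := by
  unfold R
  refine Finset.sum_nbij' Prod.swap Prod.swap ?_ ?_ (fun _ _ => rfl) (fun _ _ => rfl) ?_
  · rintro ⟨a, b⟩ h
    rw [Nat.mem_divisorsAntidiagonal] at h ⊢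
    exact ⟨by rw [← h.1]; exact mul_comm _ _, h.2⟩
  · rintro ⟨a, b⟩ h
    rw [Nat.mem_divisorsAntidiagonal] at h ⊢
    exact ⟨by rw [← h.1]; exact mul_comm _ _, h.2⟩
  · rintro ⟨a, b⟩ _
    exact mul_comm _ _

theorem SU_comm {d1 d2 : ℕ} (hd1 : 0 < d1) (hd2 : 0 < d2) (hco : Nat.Coprime d1 d2)
    (h : jacobiSym (-17) (d1 * d2) = 1) (x k : ℕ) : SU d1 d2 x k = SU d2 d1 x k := by
  unfold SU
  rw [mul_comm d2 d1, sum_div_mul hco, sum_div_mul hco]
  refine Finset.sum_congr rfl fun U hU => Finset.sum_congr rfl fun V hV => ?_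
  have hU' := Nat.mem_divisors.mp hU
  have hV' := Nat.mem_divisors.mp hV
  have hU0 : 0 < U := Nat.pos_of_ne_zero (ne_zero_of_dvd_ne_zero hU'.2 hU'.1)
  have hV0 : 0 < V := Nat.pos_of_ne_zero (ne_zero_of_dvd_ne_zero hV'.2 hV'.1)
  rw [sd_left hco hU'.1 hV'.1 hU0, sd_right hco hU'.1 hV'.1 hV0, R_comm (U * (d2 / V))]
  congr 2
  obtain ⟨c, rfl⟩ := hU'.1
  obtain ⟨e, rfl⟩ := hV'.1
  have hc0 : c ≠ 0 := by rintro rfl; simp at hd1
  have he0 : e ≠ 0 := by rintro rfl; simp at hd2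
  rw [Nat.mul_div_cancel_left _ hU0, Nat.mul_div_cancel_left _ hV0]
  rw [jacobiSym.mul_right' _ (mul_ne_zero hU0.ne' hc0) (mul_ne_zero hV0.ne' he0),
    jacobiSym.mul_right' _ hU0.ne' hc0, jacobiSym.mul_right' _ hV0.ne' he0] at h
  rw [jacobiSym.mul_right' _ hc0 hV0.ne', jacobiSym.mul_right' _ hU0.ne' he0]
  have h2 : (jacobiSym (-17) c * jacobiSym (-17) V) * (jacobiSym (-17) U * jacobiSym (-17) e) = 1 := by
    rw [← h]; ring
  rcases Int.eq_one_or_neg_one_of_mul_eq_one h2 with h1 | h1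
  · rw [h1] at h2 ⊢; linarith
  · rw [h1] at h2 ⊢; linarith

theorem SAw_comm {d1 d2 : ℕ} (hd1 : 0 < d1) (hd2 : 0 < d2) (hco : Nat.Coprime d1 d2)
    (h : jacobiSym (-17) (d1 * d2) = 1) (f : ℕ → ℤ) (m : ℕ) : SAw f d1 d2 m = SAw f d2 d1 m := by
  unfold SAw
  rw [mul_comm d2 d1]
  refine Finset.sum_congr rfl fun k _ => ?_
  rw [SU_comm hd1 hd2 hco h]

open Classical in
/-- the output of the quaternionic side for the conductor `3` -/
structure BD3 (n : ℕ) (C : Type) [CommGroup C] [Fintype C] (y : C → ℤ) (chi : ℕ → C → ℤ) :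
    Prop where
  y_val : ∀ x, y x = 4 ∨ y x = -4
  orth : ∀ x, ∑ V ∈ D1 n, chi V x = if IsSquare x then 2 ^ (n.primeFactors.card - 1) else 0
  B : ∀ W ∈ D1 n, 2 ^ n.primeFactors.card * (∑ x, chi W x * y x) ^ 2 =
    2 ^ (n.primeFactors.card + 4) * (Fintype.card C : ℤ) +
      4 * (SAw w9 W (n / W) 9 + SAw w1 W (n / W) 1)
  CN : AH n = - (n * (Fintype.card C : ℤ))

section

variable {n : ℕ} {C : Type} [CommGroup C] [Fintype C] {y : C → ℤ} {chi : ℕ → C → ℤ}

theorem Jm17_3 : jacobiSym (-17) 3 = 1 := J3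

/-- the basic relation -/
theorem BD3.basic (h : BD3 n C y chi) (h4 : n % 4 = 3) (h3 : n % 3 = 1) (hsq : Squarefree n)
    (h17 : jacobiSym n 17 = -1) {V W : ℕ} (hn : n = V * W) (hW4 : W % 4 = 1)
    [NeZero V] [NeZero W] :
    V % 4 = 3 ∧ Nat.Coprime 3 (V * W) ∧ Nat.Coprime V W ∧ Squarefree V ∧ Squarefree W ∧
      8 * ((PV y chi W : ℤ)) ^ 2 = 4 * (N5 (3 * V) (3 * W) - 4 * SS (3 * V) (3 * W)) := by
  have hV0 : 0 < V := Nat.pos_of_ne_zero (NeZero.ne V)
  have hW0 : 0 < W := Nat.pos_of_ne_zero (NeZero.ne W)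
  have hV4 : V % 4 = 3 := by
    rw [hn, Nat.mul_mod, hW4] at h4; omega
  have hW : W ∈ D1 n := by
    rw [D1, Finset.mem_filter, Nat.mem_divisors]
    exact ⟨⟨Dvd.intro_left V hn.symm, hsq.ne_zero⟩, hW4⟩
  have hB := h.B W hW
  have hCN := h.CN
  have hdiv : n / W = V := by rw [hn, Nat.mul_div_cancel _ hW0]
  rw [hdiv] at hB
  subst hn
  have hc3 : Nat.Coprime 3 (V * W) := by
    rw [Nat.Prime.coprime_iff_not_dvd Nat.prime_three]; omega
  have hco : Nat.Coprime V W := (Nat.squarefree_mul_iff.mp hsq).1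
  have hsqV : Squarefree V := (Nat.squarefree_mul_iff.mp hsq).2.1
  have hsqW : Squarefree W := (Nat.squarefree_mul_iff.mp hsq).2.2
  have hc17 : Nat.Coprime 17 (V * W) := coprime_of_J (by rw [h17]; norm_num)
  have hkV : Odd V := Nat.odd_iff.mpr (by omega)
  have hkW : Odd W := Nat.odd_iff.mpr (by omega)
  have hJ : jacobiSym (-17) ((V * W : ℕ)) = 1 := by
    rw [Jneg17, Jneg_three h4, J17_eq (hkV.mul hkW), h17]; norm_num
  have j : jacobiSym 17 V * jacobiSym (-17) W = -1 := by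
    have e1 : jacobiSym 17 ((V * W : ℕ)) = -1 := by rw [J17_eq (hkV.mul hkW), h17]
    rw [jacobiSym.mul_right' _ hV0.ne' hW0.ne'] at e1
    rw [Jneg17, Jneg_one hW4, one_mul]; exact e1
  have hN := N5_SAw hV4 hW4 hsq hc17 hc3 h3 j
  have hS := SS3_AH hV4 hW4 hsq hc3 h3
  have hco' := SAw_comm hV0 hW0 hco hJ
  rw [hco' w9 9, hco' w1 1] at hN
  refine ⟨hV4, hc3, hco, hsqV, hsqW, ?_⟩
  have hn0 : (0 : ℤ) < ((V * W : ℕ) : ℤ) := by exact_mod_cast Nat.mul_pos hV0 hW0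
  have h2 : (0 : ℤ) < ((V * W : ℕ) : ℤ) * 2 ^ (V * W).primeFactors.card := by positivity
  have hS' : SS (3 * V) (3 * W) = -8 * (Fintype.card C : ℤ) := by
    apply mul_left_cancel₀ hn0.ne'
    rw [hS, hCN]; ring
  have h2' : (0 : ℤ) < 2 ^ (V * W).primeFactors.card := by positivity
  apply mul_left_cancel₀ h2'.ne'
  unfold PV
  rw [hS']
  rw [pow_add] at hB
  linear_combination 8 * hB - 4 * hN

theorem BD3.mixed (h : BD3 n C y chi) (h4 : n % 4 = 3) (h3 : n % 3 = 1) (hsq : Squarefree n)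
    (h17 : jacobiSym n 17 = -1) {V W : ℕ} (hn : n = V * W) (hW4 : W % 4 = 1)
    (hJ : jacobiSym W 17 = 1) : ee (3 * V) * eo (3 * W) = 16 * ((PV y chi W : ℤ) : ℝ) ^ 2 := by
  have hV0 : V ≠ 0 := by rintro rfl; rw [hn, zero_mul] at h4; omega
  have hW0 : W ≠ 0 := by rintro rfl; omega
  haveI : NeZero V := ⟨hV0⟩
  haveI : NeZero W := ⟨hW0⟩
  obtain ⟨hV4, hc3, hco, hsqV, hsqW, hb⟩ := h.basic h4 h3 hsq h17 hn hW4
  have h3V : Nat.Coprime 3 V := Nat.Coprime.coprime_mul_right_right hc3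
  have h3W : Nat.Coprime 3 W := Nat.Coprime.coprime_mul_left_right hc3
  have hkV : Odd V := Nat.odd_iff.mpr (by omega)
  have hkW : Odd W := Nat.odd_iff.mpr (by omega)
  have hJV : jacobiSym V 17 = -1 := by
    have : jacobiSym ((V * W : ℕ) : ℤ) 17 = jacobiSym V 17 * jacobiSym W 17 := by
      push_cast; exact jacobiSym.mul_left _ _ _
    rw [← hn, h17, hJ, mul_one] at this
    exact this.symm
  have a1 : jacobiSym (-17) (3 * V) = 1 := by
    rw [jacobiSym.mul_right' _ (by norm_num) hV0, Jm17_3, Jneg17, Jneg_three hV4, J17_eq hkV, hJV]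
    norm_num
  have a2 : jacobiSym (-17) (3 * W) = 1 := by
    rw [jacobiSym.mul_right' _ (by norm_num) hW0, Jm17_3, Jneg17, Jneg_one hW4, J17_eq hkW, hJ]
    norm_num
  have a3 : jacobiSym (-1) (3 * W) = -1 := by
    rw [jacobiSym.mul_right' _ (by norm_num) hW0, Jneg_one hW4, Jneg_three (by norm_num)]
    norm_num
  have c17V : Nat.Coprime 17 (3 * V) := Nat.Coprime.mul_right (by norm_num)
    (coprime_of_J (by rw [hJV]; norm_num))
  have c17W : Nat.Coprime 17 (3 * W) := Nat.Coprime.mul_right (by norm_num)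
    (coprime_of_J (by rw [hJ]; norm_num))
  have hT := T2_cross' (e := 3 * V) (d := 3 * W) ((by decide : Odd 3).mul hkV)
    (Nat.squarefree_mul_iff.mpr ⟨h3V, sq3, hsqV⟩) (by omega) c17V ((by decide : Odd 3).mul hkW)
    (Nat.squarefree_mul_iff.mpr ⟨h3W, sq3, hsqW⟩) (by omega) c17W a1 a2 a3 rc3_par rc3_even
    muh_par muh_cG'
  have e3 : ((rc 3 gh : ℤ) : ℝ) = 8 := by rw [rc3_gh]; norm_num
  have e4 := eo3
  unfold eo at e4
  rw [e3, e4] at hT
  have hb' : 8 * ((PV y chi W : ℤ) : ℝ) ^ 2 =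
      4 * (((N5 (3 * V) (3 * W) - 4 * SS (3 * V) (3 * W) : ℤ)) : ℝ) := by exact_mod_cast hb
  unfold ee eo
  push_cast at hT hb' ⊢
  linarith

theorem BD3.vanish (h : BD3 n C y chi) (h4 : n % 4 = 3) (h3 : n % 3 = 1) (hsq : Squarefree n)
    (h17 : jacobiSym n 17 = -1) {V W : ℕ} (hn : n = V * W) (hW4 : W % 4 = 1)
    (hJ : jacobiSym W 17 = -1) : PV y chi W = 0 := by
  have hV0 : V ≠ 0 := by rintro rfl; rw [hn, zero_mul] at h4; omega
  have hW0 : W ≠ 0 := by rintro rfl; omega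
  haveI : NeZero V := ⟨hV0⟩
  haveI : NeZero W := ⟨hW0⟩
  obtain ⟨hV4, hc3, hco, hsqV, hsqW, hb⟩ := h.basic h4 h3 hsq h17 hn hW4
  have h3V : Nat.Coprime 3 V := Nat.Coprime.coprime_mul_right_right hc3
  have h3W : Nat.Coprime 3 W := Nat.Coprime.coprime_mul_left_right hc3
  have hkV : Odd V := Nat.odd_iff.mpr (by omega)
  have hkW : Odd W := Nat.odd_iff.mpr (by omega)
  have hJV : jacobiSym V 17 = 1 := by
    have : jacobiSym ((V * W : ℕ) : ℤ) 17 = jacobiSym V 17 * jacobiSym W 17 := by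
      push_cast; exact jacobiSym.mul_left _ _ _
    rw [← hn, h17, hJ] at this
    linarith
  have a1 : jacobiSym (-17) (3 * V) = -1 := by
    rw [jacobiSym.mul_right' _ (by norm_num) hV0, Jm17_3, Jneg17, Jneg_three hV4, J17_eq hkV, hJV]
    norm_num
  have a2 : jacobiSym (-17) (3 * W) = -1 := by
    rw [jacobiSym.mul_right' _ (by norm_num) hW0, Jm17_3, Jneg17, Jneg_one hW4, J17_eq hkW, hJ]
    norm_num
  have a3 : jacobiSym (-1) (3 * W) = -1 := by
    rw [jacobiSym.mul_right' _ (by norm_num) hW0, Jneg_one hW4, Jneg_three (by norm_num)]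
    norm_num
  have c17V : Nat.Coprime 17 (3 * V) := Nat.Coprime.mul_right (by norm_num)
    (coprime_of_J (by rw [hJV]; norm_num))
  have c17W : Nat.Coprime 17 (3 * W) := Nat.Coprime.mul_right (by norm_num)
    (coprime_of_J (by rw [hJ]; norm_num))
  have c := N5_eq (e := 3 * V) (d := 3 * W) ((by decide : Odd 3).mul hkV)
    (Nat.squarefree_mul_iff.mpr ⟨h3V, sq3, hsqV⟩) (by omega) c17V c17W (by rw [a1, a2]; norm_num)
  have c0 : ∑ x : (ZMod (3 * V))ˣ, H74.chi x * rc (3 * W) (gam c17V x) = 0 := by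
    refine Finset.sum_eq_zero fun x _ => ?_
    rw [rc_zero ((by decide : Odd 3).mul hkW) (Nat.squarefree_mul_iff.mpr ⟨h3W, sq3, hsqW⟩)
      (by omega) c17W a3 a2, mul_zero]
  rw [c, c0] at hb
  have : (PV y chi W) ^ 2 = 0 := by linarith
  exact pow_eq_zero_iff (two_ne_zero) |>.mp this

open Classical in
/-- the sum over the characters -/
theorem BD3.coset (h : BD3 n C y chi) : ∃ k : ℤ,
    ∑ V ∈ D1 n, PV y chi V = 2 ^ (n.primeFactors.card - 1) * (4 * nsq C + 8 * k) := by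
  have e1 : ∑ V ∈ D1 n, PV y chi V = ∑ a : C, y a * ∑ V ∈ D1 n, chi V a := by
    unfold PV
    simp only [Finset.mul_sum]
    rw [Finset.sum_comm]
    refine Finset.sum_congr rfl fun a _ => Finset.sum_congr rfl fun V _ => ?_
    ring
  have e2 : ∀ a : C, y a * ∑ V ∈ D1 n, chi V a =
      if IsSquare a then 2 ^ (n.primeFactors.card - 1) * y a else 0 := by
    intro a
    rw [h.orth]
    split_ifs <;> ring
  have e4 : ∀ a : C, ∃ k : ℤ, y a = 4 + 8 * k := by
    intro a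
    rcases h.y_val a with h1 | h1
    · exact ⟨0, by rw [h1]; norm_num⟩
    · exact ⟨-1, by rw [h1]; norm_num⟩
  choose k hk using e4
  refine ⟨∑ a ∈ Finset.univ.filter (fun a : C => IsSquare a), k a, ?_⟩
  rw [e1, Finset.sum_congr rfl (fun a _ => e2 a), ← Finset.sum_filter, ← Finset.mul_sum,
    Finset.sum_congr rfl (fun a _ => hk a), Finset.sum_add_distrib, ← Finset.mul_sum]
  unfold nsq
  rw [Finset.sum_const]
  simp only [nsmul_eq_mul]
  ring

end

end Vale.Agent.P014.H74
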