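import Mathlib

/-!
# P014: the arithmetic sums shared by module A (crossing numbers) and module B (quaternions)
-/

namespace Vale.Agent.P014

/-- `∑_{yz = x} (y / A) (z / B)` -/
def R (A B x : ℕ) : ℤ :=
  ∑ p ∈ x.divisorsAntidiagonal, jacobiSym (p.1 : ℤ) A * jacobiSym (p.2 : ℤ) B

/-- the product of the primes dividing exactly one of `A`, `B` (for divisors of a squarefree number) -/
def sd (A B : ℕ) : ℕ := A.lcm B / A.gcd B

/-- the inner sum over the divisors `U` of `n = d1 d2` -/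
def SU (d1 d2 : ℕ) (x k : ℕ) : ℤ :=
  ∑ U ∈ (d1 * d2).divisors, jacobiSym (-17) (sd U d1) * R U (d1 * d2 / U) x *
    R (sd U d2) (sd U d1) k

/-- `SA(d1, d2, m) = ∑_{k ≥ 1, 17 k < m n} 2^{#{q ∣ n : q ∣ k}} ∑_U ...` -/
def SA (d1 d2 m : ℕ) : ℤ :=
  ∑ k ∈ (Finset.Ico 1 (m * (d1 * d2))).filter (fun k => 17 * k < m * (d1 * d2)),
    2 ^ ((d1 * d2).primeFactors.filter (fun q => q ∣ k)).card *
      SU d1 d2 (m * (d1 * d2) - 17 * k) k

/-- `∑_{0 < b < n} b (b / n)`, which is `- n h(-n)` for `n ≡ 3 mod 4` squarefree, `n > 3` -/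
def AH (n : ℕ) : ℤ := ∑ b ∈ Finset.range n, (b : ℤ) * jacobiSym (b : ℤ) n

end Vale.Agent.P014
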