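import Vale.Agent.P014.H74.Iface

/-!
# P014: the weighted arithmetic sums (conductor 3)
-/

namespace Vale.Agent.P014

/-- the sum `SA` with a weight depending on `k` -/
def SAw (f : ℕ → ℤ) (d1 d2 m : ℕ) : ℤ :=
  ∑ k ∈ (Finset.Ico 1 (m * (d1 * d2))).filter (fun k => 17 * k < m * (d1 * d2)),
    f k * 2 ^ ((d1 * d2).primeFactors.filter (fun q => q ∣ k)).card *
      SU d1 d2 (m * (d1 * d2) - 17 * k) k

/-- the weight for the multiplier `9`: the Legendre symbol modulo `3` -/
def w9 (k : ℕ) : ℤ := if k % 3 = 1 then 1 else if k % 3 = 2 then -1 else 0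

/-- the weight for the multiplier `1` -/
def w1 (k : ℕ) : ℤ := if k % 3 = 0 then 4 else if k % 3 = 2 then -4 else 0

end Vale.Agent.P014
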