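import Vale.Agent.P014.H74.F3
import Mathlib.NumberTheory.LSeries.PrimesInAP

/-!
# Theorem B, part 4: the end of the recursion
-/

set_option linter.unusedSectionVars false
set_option linter.style.haveILetI false

namespace Vale.Agent.P014.H74

open Finset

/-- primes of the odd family in the residue classes modulo `3` -/
theorem exists_Dm_prime (N r : ℕ) (hr : r = 1 ∨ r = 2) : ∃ q > N, q.Prime ∧ Dm q ∧ q % 3 = r := by
  obtain ⟨a, ha, h4, h17, h3⟩ : ∃ a : ℕ, a.Coprime 204 ∧ a % 4 = 3 ∧ a % 17 = 3 ∧ a % 3 = r := by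
    rcases hr with rfl | rfl
    · exact ⟨139, by decide, rfl, rfl, rfl⟩
    · exact ⟨71, by decide, rfl, rfl, rfl⟩
  obtain ⟨q, hq, hqp, hqm⟩ := Nat.forall_exists_prime_gt_and_modEq N (q := 204) (a := a)
    (by norm_num) ha
  have hm : q % 204 = a % 204 := hqm
  refine ⟨q, hq, hqp, ⟨by omega, hqp.squarefree, ?_⟩, by omega⟩
  have e : ((q : ℤ) : ZMod 17) = 3 := by
    have h1 : (q : ℤ) % 17 = 3 := by omega
    have := (ZMod.intCast_eq_intCast_iff_dvd_sub (q : ℤ) 3 17).mpr (by omega)
    rw [this]; rfl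
  have h2 : jacobiSym q 17 = jacobiSym 3 17 := by
    rw [jacobiSym.mod_left, show (q : ℤ) % (17 : ℕ) = 3 by push_cast; omega]
  rw [h2, J3_17]

section

variable {D g : Finset ℕ → ZMod 2} (hI : Inp D g)

include hI

/-- the even periods with a factor `3` -/
theorem Inp.even3 {t : ℕ} (hIH : IHt D t) {m : ℕ} (hV : Dp (3 * m))
    (ht : (3 * m).primeFactors.card + 1 = t) : SBp (3 * m) (D (3 * m).primeFactors) := by
  obtain ⟨hV4, hsq, hJ⟩ := hV
  obtain ⟨hco, -, hsqm⟩ := Nat.squarefree_mul_iff.mp hsq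
  have h3p : (3 : ℕ).Prime := Nat.prime_three
  have h3m : ¬ 3 ∣ m := (Nat.Prime.coprime_iff_not_dvd h3p).mp hco
  have hm4 : m % 4 = 3 := by omega
  have hJm : jacobiSym m 17 = -1 := by
    push_cast at hJ
    rw [jacobiSym.mul_left, J3_17] at hJ
    linarith
  have hm : Dm m := ⟨hm4, hsqm, hJm⟩
  have hc3 : (3 * m).primeFactors.card = m.primeFactors.card + 1 := by
    rw [hco.primeFactors_mul, h3p.primeFactors, card_union_of_disjoint, card_singleton, add_comm]
    rw [disjoint_singleton_left]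
    exact fun h => h3m (Nat.dvd_of_mem_primeFactors h)
  have hm3 : m % 3 = 1 ∨ m % 3 = 2 := by omega
  rcases hm3 with hm3 | hm3
  · exact hI.three hIH hm hm3 (by omega)
  · -- exchange one prime factor of `m`
    have hm1 : 1 < m := by omega
    obtain ⟨p, hp⟩ := Nat.nonempty_primeFactors.mpr hm1
    have hpp := Nat.prime_of_mem_primeFactors hp
    obtain ⟨m1, hm1'⟩ := Nat.dvd_of_mem_primeFactors hp
    have hr : m1 % 3 = 1 ∨ m1 % 3 = 2 := by
      have : m1 % 3 ≠ 0 := by
        intro h0
        rw [hm1', Nat.mul_mod, h0] at hm3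
        omega
      omega
    obtain ⟨q, hq, hqp, hDq, hq3⟩ := exists_Dm_prime (3 * m) (m1 % 3) hr
    have hq0 : ¬ q ∣ 3 * m := by
      intro h
      have := Nat.le_of_dvd (by omega) h
      omega
    have e1 : p * (3 * m1) = 3 * m := by rw [hm1']; ring
    have hcoq : Nat.Coprime (3 * m) q := ((Nat.Prime.coprime_iff_not_dvd hqp).mpr hq0).symm
    have hn : Dm (p * (3 * m1) * q) := by
      rw [e1]
      refine ⟨by rw [Nat.mul_mod, hV4, hDq.1], ?_, ?_⟩
      · exact Nat.squarefree_mul_iff.mpr ⟨hcoq, hsq, hqp.squarefree⟩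
      · have h1 := hDq.2.2
        push_cast at hJ ⊢
        rw [jacobiSym.mul_left _ (q : ℤ), hJ, h1]; norm_num
    have hcn : (p * (3 * m1) * q).primeFactors.card = t := by
      rw [e1, hcoq.primeFactors_mul, hqp.primeFactors, card_union_of_disjoint, card_singleton, ht]
      rw [disjoint_singleton_right]
      exact fun h => hq0 (Nat.dvd_of_mem_primeFactors h)
    rw [← e1]
    refine hI.replace hIH hpp hqp hn hDq hcn fun hDp => ?_
    -- the new product
    have e2 : 3 * m1 * q = 3 * (m1 * q) := by ring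
    rw [e2]
    have hmsq : Squarefree (p * m1) := hm1' ▸ hsqm
    obtain ⟨hcopm, -, hsqm1⟩ := Nat.squarefree_mul_iff.mp hmsq
    have hcoqm : Nat.Coprime m1 q := Nat.Coprime.coprime_dvd_left
      ⟨3 * p, by rw [hm1']; ring⟩ hcoq
    have hm14 : m1 % 4 = 1 := by
      have h1 := hDp.1
      rw [hm1', Nat.mul_mod, h1] at hm4
      omega
    have hJm1 : jacobiSym m1 17 = 1 := by
      have h1 := hDp.2.2
      rw [hm1'] at hJm
      push_cast at hJm
      rw [jacobiSym.mul_left, h1] at hJm
      linarith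
    have hDnew : Dm (m1 * q) := by
      refine ⟨by rw [Nat.mul_mod, hm14, hDq.1], ?_, ?_⟩
      · exact Nat.squarefree_mul_iff.mpr ⟨hcoqm, hsqm1, hqp.squarefree⟩
      · have h1 := hDq.2.2
        push_cast
        rw [jacobiSym.mul_left, hJm1, h1]; norm_num
    have hnew3 : (m1 * q) % 3 = 1 := by
      rw [Nat.mul_mod, hq3]
      rcases hr with h | h <;> rw [h]
    have hcnew : (m1 * q).primeFactors.card = m.primeFactors.card := by
      have hpm1 : ¬ p ∣ m1 := (Nat.Prime.coprime_iff_not_dvd hpp).mp hcopm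
      have hqm1 : ¬ q ∣ m1 := (Nat.Prime.coprime_iff_not_dvd hqp).mp hcoqm.symm
      rw [hm1', hcopm.primeFactors_mul, hcoqm.primeFactors_mul, hpp.primeFactors, hqp.primeFactors,
        card_union_of_disjoint, card_union_of_disjoint, card_singleton, card_singleton, add_comm]
      · rw [disjoint_singleton_left]
        exact fun h => hpm1 (Nat.dvd_of_mem_primeFactors h)
      · rw [disjoint_singleton_right]
        exact fun h => hqm1 (Nat.dvd_of_mem_primeFactors h)
    exact hI.three hIH hDnew hnew3 (by rw [hcnew]; omega)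

/-- **the even periods** -/
theorem Inp.even {t : ℕ} (hIH : IHt D t) {V : ℕ} (hV : Dp V) (hV1 : V ≠ 1)
    (ht : V.primeFactors.card + 1 = t) : SBp V (D V.primeFactors) := by
  have h3p : (3 : ℕ).Prime := Nat.prime_three
  by_cases h3 : 3 ∣ V
  · obtain ⟨m, rfl⟩ := h3
    exact hI.even3 hIH hV ht
  · obtain ⟨hV4, hsq, hJ⟩ := hV
    have hV2 : 1 < V := by omega
    obtain ⟨p, hp⟩ := Nat.nonempty_primeFactors.mpr hV2
    have hpp := Nat.prime_of_mem_primeFactors hp
    obtain ⟨V1, hV1'⟩ := Nat.dvd_of_mem_primeFactors hp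
    have hco3 : Nat.Coprime V 3 := ((Nat.Prime.coprime_iff_not_dvd h3p).mpr h3).symm
    have hD3 : Dm 3 := ⟨rfl, sq3, J3_17⟩
    have hn : Dm (p * V1 * 3) := by
      rw [← hV1']
      refine ⟨by omega, Nat.squarefree_mul_iff.mpr ⟨hco3, hsq, sq3⟩, ?_⟩
      push_cast
      rw [jacobiSym.mul_left, hJ, J3_17]; norm_num
    have hcn : (p * V1 * 3).primeFactors.card = t := by
      rw [← hV1', hco3.primeFactors_mul, h3p.primeFactors, card_union_of_disjoint, card_singleton,
        ht]
      rw [disjoint_singleton_right]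
      exact fun h => h3 (Nat.dvd_of_mem_primeFactors h)
    rw [hV1']
    refine hI.replace hIH hpp h3p hn hD3 hcn fun hDp => ?_
    rw [mul_comm V1 3]
    have hVsq : Squarefree (p * V1) := hV1' ▸ hsq
    obtain ⟨hcop, -, hsqV1⟩ := Nat.squarefree_mul_iff.mp hVsq
    have hco31 : Nat.Coprime 3 V1 := Nat.Coprime.coprime_dvd_right ⟨p, by rw [hV1']; ring⟩ hco3.symm
    have hV14 : V1 % 4 = 3 := by
      have h1 := hDp.1
      rw [hV1', Nat.mul_mod, h1] at hV4
      omega
    have hJ1 : jacobiSym V1 17 = -1 := by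
      have h1 := hDp.2.2
      rw [hV1'] at hJ
      push_cast at hJ
      rw [jacobiSym.mul_left, h1] at hJ
      linarith
    have hnew : Dp (3 * V1) := by
      refine ⟨by omega, Nat.squarefree_mul_iff.mpr ⟨hco31, sq3, hsqV1⟩, ?_⟩
      push_cast
      rw [jacobiSym.mul_left, hJ1, J3_17]; norm_num
    have hcnew : (3 * V1).primeFactors.card = V.primeFactors.card := by
      have hpV1 : ¬ p ∣ V1 := (Nat.Prime.coprime_iff_not_dvd hpp).mp hcop
      have h3V1 : ¬ 3 ∣ V1 := (Nat.Prime.coprime_iff_not_dvd h3p).mp hco31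
      rw [hV1', hcop.primeFactors_mul, hco31.primeFactors_mul, hpp.primeFactors, h3p.primeFactors,
        card_union_of_disjoint, card_union_of_disjoint, card_singleton, card_singleton]
      · rw [disjoint_singleton_left]
        exact fun h => hpV1 (Nat.dvd_of_mem_primeFactors h)
      · rw [disjoint_singleton_left]
        exact fun h => h3V1 (Nat.dvd_of_mem_primeFactors h)
    exact hI.even3 hIH hnew (by rw [hcnew]; exact ht)

/-- the parity of the odd period in terms of the toric period -/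
theorem Inp.odd {t : ℕ} (hIH : IHt D t)
    (hQ : ∀ V, Dp V → V ≠ 1 → V.primeFactors.card + 1 ≤ t → SBp V (D V.primeFactors))
    {n : ℕ} {C : Type} [CommGroup C] [Fintype C] {phi : C → ℤ} {chi : ℕ → C → ℤ}
    (h : BD n C phi chi) (hR : ((nsq C : ℕ) : ZMod 2) = g n.primeFactors) (hn : Dm n)
    (ht : n.primeFactors.card = t) :
    Gd (n.primeFactors.card - 1) (PV phi chi 1) (D n.primeFactors) := by
  classical
  have hn0 := hn.2.1.ne_zero
  have hterm : ∀ V ∈ (D1 n).erase 1, Gd (n.primeFactors.card - 1) (PV phi chi V)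
      (D V.primeFactors * D (n / V).primeFactors) := by
    intro V hV
    obtain ⟨hV1, hVm⟩ := Finset.mem_erase.mp hV
    refine hI.good hIH h hn ht hVm hV1 fun hDp hDm => ?_
    have hVp := D1_props hn hVm
    have hc := card_split hn.2.1 hVp.1
    have hW2 : 1 < n / V := by
      have := hVp.2.2.1
      generalize n / V = w at this ⊢
      omega
    have c2 := card_pos' hW2
    exact hQ V hDp hV1 (by omega)
  obtain ⟨k, hk⟩ := h.coset 1
  have hone : ∀ V ∈ D1 n, chi V 1 = 1 := by
    intro V hV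
    have := h.chi_mul V hV 1 1
    rw [mul_one] at this
    rcases h.chi_val V hV 1 with h | h
    · exact h
    · rw [h] at this; norm_num at this
  have hk' : ∑ V ∈ D1 n, PV phi chi V =
      2 ^ (n.primeFactors.card - 1) * ((nsq C : ℤ) + 4 * k) := by
    rw [← hk]
    exact Finset.sum_congr rfl fun V hV => by rw [hone V hV, one_mul]
  have hF := hI.f1 hn
  have h1m := one_mem_D1 (n := n) hn0
  rw [← Finset.add_sum_erase _ _ h1m] at hk' hF
  have hG := Gd.sum ((D1 n).erase 1) hterm
  have hG1 := (Gd.of_mul (s := n.primeFactors.card - 1) ((nsq C : ℤ) + 4 * k)).sub hG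
  refine hG1.congr (by linarith) ?_
  push_cast
  rw [hR, show (4 : ZMod 2) = 0 by decide, zero_mul, add_zero, ← hF, Nat.primeFactors_one,
    hI.ex.empty, one_mul, Nat.div_one]
  have h2 := CharTwo.add_self_eq_zero (∑ V ∈ (D1 n).erase 1,
    D V.primeFactors * D (n / V).primeFactors)
  linear_combination h2

theorem Inp.all (t : ℕ) : IHt D t := by
  induction t with
  | zero => exact ⟨fun n _ h => absurd h (Nat.not_lt_zero _), fun V _ _ h => absurd h (Nat.not_lt_zero _)⟩
  | succ t ih =>
    have hQ : ∀ V, Dp V → V ≠ 1 → V.primeFactors.card + 1 ≤ t → SBp V (D V.primeFactors) := by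
      intro V hV hV1 hc
      rcases Nat.lt_or_ge (V.primeFactors.card + 1) t with h | h
      · exact ih.2 V hV hV1 h
      · exact hI.even ih hV hV1 (by omega)
    refine ⟨fun n hn hc => ?_, fun V hV hV1 hc => hQ V hV hV1 (by omega)⟩
    rcases Nat.lt_or_ge n.primeFactors.card t with h | h
    · exact ih.1 n hn h
    · have ht : n.primeFactors.card = t := by omega
      by_cases hn3 : n = 3
      · subst hn3
        rw [Nat.prime_three.primeFactors, hI.dq Nat.prime_three hn]
        refine ⟨1, 1, by decide, ?_, by simp⟩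
        rw [prime_card Nat.prime_three, eo3]; norm_num
      · have hn4 := hn.1
        obtain ⟨C, _, _, phi, chi, hB, -, hR⟩ := hI.bd n hn (by omega)
        obtain ⟨p, hp, hpa⟩ := hI.odd ih hQ hB hR hn ht
        refine ⟨p, 1, by decide, ?_, hpa⟩
        rw [hB.eo_eq hn4 hn.2.1 hn.2.2, hp]
        push_cast; ring

/-- **the recursion, odd case** -/
theorem Inp.main_odd {n : ℕ} (hn : Dm n) {ρ : G → ℝ} (hρ : Par ρ)
    (ho : ∀ A, ρ (cG A) = (-1) * ρ A) :
    ∃ P : ℤ, ell ρ n = ell ρ 3 * (P : ℝ) ^ 2 ∧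
      Gd (n.primeFactors.card - 1) P (D n.primeFactors) := by
  by_cases hn3 : n = 3
  · subst hn3
    rw [Nat.prime_three.primeFactors, hI.dq Nat.prime_three hn, card_singleton]
    exact ⟨1, by norm_num, 1, by norm_num, by simp⟩
  · have hn4 := hn.1
    obtain ⟨C, _, _, phi, chi, hB, -, hR⟩ := hI.bd n hn (by omega)
    have hIH := hI.all (n.primeFactors.card)
    have hIH' := hI.all (n.primeFactors.card + 1)
    exact ⟨PV phi chi 1, hB.ell_odd hn4 hn.2.1 hn.2.2 hρ ho,
      hI.odd hIH (fun V hV hV1 hc => (hI.all (V.primeFactors.card + 2)).2 V hV hV1 (by omega))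
        hB hR hn rfl⟩

/-- **the recursion, even case** -/
theorem Inp.main_even {V : ℕ} (hV : Dp V) (hV1 : V ≠ 1) : SBp V (D V.primeFactors) :=
  (hI.all (V.primeFactors.card + 2)).2 V hV hV1 (by omega)

end

end Vale.Agent.P014.H74
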