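import Vale.Agent.P014.H74.F4

/-!
# Theorem B, part 5: the even periods for a general even homomorphism
-/

namespace Vale.Agent.P014.H74

/-- the even period of a general even homomorphism -/
theorem ell_even {V : ℕ} (hV : Dp V) {ρ : G → ℝ} (hρ : Par ρ) (he : ∀ A, ρ (cG A) = 1 * ρ A) :
    8 * ell ρ V = ρ gh * ee V := by
  have h17 : Nat.Coprime 17 V := coprime_of_J (by rw [hV.2.2]; norm_num)
  haveI : NeZero V := ⟨by have := hV.1; omega⟩
  have p1 := ell_prop' (n := V) hρ rc3_par (ε := 1) (Or.inl rfl) he rc3_even h17 gh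
  have e3 : ((rc 3 gh : ℤ) : ℝ) = 8 := by rw [rc3_gh]; norm_num
  rw [e3] at p1
  unfold ee
  linarith

variable {D g : Finset ℕ → ZMod 2}

/-- **the recursion, even case, for a general even homomorphism** -/
theorem Inp.main_even_rho (hI : Inp D g) {V : ℕ} (hV : Dp V) (hV1 : V ≠ 1) {ρ : G → ℝ}
    (hρ : Par ρ) (he : ∀ A, ρ (cG A) = 1 * ρ A) :
    ∃ q u : ℤ, Odd u ∧ 4 * (ell ρ V * (u : ℝ) ^ 2) =
      - (ρ gh * ((2 ^ V.primeFactors.card * q : ℤ) : ℝ) ^ 2) ∧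
      (q : ZMod 2) = D V.primeFactors := by
  obtain ⟨q, u, hu, h1, h2⟩ := hI.main_even hV hV1
  refine ⟨q, u, hu, ?_, h2⟩
  have h3 := ell_even hV hρ he
  have h4 : 8 * ell ρ V * (u : ℝ) ^ 2 = ρ gh * (ee V * (u : ℝ) ^ 2) := by rw [h3]; ring
  rw [h1] at h4
  linarith

end Vale.Agent.P014.H74
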