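import Vale.Agent.P014.H74.C2

/-!
# P014, module C, part 3: the structure `BD` from the theta coefficients and the count
-/

set_option linter.unusedSectionVars false
set_option linter.style.haveILetI false

namespace Vale.Agent.P014.H74

open Finset

theorem R_one (A B : ℕ) : R A B 1 = 1 := by
  unfold R
  simp

theorem R_two (A B : ℕ) : R A B 2 = jacobiSym 2 A + jacobiSym 2 B := by
  unfold R
  have h : (2 : ℕ).divisorsAntidiagonal = {(1, 2), (2, 1)} := by decide
  rw [h, Finset.sum_pair (by decide)]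
  simp
  ring

section

variable {n : ℕ} {C : Type} [CommGroup C] [Fintype C] {phi : C → ℤ} {chi : ℕ → C → ℤ}

/-- the relations `B1`, `B2` from the coefficients of the theta series and the count -/
theorem BD_of
    (phi_val : ∀ x, phi x = 1 ∨ phi x = -3)
    (chi_mul : ∀ V ∈ D1 n, ∀ x y, chi V (x * y) = chi V x * chi V y)
    (chi_one : ∀ x, chi 1 x = 1)
    (chi_val : ∀ V ∈ D1 n, ∀ x, chi V x = 1 ∨ chi V x = -1)
    (chi_ne : ∀ V ∈ D1 n, V ≠ 1 → ∃ x, chi V x = -1)
    (orth : open Classical in ∀ x, ∑ V ∈ D1 n, chi V x =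
      if IsSquare x then 2 ^ (n.primeFactors.card - 1) else 0)
    (CN : AH n = - (n * (Fintype.card C : ℤ)))
    (hn : n ≠ 0)
    (rn : C → C → ℕ → ℤ)
    (h1 : ∀ A B, 2 * rn A B 1 = phi A * phi B + 3)
    (h2 : ∀ A B, rn A B 2 = 6 - rn A B 1)
    (count : ∀ V ∈ D1 n, ∀ m, m = 1 ∨ m = 2 →
      2 ^ n.primeFactors.card * ∑ A, ∑ B, chi V A * chi V B * rn A B m =
      2 ^ n.primeFactors.card * (2 * (Fintype.card C : ℤ) * R V (n / V) m) + 2 * SA V (n / V) m) :
    BD n C phi chi := by
  classical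
  have hsum : ∀ V ∈ D1 n, V ≠ 1 → ∑ x, chi V x = 0 := by
    intro V hV hV1
    obtain ⟨a, ha⟩ := chi_ne V hV hV1
    have e1 : ∑ x, chi V x = ∑ x, chi V (a * x) :=
      (Equiv.sum_comp (Equiv.mulLeft a) (fun x => chi V x)).symm
    have e2 : ∑ x, chi V (a * x) = - ∑ x, chi V x := by
      rw [← Finset.sum_neg_distrib]
      refine Finset.sum_congr rfl fun x _ => ?_
      rw [chi_mul V hV, ha]; ring
    linarith
  have hsq : ∀ V ∈ D1 n, 2 * ∑ A, ∑ B, chi V A * chi V B * rn A B 1 =
      (∑ x, chi V x * phi x) ^ 2 + 3 * (∑ x, chi V x) ^ 2 := by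
    intro V _
    rw [sq, sq, Finset.sum_mul_sum, Finset.sum_mul_sum, Finset.mul_sum, Finset.mul_sum,
      ← Finset.sum_add_distrib]
    refine Finset.sum_congr rfl fun A _ => ?_
    rw [Finset.mul_sum, Finset.mul_sum, ← Finset.sum_add_distrib]
    refine Finset.sum_congr rfl fun B _ => ?_
    linear_combination (chi V A * chi V B) * h1 A B
  refine ⟨phi_val, chi_mul, chi_one, chi_val, chi_ne, orth, ?_, ?_, CN⟩
  · intro V hV hV1
    have c := count V hV 1 (Or.inl rfl)
    have s := hsq V hV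
    rw [hsum V hV hV1] at s
    rw [R_one] at c
    rw [pow_add]
    linear_combination 2 * c - 2 ^ n.primeFactors.card * s
  · have hV := one_mem_D1 (n := n) hn
    have c1 := count 1 hV 1 (Or.inl rfl)
    have c2 := count 1 hV 2 (Or.inr rfl)
    have s := hsq 1 hV
    simp only [chi_one, one_mul] at c1 c2 s
    rw [R_one, Nat.div_one] at c1
    rw [R_two, Nat.div_one, jacobiSym.one_right] at c2
    have e : ∑ A : C, ∑ B : C, rn A B 2 = 6 * (Fintype.card C : ℤ) ^ 2 - ∑ A : C, ∑ B : C, rn A B 1 := by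
      simp only [h2, Finset.sum_sub_distrib]
      simp
      ring
    rw [e] at c2
    have e3 : ∑ x : C, (1 : ℤ) = Fintype.card C := by simp
    rw [e3] at s
    have h4 : 4 * (2 ^ n.primeFactors.card * (∑ x, phi x) ^ 2) =
        4 * (2 ^ n.primeFactors.card * (Fintype.card C : ℤ) * (2 - jacobiSym 2 n) +
        3 * SA 1 n 1 - SA 1 n 2) := by
      linear_combination 6 * c1 - 2 * c2 - 4 * 2 ^ n.primeFactors.card * s
    linarith

end

end Vale.Agent.P014.H74
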