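import Vale.Agent.P014.H74.F1
import Vale.Agent.P014.H74.E7
import Vale.Agent.P014.H74.C3
import Vale.Agent.P014.NMat

/-!
# Theorem B, part 2: divisibility with parity, the discriminants, the characters
-/

set_option linter.unusedSectionVars false
set_option linter.style.haveILetI false

namespace Vale.Agent.P014.H74

open Finset

/-! ### divisibility with a prescribed parity of the quotient -/

/-- `P = 2 ^ s * p` with `p` of parity `a` -/
def Gd (s : ℕ) (P : ℤ) (a : ZMod 2) : Prop := ∃ p : ℤ, P = 2 ^ s * p ∧ (p : ZMod 2) = a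

theorem Gd.zero (s : ℕ) : Gd s 0 0 := ⟨0, by ring, by simp⟩

theorem Gd.add {s : ℕ} {P Q : ℤ} {a b : ZMod 2} (h1 : Gd s P a) (h2 : Gd s Q b) :
    Gd s (P + Q) (a + b) := by
  obtain ⟨p, hp, rfl⟩ := h1
  obtain ⟨q, hq, rfl⟩ := h2
  exact ⟨p + q, by rw [hp, hq]; ring, by push_cast; rfl⟩

theorem Gd.neg {s : ℕ} {P : ℤ} {a : ZMod 2} (h1 : Gd s P a) : Gd s (-P) a := by
  obtain ⟨p, hp, rfl⟩ := h1
  exact ⟨-p, by rw [hp]; ring, by push_cast; exact CharTwo.neg_eq _⟩

theorem Gd.sub {s : ℕ} {P Q : ℤ} {a b : ZMod 2} (h1 : Gd s P a) (h2 : Gd s Q b) :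
    Gd s (P - Q) (a + b) := by
  rw [sub_eq_add_neg]; exact h1.add h2.neg

theorem Gd.sum {ι : Type*} {s : ℕ} (A : Finset ι) {P : ι → ℤ} {a : ι → ZMod 2}
    (h : ∀ i ∈ A, Gd s (P i) (a i)) : Gd s (∑ i ∈ A, P i) (∑ i ∈ A, a i) := by
  classical
  induction A using Finset.induction_on with
  | empty => simpa using Gd.zero s
  | insert i A hi ih =>
    rw [Finset.sum_insert hi, Finset.sum_insert hi]
    exact (h i (mem_insert_self _ _)).add (ih fun j hj => h j (mem_insert_of_mem hj))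

theorem Gd.of_mul {s : ℕ} (k : ℤ) : Gd s (2 ^ s * k) k := ⟨k, rfl, rfl⟩

theorem Gd.congr {s : ℕ} {P Q : ℤ} {a b : ZMod 2} (h : Gd s P a) (h1 : P = Q) (h2 : a = b) :
    Gd s Q b := h1 ▸ h2 ▸ h

theorem cast_odd {u : ℤ} (h : Odd u) : (u : ZMod 2) = 1 := by
  obtain ⟨k, rfl⟩ := h
  push_cast
  rw [show (2 : ZMod 2) = 0 by decide]; ring

theorem odd_of_cast {u : ℤ} (h : (u : ZMod 2) = 1) : Odd u := by
  rw [← Int.not_even_iff_odd]
  intro h2
  rw [even_iff_two_dvd] at h2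
  have := (ZMod.intCast_zmod_eq_zero_iff_dvd u 2).mpr (by exact_mod_cast h2)
  rw [this] at h; exact absurd h (by decide)

/-- from a relation between squares -/
theorem Gd.of_sq {s : ℕ} {P u q : ℤ} (hu : Odd u) (h : (P * u) ^ 2 = (2 ^ s * q) ^ 2) :
    Gd s P q := by
  have h1 : P * u = 2 ^ s * q ∨ P * u = 2 ^ s * (-q) := by
    rcases sq_eq_sq_iff_eq_or_eq_neg.mp h with h1 | h1
    · exact Or.inl h1
    · exact Or.inr (by rw [h1]; ring)
  have h2 : ∃ q' : ℤ, P * u = 2 ^ s * q' ∧ (q' : ZMod 2) = q := by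
    rcases h1 with h1 | h1
    · exact ⟨q, h1, rfl⟩
    · exact ⟨-q, h1, by push_cast; exact CharTwo.neg_eq _⟩
  obtain ⟨q', h3, h4⟩ := h2
  have hco : IsCoprime ((2 : ℤ) ^ s) u := by
    refine IsCoprime.pow_left ?_
    rw [Int.isCoprime_iff_gcd_eq_one]
    exact Int.isCoprime_iff_gcd_eq_one.mp (by
      obtain ⟨k, rfl⟩ := hu
      exact ⟨-k, 1, by ring⟩)
  obtain ⟨p, rfl⟩ := hco.dvd_of_dvd_mul_right (Dvd.intro _ h3.symm)
  refine ⟨p, rfl, ?_⟩
  have h5 : p * u = q' := by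
    have h0 : (2 : ℤ) ^ s ≠ 0 := by positivity
    apply mul_left_cancel₀ h0
    rw [← h3]; ring
  rw [← h4, ← h5]
  push_cast
  rw [cast_odd hu, mul_one]

/-! ### the discriminants -/

/-- the family of odd discriminants -/
def Dm (n : ℕ) : Prop := n % 4 = 3 ∧ Squarefree n ∧ jacobiSym n 17 = -1

/-- the family of even discriminants -/
def Dp (n : ℕ) : Prop := n % 4 = 1 ∧ Squarefree n ∧ jacobiSym n 17 = 1

theorem prod_mod4 (S : Finset ℕ) (h : ∀ q ∈ S, q % 2 = 1) :
    (∏ q ∈ S, q) % 4 = if ∑ q ∈ S, eP q = 0 then 1 else 3 := by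
  induction S using Finset.induction_on with
  | empty => simp
  | insert i S hi ih =>
    have h1 := ih fun q hq => h q (mem_insert_of_mem hq)
    have h2 := h i (mem_insert_self _ _)
    rw [Finset.prod_insert hi, Finset.sum_insert hi, Nat.mul_mod, h1]
    unfold eP
    have h3 : i % 4 = 1 ∨ i % 4 = 3 := by omega
    have h4 : ∀ a : ZMod 2, a = 0 ∨ a = 1 := by decide
    rcases h4 (∑ q ∈ S, if q % 4 = 3 then (1 : ZMod 2) else 0) with h5 | h5 <;>
      rcases h3 with h3 | h3 <;> rw [h3, h5] <;> decide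

theorem prod_J17 (S : Finset ℕ) (h : ∀ q ∈ S, jacobiSym q 17 ≠ 0) :
    jacobiSym ((∏ q ∈ S, q : ℕ) : ℤ) 17 = if ∑ q ∈ S, sP q = 0 then 1 else -1 := by
  induction S using Finset.induction_on with
  | empty => simp
  | insert i S hi ih =>
    have h1 := ih fun q hq => h q (mem_insert_of_mem hq)
    have h2 := h i (mem_insert_self _ _)
    rw [Finset.prod_insert hi, Finset.sum_insert hi]
    push_cast at h1 ⊢
    rw [jacobiSym.mul_left, h1]
    unfold sP
    have h3 : jacobiSym i 17 = 1 ∨ jacobiSym i 17 = -1 := by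
      rcases jacobiSym.trichotomy i 17 with h3 | h3 | h3
      · exact absurd h3 h2
      · exact Or.inl h3
      · exact Or.inr h3
    have h4 : ∀ a : ZMod 2, a = 0 ∨ a = 1 := by decide
    rcases h4 (∑ q ∈ S, if jacobiSym q 17 = -1 then (1 : ZMod 2) else 0) with h5 | h5 <;>
      rcases h3 with h3 | h3 <;> rw [h3, h5] <;> decide

theorem prime_J17 {n q : ℕ} (h : jacobiSym n 17 ≠ 0) (hq : q ∣ n) : jacobiSym q 17 ≠ 0 := by
  obtain ⟨m, rfl⟩ := hq
  intro h0
  apply h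
  push_cast
  rw [jacobiSym.mul_left, h0, zero_mul]

theorem esum {n : ℕ} (hsq : Squarefree n) (h2 : n % 2 = 1) :
    n % 4 = if ∑ q ∈ n.primeFactors, eP q = 0 then 1 else 3 := by
  have h := prod_mod4 n.primeFactors (fun q hq => by
    have hd := Nat.dvd_of_mem_primeFactors hq
    by_contra hc
    have h3 : 2 ∣ q := by omega
    have := h3.trans hd
    omega)
  rwa [Nat.prod_primeFactors_of_squarefree hsq] at h

theorem ssum {n : ℕ} (hsq : Squarefree n) (h17 : jacobiSym n 17 ≠ 0) :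
    jacobiSym n 17 = if ∑ q ∈ n.primeFactors, sP q = 0 then 1 else -1 := by
  have h := prod_J17 n.primeFactors (fun q hq => prime_J17 h17 (Nat.dvd_of_mem_primeFactors hq))
  rwa [Nat.prod_primeFactors_of_squarefree hsq] at h

theorem z2 (a : ZMod 2) : a = 0 ∨ a = 1 := by revert a; decide

theorem Dm.e {n : ℕ} (h : Dm n) : ∑ q ∈ n.primeFactors, eP q = 1 := by
  obtain ⟨h4, hsq, -⟩ := h
  have := esum hsq (by omega)
  rcases z2 (∑ q ∈ n.primeFactors, eP q) with h1 | h1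
  · rw [h1, if_pos rfl] at this; omega
  · exact h1

theorem Dm.s {n : ℕ} (h : Dm n) : ∑ q ∈ n.primeFactors, sP q = 1 := by
  obtain ⟨h4, hsq, h17⟩ := h
  have := ssum hsq (by rw [h17]; norm_num)
  rcases z2 (∑ q ∈ n.primeFactors, sP q) with h1 | h1
  · rw [h1, if_pos rfl, h17] at this; norm_num at this
  · exact h1

theorem pf_div {n V : ℕ} (hsq : Squarefree n) (hV : V ∣ n) :
    (n / V).primeFactors = n.primeFactors \ V.primeFactors := by
  obtain ⟨W, rfl⟩ := hV
  have hco := (Nat.squarefree_mul_iff.mp hsq).1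
  have hV0 : 0 < V := Nat.pos_of_ne_zero (by rintro rfl; simp at hsq)
  rw [Nat.mul_div_cancel_left _ hV0, hco.primeFactors_mul, union_sdiff_left,
    Finset.sdiff_eq_self_of_disjoint]
  exact hco.disjoint_primeFactors.symm

/-- the divisors are the subsets of the set of primes -/
theorem sum_D1 {M : Type*} [AddCommMonoid M] {n : ℕ} (hsq : Squarefree n) (h2 : n % 2 = 1)
    (F : Finset ℕ → M) :
    ∑ S ∈ n.primeFactors.powerset.filter (fun S => ∑ i ∈ S, eP i = 0), F S =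
      ∑ V ∈ D1 n, F V.primeFactors := by
  symm
  have hprod : ∀ S ⊆ n.primeFactors, (∏ i ∈ S, i) ∣ n := by
    intro S hS
    have := Finset.prod_dvd_prod_of_subset S n.primeFactors (fun i => i) hS
    rwa [Nat.prod_primeFactors_of_squarefree hsq] at this
  have hpf : ∀ S ⊆ n.primeFactors, (∏ i ∈ S, i).primeFactors = S := by
    intro S hS
    exact Nat.primeFactors_prod fun p hp => Nat.prime_of_mem_primeFactors (hS hp)
  refine Finset.sum_nbij' (fun V => V.primeFactors) (fun S => ∏ i ∈ S, i) ?_ ?_ ?_ ?_ ?_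
  · intro V hV
    obtain ⟨hVn, hV4⟩ := Finset.mem_filter.mp hV
    have hd := Nat.dvd_of_mem_divisors hVn
    rw [mem_filter, mem_powerset]
    refine ⟨Nat.primeFactors_mono hd hsq.ne_zero, ?_⟩
    have := esum (hsq.squarefree_of_dvd hd) (by omega)
    rcases z2 (∑ q ∈ V.primeFactors, eP q) with h1 | h1
    · exact h1
    · rw [h1, if_neg (by decide)] at this; omega
  · intro S hS
    rw [mem_filter, mem_powerset] at hS
    rw [D1, mem_filter, Nat.mem_divisors]
    refine ⟨⟨hprod S hS.1, hsq.ne_zero⟩, ?_⟩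
    have hd := hprod S hS.1
    have h2' : (∏ i ∈ S, i) % 2 = 1 := by
      by_contra hc
      have h3 : 2 ∣ (∏ i ∈ S, i) := by omega
      have := h3.trans hd
      omega
    have := esum (hsq.squarefree_of_dvd hd) h2'
    rw [hpf S hS.1, hS.2, if_pos rfl] at this
    exact this
  · intro V hV
    obtain ⟨hVn, hV4⟩ := Finset.mem_filter.mp hV
    have hd := Nat.dvd_of_mem_divisors hVn
    exact Nat.prod_primeFactors_of_squarefree (hsq.squarefree_of_dvd hd)
  · intro S hS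
    rw [mem_filter, mem_powerset] at hS
    exact hpf S hS.1
  · intro V _; rfl

theorem D1_props {n V : ℕ} (h : Dm n) (hV : V ∈ D1 n) :
    V ∣ n ∧ V % 4 = 1 ∧ (n / V) % 4 = 3 ∧ n = V * (n / V) ∧ Squarefree V ∧ Squarefree (n / V) ∧
      (jacobiSym V 17 = 1 ∨ jacobiSym V 17 = -1) := by
  obtain ⟨h4, hsq, h17⟩ := h
  obtain ⟨hVn, hV4⟩ := Finset.mem_filter.mp hV
  obtain ⟨W, hW⟩ := Nat.dvd_of_mem_divisors hVn
  have hV0 : 0 < V := by omega
  have hdiv : n / V = W := by rw [hW, Nat.mul_div_cancel_left _ hV0]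
  have hW4 : W % 4 = 3 := by
    have : V * W % 4 = 3 := by rw [← hW]; exact h4
    rw [Nat.mul_mod, hV4] at this
    omega
  have hJ := J_ne (a := V) (b := W) (by rw [← hW]; exact h17)
  rw [hdiv]
  exact ⟨Dvd.intro _ hW.symm, hV4, hW4, hW, hsq.squarefree_of_dvd (Dvd.intro _ hW.symm),
    hsq.squarefree_of_dvd (Dvd.intro_left _ hW.symm), hJ⟩

theorem D1_split {n V : ℕ} (h : Dm n) (hV : V ∈ D1 n) (hJ : jacobiSym V 17 = 1) :
    Dp V ∧ Dm (n / V) := by
  obtain ⟨hd, h1, h2, h3, h4, h5, -⟩ := D1_props h hV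
  refine ⟨⟨h1, h4, hJ⟩, ⟨h2, h5, ?_⟩⟩
  have h17 := h.2.2
  rw [h3] at h17
  push_cast at h17
  rw [jacobiSym.mul_left, hJ, one_mul] at h17
  exact h17

/-- the number of prime factors -/
theorem card_split {n V : ℕ} (hsq : Squarefree n) (hV : V ∣ n) :
    n.primeFactors.card = V.primeFactors.card + (n / V).primeFactors.card := by
  rw [pf_div hsq hV, Finset.card_sdiff_of_subset (Nat.primeFactors_mono hV hsq.ne_zero)]
  have := Finset.card_le_card (Nat.primeFactors_mono hV hsq.ne_zero)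
  omega

/-! ### the periods -/

/-- the odd period with the parity -/
def SAp (n : ℕ) (a : ZMod 2) : Prop := ∃ q u : ℤ, Odd u ∧
  eo n * (u : ℝ) ^ 2 = -8 * ((2 ^ (n.primeFactors.card - 1) * q : ℤ) : ℝ) ^ 2 ∧ (q : ZMod 2) = a

/-- the even period with the parity -/
def SBp (V : ℕ) (b : ZMod 2) : Prop := ∃ q u : ℤ, Odd u ∧
  ee V * (u : ℝ) ^ 2 = -2 * ((2 ^ V.primeFactors.card * q : ℤ) : ℝ) ^ 2 ∧ (q : ZMod 2) = b

theorem Gd_of_SS {V W : ℕ} {P : ℤ} {a b : ZMod 2} (h : ee V * eo W = 16 * (P : ℝ) ^ 2)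
    (hV : SBp V b) (hW : SAp W a) {s : ℕ}
    (hs : s = V.primeFactors.card + (W.primeFactors.card - 1)) : Gd s P (b * a) := by
  obtain ⟨q1, u1, o1, e1, rfl⟩ := hV
  obtain ⟨q2, u2, o2, e2, rfl⟩ := hW
  have h1 : (P * (u1 * u2)) ^ 2 = (2 ^ s * (q1 * q2)) ^ 2 := by
    have : ((P : ℝ) * (u1 * u2)) ^ 2 = (2 ^ s * (q1 * q2)) ^ 2 := by
      rw [hs]
      push_cast at e1 e2
      have e3 : (ee V * eo W) * ((u1 : ℝ) ^ 2 * (u2 : ℝ) ^ 2) =
          (-2 * (2 ^ V.primeFactors.card * (q1 : ℝ)) ^ 2) *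
            (-8 * (2 ^ (W.primeFactors.card - 1) * (q2 : ℝ)) ^ 2) := by
        rw [← e1, ← e2]; ring
      rw [h] at e3
      rw [pow_add]
      linear_combination e3 / 16
    exact_mod_cast this
  have := Gd.of_sq (s := s) (o1.mul o2) h1
  simpa using this

theorem SBp_of {V W : ℕ} {P : ℤ} {b : ZMod 2} (h : ee V * eo W = 16 * (P : ℝ) ^ 2)
    (hW : SAp W 1) (hW1 : W.primeFactors.card = 1) (hG : Gd V.primeFactors.card P b) :
    SBp V b := by
  obtain ⟨q, u, ou, e1, hq⟩ := hW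
  obtain ⟨p, hp, rfl⟩ := hG
  rw [hW1] at e1
  refine ⟨p * u, q, odd_of_cast hq, ?_, by push_cast; rw [cast_odd ou, mul_one]⟩
  push_cast at e1 ⊢
  rw [hp] at h
  push_cast at h
  have h2 : eo W = -8 * (q : ℝ) ^ 2 / (u : ℝ) ^ 2 := by
    have hu : (u : ℝ) ≠ 0 := by
      intro h0
      have : u = 0 := by exact_mod_cast h0
      rw [this] at ou; exact absurd ou (by decide)
    rw [eq_div_iff (pow_ne_zero 2 hu), e1]; norm_num
  have hu : (u : ℝ) ≠ 0 := by
    intro h0
    have : u = 0 := by exact_mod_cast h0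
    rw [this] at ou; exact absurd ou (by decide)
  rw [h2] at h
  field_simp at h
  linear_combination (-1 / 8 : ℝ) * h

/-! ### the characters -/

/-- the sign -/
def sg (a : ZMod 2) : ℤ := if a = 0 then 1 else -1

theorem sg_add (a b : ZMod 2) : sg (a + b) = sg a * sg b := by revert a b; decide

theorem sg_eq_neg (a : ZMod 2) : sg a = -1 ↔ a = 1 := by revert a; decide

theorem sg_sq (a : ZMod 2) : sg a * sg a = 1 := by revert a; decide

/-- the genus characters are additive -/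
def ChiAdd (n : ℕ) {C : Type} (chi : ℕ → C → ℤ) : Prop :=
  ∀ x, ∃ c : ℕ → ZMod 2, ∀ V ∈ D1 n, chi V x = sg (∑ q ∈ V.primeFactors, c q)

theorem sum_symm {I : Type*} [DecidableEq I] (c : I → ZMod 2) (S U : Finset I) :
    ∑ i ∈ symmDiff S U, c i = ∑ i ∈ S, c i + ∑ i ∈ U, c i := by
  have h1 : ∑ i ∈ S, c i = ∑ i ∈ S \ U, c i + ∑ i ∈ S ∩ U, c i := by
    rw [add_comm, Finset.sum_inter_add_sum_sdiff]
  have h2 : ∑ i ∈ U, c i = ∑ i ∈ U \ S, c i + ∑ i ∈ S ∩ U, c i := by
    rw [inter_comm, add_comm, Finset.sum_inter_add_sum_sdiff]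
  have h3 : ∑ i ∈ symmDiff S U, c i = ∑ i ∈ S \ U, c i + ∑ i ∈ U \ S, c i := by
    rw [symmDiff_def, sup_eq_union, Finset.sum_union]
    exact disjoint_sdiff_sdiff
  rw [h1, h2, h3]
  have := CharTwo.add_self_eq_zero (∑ i ∈ S ∩ U, c i)
  linear_combination -this

/-- a nontrivial character has sum zero -/
theorem sum_sg_zero {I : Type*} [DecidableEq I] (e d : I → ZMod 2) (T : Finset I)
    {S0 : Finset I} (hS0 : S0 ⊆ T) (he0 : ∑ i ∈ S0, e i = 0) (hd0 : ∑ i ∈ S0, d i = 1) :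
    ∑ S ∈ T.powerset.filter (fun S => ∑ i ∈ S, e i = 0), sg (∑ i ∈ S, d i) = 0 := by
  have key : ∑ S ∈ T.powerset.filter (fun S => ∑ i ∈ S, e i = 0), sg (∑ i ∈ S, d i) =
      ∑ S ∈ T.powerset.filter (fun S => ∑ i ∈ S, e i = 0), (- sg (∑ i ∈ S, d i)) := by
    have hmem : ∀ S ∈ T.powerset.filter (fun S => ∑ i ∈ S, e i = 0),
        symmDiff S S0 ∈ T.powerset.filter (fun S => ∑ i ∈ S, e i = 0) := by
      intro S hS
      rw [mem_filter, mem_powerset] at hS ⊢
      refine ⟨?_, by rw [sum_symm, hS.2, he0, add_zero]⟩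
      intro x hx
      rcases mem_symmDiff.mp hx with h | h
      · exact hS.1 h.1
      · exact hS0 h.1
    refine Finset.sum_nbij' (fun S => symmDiff S S0) (fun S => symmDiff S S0) hmem hmem
      (fun S _ => symmDiff_symmDiff_cancel_right _ _)
      (fun S _ => symmDiff_symmDiff_cancel_right _ _) ?_
    intro S _
    rw [sum_symm, hd0, sg_add]
    have : sg 1 = -1 := by decide
    rw [this]; ring
  rw [Finset.sum_neg_distrib] at key
  linarith

section

variable {n : ℕ} {C : Type} [CommGroup C] [Fintype C] {phi : C → ℤ} {chi : ℕ → C → ℤ}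

theorem BD.chi_sum (h : BD n C phi chi) {V : ℕ} (hV : V ∈ D1 n) (hV1 : V ≠ 1) :
    ∑ x, chi V x = 0 := by
  obtain ⟨a, ha⟩ := h.chi_ne V hV hV1
  have e1 : ∑ x, chi V x = ∑ x, chi V (a * x) :=
    (Equiv.sum_comp (Equiv.mulLeft a) (fun x => chi V x)).symm
  have e2 : ∑ x, chi V (a * x) = - ∑ x, chi V x := by
    rw [← Finset.sum_neg_distrib]
    refine Finset.sum_congr rfl fun x _ => ?_
    rw [h.chi_mul V hV, ha]; ring
  linarith

/-- every family of signs is attained -/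
theorem BD.surj (h : BD n C phi chi) (ha : ChiAdd n chi) (hn : Dm n) (c : ℕ → ZMod 2) :
    ∃ x, ∀ V ∈ D1 n, chi V x = sg (∑ q ∈ V.primeFactors, c q) := by
  have hsq := hn.2.1
  have h2 : n % 2 = 1 := by have := hn.1; omega
  have hsum : ∑ x, ∑ V ∈ D1 n, chi V x * sg (∑ q ∈ V.primeFactors, c q) = Fintype.card C := by
    rw [Finset.sum_comm]
    rw [Finset.sum_eq_single_of_mem 1 (one_mem_D1 hsq.ne_zero)]
    · simp [h.chi_one, sg]
    · intro V hV hV1
      rw [← Finset.sum_mul, h.chi_sum hV hV1, zero_mul]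
  have hpos : (0 : ℤ) < Fintype.card C := by
    haveI : Nonempty C := ⟨1⟩
    exact_mod_cast Fintype.card_pos
  rw [← hsum] at hpos
  have hex : ∃ x ∈ (Finset.univ : Finset C),
      ∑ V ∈ D1 n, chi V x * sg (∑ q ∈ V.primeFactors, c q) ≠ 0 := by
    apply Finset.exists_ne_zero_of_sum_ne_zero
    exact hpos.ne'
  obtain ⟨x, -, hx⟩ := hex
  obtain ⟨d, hd⟩ := ha x
  refine ⟨x, fun V hV => ?_⟩
  rw [hd V hV]
  have e1 : ∑ V ∈ D1 n, chi V x * sg (∑ q ∈ V.primeFactors, c q) =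
      ∑ V ∈ D1 n, sg (∑ q ∈ V.primeFactors, (d q + c q)) := by
    refine Finset.sum_congr rfl fun V hV => ?_
    rw [hd V hV, ← sg_add, Finset.sum_add_distrib]
  rw [e1, ← sum_D1 hsq h2 (fun S => sg (∑ q ∈ S, (d q + c q)))] at hx
  have h3 : ∑ q ∈ V.primeFactors, (d q + c q) = 0 := by
    rcases z2 (∑ q ∈ V.primeFactors, (d q + c q)) with h4 | h4
    · exact h4
    · exfalso
      apply hx
      have hVp := D1_props hn hV
      refine sum_sg_zero eP (fun q => d q + c q) n.primeFactors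
        (Nat.primeFactors_mono hVp.1 hsq.ne_zero) ?_ h4
      have := esum hVp.2.2.2.2.1 (by have := hVp.2.1; omega)
      rcases z2 (∑ q ∈ V.primeFactors, eP q) with h1 | h1
      · exact h1
      · rw [h1, if_neg (by decide), hVp.2.1] at this; omega
  rw [Finset.sum_add_distrib] at h3
  have h5 : ∑ q ∈ V.primeFactors, d q = ∑ q ∈ V.primeFactors, c q := by
    have := CharTwo.add_self_eq_zero (∑ q ∈ V.primeFactors, c q)
    linear_combination h3 - this
  rw [h5]

end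

end Vale.Agent.P014.H74
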