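import Vale.Agent.P014.H74.C1

/-!
# P014, module C, part 2: the induction
-/

set_option linter.unusedSectionVars false
set_option linter.style.haveILetI false

namespace Vale.Agent.P014.H74

open Finset

theorem J_ne {a b : ℕ} (h : jacobiSym ((a * b : ℕ) : ℤ) 17 = -1) :
    jacobiSym a 17 = 1 ∨ jacobiSym a 17 = -1 := by
  push_cast at h
  rw [jacobiSym.mul_left] at h
  rcases jacobiSym.trichotomy a 17 with h1 | h1 | h1
  · rw [h1] at h; norm_num at h
  · exact Or.inl h1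
  · exact Or.inr h1

/-- the divisibility statement for the odd period -/
def So (n : ℕ) : Prop := ∃ p : ℤ, eo n = -8 * (p : ℝ) ^ 2 ∧ (2 : ℤ) ^ (n.primeFactors.card - 1) ∣ p

/-- the divisibility statement for the even period -/
def Re (V : ℕ) : Prop := ∃ r : ℤ, ee V = -2 * (r : ℝ) ^ 2 ∧ (2 : ℤ) ^ (V.primeFactors.card + 1) ∣ r

/-- the family of discriminants -/
structure Fam4 (𝒞 : ℕ → Prop) : Prop where
  basic : ∀ n, 𝒞 n → n % 4 = 3 ∧ Squarefree n ∧ jacobiSym n 17 = -1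
  div : ∀ d1 d2, 𝒞 (d1 * d2) → d1 % 4 = 1 → jacobiSym d1 17 = 1 → 𝒞 d2 ∧ 𝒞 (3 * d1)

section

variable {𝒞 : ℕ → Prop} (h𝒞 : Fam4 𝒞)
  {n : ℕ} {C : Type} [CommGroup C] [Fintype C] {phi : C → ℤ} {chi : ℕ → C → ℤ}

include h𝒞 in
/-- one step of the induction -/
theorem step (hn : 𝒞 n) (hn3 : 3 < n) (h : BD n C phi chi)
    (ih : ∀ m < n, 𝒞 m → So m ∧ ∀ V, m = 3 * V → V ≠ 1 → V % 4 = 1 → jacobiSym V 17 = 1 → Re V) :
    (∀ V ∈ D1 n, V ≠ 1 → (2 : ℤ) ^ n.primeFactors.card ∣ PV phi chi V) ∧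
    (2 : ℤ) ^ n.primeFactors.card ∣ PV phi chi 1 - 2 ^ (n.primeFactors.card - 1) * nsq C := by
  obtain ⟨h4, hsq, h17⟩ := h𝒞.basic n hn
  have ht : 0 < n.primeFactors.card := by
    rw [Finset.card_pos, Nat.nonempty_primeFactors]; omega
  refine h.argument (by omega) ht ?_
  intro V hV hV1 hV3
  obtain ⟨hVn, hV4⟩ := Finset.mem_filter.mp hV
  obtain ⟨W, hW⟩ := Nat.dvd_of_mem_divisors hVn
  have hV0 : 0 < V := by omega
  have hdiv : n / V = W := by rw [hW, Nat.mul_div_cancel_left _ hV0]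
  have hW4 : W % 4 = 3 := by
    have : V * W % 4 = 3 := by rw [← hW]; exact h4
    rw [Nat.mul_mod, hV4] at this
    omega
  have hJ := J_ne (a := V) (b := W) (by rw [← hW]; exact h17)
  rcases hJ with hJ | hJ
  · obtain ⟨hCW, hC3⟩ := h𝒞.div V W (by rw [← hW]; exact hn) hV4 hJ
    have hW3 : W ≠ 3 := by
      rintro rfl
      apply hV3
      rw [hW]; omega
    have hW7 : 3 < W := by omega
    have hlt1 : W < n := by rw [hW]; nlinarith [show 5 ≤ V by omega]
    have hlt2 : 3 * V < n := by rw [hW]; nlinarith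
    obtain ⟨⟨p, hp, hpd⟩, -⟩ := ih W hlt1 hCW
    obtain ⟨-, hR⟩ := ih (3 * V) hlt2 hC3
    obtain ⟨r, hr, hrd⟩ := hR V rfl hV1 hV4 hJ
    have hm := h.mixed h4 hsq h17 hV hV1 hJ
    rw [hdiv, hp, hr] at hm
    have hsqr : (PV phi chi V) ^ 2 = (r * p) ^ 2 := by
      have : ((PV phi chi V : ℤ) : ℝ) ^ 2 = ((r * p : ℤ) : ℝ) ^ 2 := by
        push_cast; linarith
      exact_mod_cast this
    have hco : Nat.Coprime V W := (Nat.squarefree_mul_iff.mp (hW ▸ hsq)).1
    have hcard : n.primeFactors.card = (V.primeFactors.card + 1) + (W.primeFactors.card - 1) := by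
      have hWpos : 0 < W.primeFactors.card := by
        rw [Finset.card_pos, Nat.nonempty_primeFactors]; omega
      rw [hW, hco.primeFactors_mul, Finset.card_union_of_disjoint hco.disjoint_primeFactors]
      omega
    have hd : (2 : ℤ) ^ n.primeFactors.card ∣ r * p := by
      rw [hcard, pow_add]; exact mul_dvd_mul hrd hpd
    rcases sq_eq_sq_iff_eq_or_eq_neg.mp hsqr with h1 | h1
    · rw [h1]; exact hd
    · rw [h1, dvd_neg]; exact hd
  · rw [h.vanish h4 hsq h17 hV hV1 hJ]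
    exact dvd_zero _

include h𝒞 in
/-- the induction -/
theorem induction_all
    (hB : ∀ n, 𝒞 n → 3 < n → ∃ (C : Type) (_ : CommGroup C) (_ : Fintype C) (phi : C → ℤ)
      (chi : ℕ → C → ℤ), BD n C phi chi) (n : ℕ) :
    𝒞 n → So n ∧ ∀ V, n = 3 * V → V ≠ 1 → V % 4 = 1 → jacobiSym V 17 = 1 → Re V := by
  induction n using Nat.strong_induction_on with
  | _ n ih =>
    intro hn
    obtain ⟨h4, hsq, h17⟩ := h𝒞.basic n hn
    by_cases hn3 : n = 3
    · subst hn3
      refine ⟨⟨1, by rw [eo3]; norm_num, ?_⟩, ?_⟩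
      · have : (3 : ℕ).primeFactors.card = 1 := by
          rw [Nat.Prime.primeFactors (by norm_num)]; rfl
        rw [this]; norm_num
      · intro V hV hV1; omega
    · have hn3' : 3 < n := by omega
      obtain ⟨C, _, _, phi, chi, h⟩ := hB n hn hn3'
      obtain ⟨s1, s2⟩ := step h𝒞 hn hn3' h ih
      refine ⟨⟨PV phi chi 1, h.eo_eq h4 hsq h17, ?_⟩, ?_⟩
      · have h1 : (2 : ℤ) ^ (n.primeFactors.card - 1) ∣
            PV phi chi 1 - 2 ^ (n.primeFactors.card - 1) * nsq C :=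
          (pow_dvd_pow 2 (Nat.sub_le _ _)).trans s2
        have h2 := dvd_add h1 (Dvd.intro (nsq C : ℤ) rfl)
        simpa using h2
      · intro V hV hV1 hV4 hJ
        have hVm : V ∈ D1 n := by
          rw [D1, Finset.mem_filter, Nat.mem_divisors]
          exact ⟨⟨Dvd.intro_left 3 hV.symm, by omega⟩, hV4⟩
        have hdiv : n / V = 3 := by rw [hV]; exact Nat.mul_div_cancel _ (by omega)
        have hm := h.mixed h4 hsq h17 hVm hV1 hJ
        rw [hdiv, eo3] at hm
        refine ⟨PV phi chi V, by linarith, ?_⟩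
        have h3V : ¬ 3 ∣ V := by
          intro h3
          have : 3 * 3 ∣ n := by rw [hV]; exact mul_dvd_mul_left 3 h3
          have := hsq 3 this
          simp at this
        have hco : Nat.Coprime 3 V := (Nat.Prime.coprime_iff_not_dvd (by norm_num)).mpr h3V
        have hcard : n.primeFactors.card = V.primeFactors.card + 1 := by
          rw [hV, hco.primeFactors_mul, Finset.card_union_of_disjoint hco.disjoint_primeFactors,
            Nat.Prime.primeFactors (by norm_num)]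
          simp; omega
        rw [← hcard]
        exact s1 V hVm hV1

include h𝒞 in
/-- **Main theorem of module C** -/
theorem main_C
    (hB : ∀ n, 𝒞 n → 3 < n → ∃ (C : Type) (_ : CommGroup C) (_ : Fintype C) (phi : C → ℤ)
      (chi : ℕ → C → ℤ), BD n C phi chi) (hn : 𝒞 n) (hn3 : 3 < n) (h : BD n C phi chi)
    {ρ : G → ℝ} (hρ : Par ρ) (ho : ∀ A, ρ (cG A) = (-1) * ρ A) :
    ell ρ n = ell ρ 3 * ((PV phi chi 1 : ℤ) : ℝ) ^ 2 ∧
    (2 : ℤ) ^ n.primeFactors.card ∣ PV phi chi 1 - 2 ^ (n.primeFactors.card - 1) * nsq C := by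
  obtain ⟨h4, hsq, h17⟩ := h𝒞.basic n hn
  refine ⟨h.ell_odd h4 hsq h17 hρ ho, ?_⟩
  exact (step h𝒞 hn hn3 h (fun m _ hm => induction_all h𝒞 hB m hm)).2

end

/-! ### the two families -/

/-- exactly one prime factor is `3` modulo `4` -/
def Ca (n : ℕ) : Prop := n % 4 = 3 ∧ Squarefree n ∧ jacobiSym n 17 = -1 ∧
  ∃ q0 : ℕ, q0.Prime ∧ q0 ∣ n ∧ ∀ q : ℕ, q.Prime → q ∣ n → q ≠ q0 → q % 4 = 1

/-- exactly one prime factor is a non-residue modulo `17` -/
def Cb (n : ℕ) : Prop := n % 4 = 3 ∧ Squarefree n ∧ jacobiSym n 17 = -1 ∧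
  ∃ q0 : ℕ, q0.Prime ∧ q0 ∣ n ∧ ∀ q : ℕ, q.Prime → q ∣ n → q ≠ q0 → jacobiSym q 17 = 1

theorem J17_of_prod {n : ℕ} (hn : n ≠ 0) (h : ∀ q : ℕ, q.Prime → q ∣ n → jacobiSym q 17 = 1) :
    jacobiSym n 17 = 1 := by
  induction n using Nat.recOnMul with
  | zero => exact absurd rfl hn
  | one => exact_mod_cast jacobiSym.one_left 17
  | prime p hp => exact h p hp dvd_rfl
  | mul a b iha ihb =>
    have ha : a ≠ 0 := by rintro rfl; simp at hn
    have hb : b ≠ 0 := by rintro rfl; simp at hn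
    push_cast
    rw [jacobiSym.mul_left, iha ha (fun q hq hd => h q hq (Dvd.dvd.mul_right hd _)),
      ihb hb (fun q hq hd => h q hq (Dvd.dvd.mul_left hd _)), one_mul]

theorem mod4_of_prod {n : ℕ} (hn : n ≠ 0) (h : ∀ q : ℕ, q.Prime → q ∣ n → q % 4 = 1) :
    n % 4 = 1 := by
  induction n using Nat.recOnMul with
  | zero => exact absurd rfl hn
  | one => rfl
  | prime p hp => exact h p hp dvd_rfl
  | mul a b iha ihb =>
    have ha : a ≠ 0 := by rintro rfl; simp at hn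
    have hb : b ≠ 0 := by rintro rfl; simp at hn
    rw [Nat.mul_mod, iha ha (fun q hq hd => h q hq (Dvd.dvd.mul_right hd _)),
      ihb hb (fun q hq hd => h q hq (Dvd.dvd.mul_left hd _))]

theorem J3_17 : jacobiSym 3 17 = -1 := by norm_num

theorem fam_Ca : Fam4 Ca where
  basic n h := ⟨h.1, h.2.1, h.2.2.1⟩
  div d1 d2 h h4 hJ := by
    obtain ⟨k4, hsq, h17, q0, hq0, hq0n, hq⟩ := h
    have hsq1 := (Nat.squarefree_mul_iff.mp hsq).2.1
    have hsq2 := (Nat.squarefree_mul_iff.mp hsq).2.2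
    have hd10 : d1 ≠ 0 := hsq1.ne_zero
    have hd20 : d2 ≠ 0 := hsq2.ne_zero
    have hco := (Nat.squarefree_mul_iff.mp hsq).1
    have h24 : d2 % 4 = 3 := by rw [Nat.mul_mod, h4] at k4; omega
    have hJ2 : jacobiSym d2 17 = -1 := by
      push_cast at h17
      rw [jacobiSym.mul_left, hJ, one_mul] at h17
      exact h17
    -- the exceptional prime divides the second factor
    have hq02 : q0 ∣ d2 := by
      by_contra hcon
      have := mod4_of_prod hd20 (fun q hqp hqd => hq q hqp (Dvd.dvd.mul_left hqd _)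
        (fun h => hcon (h ▸ hqd)))
      omega
    have hq1 : ∀ q : ℕ, q.Prime → q ∣ d1 → q % 4 = 1 := by
      intro q hqp hqd
      refine hq q hqp (Dvd.dvd.mul_right hqd _) ?_
      rintro rfl
      exact hqp.one_lt.ne' (Nat.eq_one_of_dvd_coprimes hco hqd hq02)
    have h3 : ¬ 3 ∣ d1 := by
      intro h; have := hq1 3 (by norm_num) h; omega
    refine ⟨⟨h24, hsq2, hJ2, q0, hq0, hq02, fun q hqp hqd => hq q hqp (Dvd.dvd.mul_left hqd _)⟩,
      ⟨by omega, ?_, ?_, 3, by norm_num, Dvd.intro _ rfl, ?_⟩⟩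
    · exact Nat.squarefree_mul_iff.mpr
        ⟨(Nat.Prime.coprime_iff_not_dvd (by norm_num)).mpr h3, sq3, hsq1⟩
    · push_cast
      rw [jacobiSym.mul_left, hJ, J3_17]; norm_num
    · intro q hqp hqd hne
      rcases (Nat.Prime.dvd_mul hqp).mp hqd with h | h
      · exact absurd ((Nat.prime_dvd_prime_iff_eq hqp (by norm_num)).mp h) hne
      · exact hq1 q hqp h

theorem fam_Cb : Fam4 Cb where
  basic n h := ⟨h.1, h.2.1, h.2.2.1⟩
  div d1 d2 h h4 hJ := by
    obtain ⟨k4, hsq, h17, q0, hq0, hq0n, hq⟩ := h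
    have hsq1 := (Nat.squarefree_mul_iff.mp hsq).2.1
    have hsq2 := (Nat.squarefree_mul_iff.mp hsq).2.2
    have hd10 : d1 ≠ 0 := hsq1.ne_zero
    have hd20 : d2 ≠ 0 := hsq2.ne_zero
    have hco := (Nat.squarefree_mul_iff.mp hsq).1
    have h24 : d2 % 4 = 3 := by rw [Nat.mul_mod, h4] at k4; omega
    have hJ2 : jacobiSym d2 17 = -1 := by
      push_cast at h17
      rw [jacobiSym.mul_left, hJ, one_mul] at h17
      exact h17
    have hq02 : q0 ∣ d2 := by
      by_contra hcon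
      have := J17_of_prod hd20 (fun q hqp hqd => hq q hqp (Dvd.dvd.mul_left hqd _)
        (fun h => hcon (h ▸ hqd)))
      rw [this] at hJ2; norm_num at hJ2
    have hq1 : ∀ q : ℕ, q.Prime → q ∣ d1 → jacobiSym q 17 = 1 := by
      intro q hqp hqd
      refine hq q hqp (Dvd.dvd.mul_right hqd _) ?_
      rintro rfl
      exact hqp.one_lt.ne' (Nat.eq_one_of_dvd_coprimes hco hqd hq02)
    have h3 : ¬ 3 ∣ d1 := by
      intro h; have := hq1 3 (by norm_num) h
      have h3' := J3_17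
      push_cast at this
      rw [this] at h3'; norm_num at h3'
    refine ⟨⟨h24, hsq2, hJ2, q0, hq0, hq02, fun q hqp hqd => hq q hqp (Dvd.dvd.mul_left hqd _)⟩,
      ⟨by omega, ?_, ?_, 3, by norm_num, Dvd.intro _ rfl, ?_⟩⟩
    · exact Nat.squarefree_mul_iff.mpr
        ⟨(Nat.Prime.coprime_iff_not_dvd (by norm_num)).mpr h3, sq3, hsq1⟩
    · push_cast
      rw [jacobiSym.mul_left, hJ, J3_17]; norm_num
    · intro q hqp hqd hne
      rcases (Nat.Prime.dvd_mul hqp).mp hqd with h | h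
      · exact absurd ((Nat.prime_dvd_prime_iff_eq hqp (by norm_num)).mp h) hne
      · exact hq1 q hqp h

end Vale.Agent.P014.H74
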