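import Vale.Agent.P014.H71.TamTw

/-!
# The Tamagawa number at a prime of split or nonsplit multiplicative reduction of type `I₂`
-/

namespace Vale.Agent.P014.H71

open WeierstrassCurve
open scoped Classical

variable {p : ℕ} [hp : Fact p.Prime] {V : WeierstrassCurve ℚ_[p]} {f₁ f₂ f₃ : ℚ_[p]}

/-- valuations -/
structure MulHypS (f₁ f₂ f₃ : ℚ_[p]) : Prop where
  hp2 : p ≠ 2
  n1 : ‖f₁‖ ≤ 1
  n2 : ‖f₂‖ ≤ 1
  n3 : ‖f₃‖ ≤ 1
  d12 : ‖f₁ - f₂‖ = 1
  d13 : ‖f₁ - f₃‖ < 1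
  d13' : ‖f₁ - f₃‖ = (p : ℝ)⁻¹
  d23 : ‖f₂ - f₃‖ = 1

/-- even valuation -/
def Ev (u : ℚ_[p]) : Prop := ∃ k : ℤ, ‖u‖ = (p : ℝ) ^ (2 * k)

theorem p_gt : (1 : ℝ) < p := by exact_mod_cast hp.out.one_lt

theorem norm_zpow {u : ℚ_[p]} (hu : u ≠ 0) : ∃ k : ℤ, ‖u‖ = (p : ℝ) ^ k :=
  ⟨-u.valuation, Padic.norm_eq_zpow_neg_valuation hu⟩

theorem Ev.mul {u v : ℚ_[p]} (hu : Ev u) (hv : Ev v) : Ev (u * v) := by
  obtain ⟨k, hk⟩ := hu
  obtain ⟨l, hl⟩ := hv
  have hp0 : (p : ℝ) ≠ 0 := by have := p_gt (p := p); linarith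
  exact ⟨k + l, by rw [norm_mul, hk, hl, mul_add, zpow_add₀ hp0]⟩

theorem Ev.sq {u : ℚ_[p]} (hu : u ≠ 0) : Ev (u ^ 2) := by
  obtain ⟨k, hk⟩ := norm_zpow hu
  refine ⟨k, ?_⟩
  rw [norm_pow, hk, mul_comm, zpow_mul]
  norm_cast

theorem Ev.of_mul {u v : ℚ_[p]} (hu : Ev u) (huv : Ev (u * v)) (_hv : v ≠ 0) : Ev v := by
  obtain ⟨k, hk⟩ := hu
  obtain ⟨l, hl⟩ := huv
  have hp0 : (p : ℝ) ≠ 0 := by have := p_gt (p := p); linarith
  refine ⟨l - k, ?_⟩
  rw [norm_mul, hk] at hl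
  have h1 : (p : ℝ) ^ (2 * k) ≠ 0 := zpow_ne_zero _ hp0
  rw [mul_sub, zpow_sub₀ hp0, eq_div_iff h1, ← hl]; ring

theorem Ev.ne_zero {u : ℚ_[p]} (hu : Ev u) : u ≠ 0 := by
  obtain ⟨k, hk⟩ := hu
  rintro rfl
  rw [norm_zero] at hk
  have : (0 : ℝ) < (p : ℝ) ^ (2 * k) := zpow_pos (by have := p_gt (p := p); linarith) _
  linarith

/-- the norm `p⁻¹ * p^(2k)` is not a square -/
theorem not_sq_inv {a b : ℚ_[p]} (ha : a ≠ 0) (hb : b ≠ 0)
    (h : ‖a‖ ^ 2 = (p : ℝ)⁻¹ * ‖b‖ ^ 2) : False := by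
  obtain ⟨k, hk⟩ := norm_zpow ha
  obtain ⟨l, hl⟩ := norm_zpow hb
  have hp1 := p_gt (p := p)
  have hp0 : (p : ℝ) ≠ 0 := by linarith
  rw [hk, hl] at h
  have e1 : ((p : ℝ) ^ k) ^ 2 = (p : ℝ) ^ (k * 2) := by rw [zpow_mul]; norm_cast
  have e2 : ((p : ℝ) ^ l) ^ 2 = (p : ℝ) ^ (l * 2) := by rw [zpow_mul]; norm_cast
  rw [e1, e2, ← zpow_neg_one, ← zpow_add₀ hp0] at h
  have := zpow_right_injective₀ (by linarith) hp1.ne' h
  omega

namespace MulHypS

theorem norm_eta (A : MulHypS f₁ f₂ f₃) {x η : ℚ_[p]}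
    (hη : η ^ 2 = 4 * ((x - f₁) * (x - f₂) * (x - f₃))) :
    ‖η‖ ^ 2 = ‖x - f₁‖ * ‖x - f₂‖ * ‖x - f₃‖ := by
  have h4 : ‖(4 : ℚ_[p])‖ = 1 := by
    have : (4 : ℚ_[p]) = 2 * 2 := by norm_num
    rw [this, norm_mul, padic_norm_two A.hp2, mul_one]
  rw [← norm_pow, hη, norm_mul, norm_mul, norm_mul, h4, one_mul]

/-- near the node the valuation of `x - f₁` is odd -/
theorem ev_iff (A : MulHypS f₁ f₂ f₃) {x η : ℚ_[p]}
    (hη : η ^ 2 = 4 * ((x - f₁) * (x - f₂) * (x - f₃))) (hx : x ≠ f₁) :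
    Ev (x - f₁) ↔ 1 ≤ ‖x - f₁‖ := by
  have hx' : x - f₁ ≠ 0 := sub_ne_zero.mpr hx
  have hp1 := p_gt (p := p)
  have hp0 : (p : ℝ) ≠ 0 := by linarith
  have hsq := A.norm_eta hη
  constructor
  · rintro ⟨k, hk⟩
    by_contra hc
    push Not at hc
    have g2 : ‖x - f₂‖ = 1 := by
      have : x - f₂ = (f₁ - f₂) - -(x - f₁) := by ring
      rw [this, norm_sub_of_lt, A.d12]
      rw [norm_neg, A.d12]; exact hc
    -- the valuation of `x - f₁` is at least two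
    have hk1 : k ≤ -1 := by
      by_contra hk0
      push Not at hk0
      have h0 : 0 ≤ k := by omega
      have : (1 : ℝ) ≤ (p : ℝ) ^ (2 * k) := one_le_zpow₀ hp1.le (by omega)
      rw [← hk] at this; linarith
    have hlt : ‖x - f₁‖ < ‖f₁ - f₃‖ := by
      rw [hk, A.d13', ← zpow_neg_one]
      exact zpow_lt_zpow_right₀ hp1 (by omega)
    have g3 : ‖x - f₃‖ = (p : ℝ)⁻¹ := by
      have : x - f₃ = (f₁ - f₃) - -(x - f₁) := by ring
      rw [this, norm_sub_of_lt, A.d13']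
      rw [norm_neg]; exact hlt
    have hη0 : η ≠ 0 := by
      rintro rfl
      rw [norm_zero, g2, g3] at hsq
      have h1 : 0 < ‖x - f₁‖ := norm_pos_iff.mpr hx'
      have h2 : 0 < ‖x - f₁‖ * 1 * (p : ℝ)⁻¹ := by positivity
      nlinarith
    obtain ⟨l, hl⟩ := norm_zpow hη0
    rw [g2, g3, hk, hl, mul_one] at hsq
    have e1 : ((p : ℝ) ^ l) ^ 2 = (p : ℝ) ^ (l * 2) := by rw [zpow_mul]; norm_cast
    rw [e1, ← zpow_neg_one, ← zpow_add₀ hp0] at hsq
    have := zpow_right_injective₀ (by linarith) hp1.ne' hsq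
    omega
  · intro h1
    rcases h1.eq_or_lt with h2 | h2
    · exact ⟨0, by rw [mul_zero, zpow_zero, ← h2]⟩
    · have hd : ∀ {f : ℚ_[p]}, ‖f₁ - f‖ ≤ 1 → ‖x - f‖ = ‖x - f₁‖ := by
        intro f hf
        have : x - f = (x - f₁) - -(f₁ - f) := by ring
        rw [this, norm_sub_of_lt]
        rw [norm_neg]; exact lt_of_le_of_lt hf h2
      rw [hd A.d12.le, hd A.d13.le] at hsq
      have hη0 : η ≠ 0 := by
        rintro rfl
        rw [norm_zero] at hsq
        have h3 : 0 < ‖x - f₁‖ := by linarith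
        have h4 : 0 < ‖x - f₁‖ * ‖x - f₁‖ * ‖x - f₁‖ := by positivity
        nlinarith
      obtain ⟨l, hl⟩ := norm_zpow hη0
      obtain ⟨m, hm⟩ := norm_zpow hx'
      rw [hm, hl, ← zpow_add₀ hp0, ← zpow_add₀ hp0] at hsq
      have e1 : ((p : ℝ) ^ l) ^ 2 = (p : ℝ) ^ (l * 2) := by rw [zpow_mul]; norm_cast
      rw [e1] at hsq
      have := zpow_right_injective₀ (by linarith) hp1.ne' hsq
      exact ⟨l - m, by rw [hm]; congr 1; omega⟩

/-- `E₀` -/
def Mem (P : V.toAffine.Point) (f₁ : ℚ_[p]) : Prop := P = 0 ∨ 1 ≤ ‖xc V P - f₁‖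

theorem mem_pt (H : T3 V f₁ f₂ f₃) {x η : ℚ_[p]} (hη) :
    Mem (H.pt x η hη) f₁ ↔ 1 ≤ ‖x - f₁‖ := by
  unfold Mem
  rw [H.xc_pt]
  constructor
  · rintro (h | h)
    · exact absurd h (H.pt_ne_zero _ _ _)
    · exact h
  · exact Or.inr

theorem mem_add (A : MulHypS f₁ f₂ f₃) (H : T3 V f₁ f₂ f₃) {P Q : V.toAffine.Point}
    (hP : Mem P f₁) (hQ : Mem Q f₁) : Mem (P + Q) f₁ := by
  have hp1 := p_gt (p := p)
  rcases H.eq_zero_or_pt P with rfl | ⟨x₁, η₁, h1, rfl⟩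
  · rw [zero_add]; exact hQ
  rcases H.eq_zero_or_pt Q with rfl | ⟨x₂, η₂, h2, rfl⟩
  · rw [add_zero]; exact hP
  rw [mem_pt H] at hP hQ
  have hne : ∀ {x : ℚ_[p]}, 1 ≤ ‖x - f₁‖ → x ≠ f₁ := by
    intro x hx hc
    rw [hc, sub_self, norm_zero] at hx; linarith
  have E1 := (A.ev_iff h1 (hne hP)).mpr hP
  have E2 := (A.ev_iff h2 (hne hQ)).mpr hQ
  by_cases hx : x₁ = x₂
  · subst hx
    have hs : (η₁ - η₂) * (η₁ + η₂) = 0 := by
      have : η₁ ^ 2 = η₂ ^ 2 := by rw [h1, h2]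
      linear_combination this
    rcases mul_eq_zero.mp hs with h3 | h3
    · have h4 : η₁ = η₂ := sub_eq_zero.mp h3
      subst h4
      by_cases h0 : η₁ = 0
      · subst h0
        left
        exact H.two_pt_of_zero x₁ h1
      · obtain ⟨X, Y, hh, h5, h6, -, -⟩ := H.two_pt_rho h1 h0
        rw [h5, mem_pt H]
        have hX : X ≠ f₁ := by
          intro hc
          rw [hc, sub_self] at h6
          have h7 : rho f₁ f₂ f₃ x₁ η₁ = 0 := pow_eq_zero_iff two_ne_zero |>.mp h6.symm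
          unfold rho at h7
          rw [div_eq_zero_iff] at h7
          rcases h7 with h7 | h7
          · have h8 : (x₁ - f₁) ^ 2 = (f₁ - f₂) * (f₁ - f₃) := sub_eq_zero.mp h7
            have h9 := congrArg norm h8
            rw [norm_pow, norm_mul, A.d12, A.d13', one_mul] at h9
            have : 1 ≤ ‖x₁ - f₁‖ ^ 2 := one_le_pow₀ hP
            have h10 : (p : ℝ)⁻¹ < 1 := inv_lt_one_of_one_lt₀ hp1
            linarith
          · exact h0 h7
        refine (A.ev_iff hh hX).mp ?_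
        rw [h6]
        apply Ev.sq
        intro hc
        apply hX
        rw [hc] at h6
        exact sub_eq_zero.mp (by rw [h6]; ring)
    · left
      have h4 : η₂ = -η₁ := by linear_combination h3
      subst h4
      exact H.pt_add_pt_neg x₁ η₁ h1
  · obtain ⟨hh, h3⟩ := H.pt_add_pt h1 h2 hx
    have hx' : x₁ - x₂ ≠ 0 := sub_ne_zero.mpr hx
    rw [h3, mem_pt H]
    generalize hX : (((η₁ - η₂) / (x₁ - x₂)) ^ 2) / 4 + (f₁ + f₂ + f₃) - x₁ - x₂ = X at hh h3 ⊢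
    generalize hY : -((η₁ - η₂) / (x₁ - x₂) * (X - x₁) + η₁) = Y at hh h3 ⊢
    have key : (x₁ - f₁) * (x₂ - f₁) * (X - f₁) =
        ((η₁ + (η₁ - η₂) / (x₁ - x₂) * (f₁ - x₁)) / 2) ^ 2 := by
      rw [← hX]
      have e2 : η₂ = η₁ - (η₁ - η₂) / (x₁ - x₂) * (x₁ - x₂) := by field_simp; ring
      generalize (η₁ - η₂) / (x₁ - x₂) = m at e2 ⊢
      rw [e2] at h2
      -- subtract the two equations and divide by `x₁ - x₂`
      have h4 : (x₁ - x₂) * (2 * η₁ * m - m ^ 2 * (x₁ - x₂) -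
          4 * (x₁ ^ 2 + x₁ * x₂ + x₂ ^ 2 - (f₁ + f₂ + f₃) * (x₁ + x₂) +
            (f₁ * f₂ + f₁ * f₃ + f₂ * f₃))) = 0 := by
        linear_combination h1 - h2
      have h5 := (mul_eq_zero.mp h4).resolve_left hx'
      have h6 : (4 : ℚ_[p]) ≠ 0 := by norm_num
      apply mul_left_cancel₀ h6
      linear_combination (x₁ - f₁) * h5 - h1
    have hX1 : X ≠ f₁ := by
      intro hc
      -- then `P + Q = T`
      have hY0 : Y = 0 := by
        have : Y ^ 2 = 0 := by rw [hh, hc]; ring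
        exact pow_eq_zero_iff two_ne_zero |>.mp this
      have h4 : H.pt x₁ η₁ h1 + H.pt x₂ η₂ h2 = H.T := by
        rw [h3]
        exact H.pt_congr hc hY0
      have h5 : H.pt x₁ η₁ h1 = H.pt x₂ (-η₂) (by rw [neg_sq]; exact h2) + H.T := by
        rw [← h4]
        have := H.pt_add_pt_neg x₂ η₂ h2
        calc H.pt x₁ η₁ h1 = H.pt x₁ η₁ h1 + 0 := (add_zero _).symm
          _ = H.pt x₁ η₁ h1 + (H.pt x₂ η₂ h2 + H.pt x₂ (-η₂) (by rw [neg_sq]; exact h2)) := by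
            rw [this]
          _ = _ := by abel
      obtain ⟨hh', h6⟩ := H.add_T (x := x₂) (η := -η₂) (by rw [neg_sq]; exact h2) (hne hQ)
      rw [h6] at h5
      have h7 := (H.pt_inj (h1 := h1) (h2 := hh') h5).1
      have h8 : x₁ - f₁ = (f₁ - f₂) * (f₁ - f₃) / (x₂ - f₁) := by rw [h7]; ring
      have h9 := congrArg norm h8
      rw [norm_div, norm_mul, A.d12, A.d13', one_mul] at h9
      have h10 : (p : ℝ)⁻¹ < 1 := inv_lt_one_of_one_lt₀ hp1
      have h11 : (p : ℝ)⁻¹ / ‖x₂ - f₁‖ ≤ (p : ℝ)⁻¹ := div_le_self (by positivity) hQ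
      linarith
    refine (A.ev_iff hh hX1).mp ?_
    refine (E1.mul E2).of_mul ?_ (sub_ne_zero.mpr hX1)
    rw [key]
    apply Ev.sq
    intro hc
    have h4 : (x₁ - f₁) * (x₂ - f₁) * (X - f₁) = 0 := by rw [key, hc]; ring
    exact (mul_ne_zero (mul_ne_zero E1.ne_zero E2.ne_zero) (sub_ne_zero.mpr hX1)) h4

theorem mem_neg (H : T3 V f₁ f₂ f₃) {P : V.toAffine.Point} (hP : Mem P f₁) : Mem (-P) f₁ := by
  rcases H.eq_zero_or_pt P with rfl | ⟨x, η, hη, rfl⟩
  · rw [neg_zero]; exact hP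
  · rw [H.neg_pt, mem_pt H]
    exact (mem_pt H hη).mp hP

/-- the subgroup `E₀` -/
def E0 (A : MulHypS f₁ f₂ f₃) (H : T3 V f₁ f₂ f₃) : AddSubgroup V.toAffine.Point where
  carrier := {P | Mem P f₁}
  zero_mem' := Or.inl rfl
  add_mem' := fun hP hQ => A.mem_add H hP hQ
  neg_mem' := fun hP => mem_neg H hP

theorem mem_E0 (A : MulHypS f₁ f₂ f₃) (H : T3 V f₁ f₂ f₃) {x η : ℚ_[p]} (hη) :
    H.pt x η hη ∈ A.E0 H ↔ 1 ≤ ‖x - f₁‖ := mem_pt H hη

theorem T1_not_mem (A : MulHypS f₁ f₂ f₃) (H : T3 V f₁ f₂ f₃) : H.T ∉ A.E0 H := by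
  intro hc
  have := (A.mem_E0 H (x := f₁) (η := 0) (by ring)).mp hc
  rw [sub_self, norm_zero] at this
  linarith

theorem add_T1 (A : MulHypS f₁ f₂ f₃) (H : T3 V f₁ f₂ f₃) {P : V.toAffine.Point}
    (hP : P ∉ A.E0 H) : P + H.T ∈ A.E0 H := by
  rcases H.eq_zero_or_pt P with rfl | ⟨x, η, hη, rfl⟩
  · exact absurd (zero_mem _) hP
  · rw [A.mem_E0 H] at hP
    push Not at hP
    by_cases hx : x = f₁
    · subst hx
      have h0 : η = 0 := by
        have : η ^ 2 = 0 := by rw [hη]; ring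
        exact pow_eq_zero_iff two_ne_zero |>.mp this
      subst h0
      have h1 : H.pt x 0 hη + H.T = 0 := H.two_T
      rw [h1]; exact zero_mem _
    · obtain ⟨hh, h1⟩ := H.add_T hη hx
      rw [h1, A.mem_E0 H]
      have hx' : x - f₁ ≠ 0 := sub_ne_zero.mpr hx
      have hx0 : 0 < ‖x - f₁‖ := norm_pos_iff.mpr hx'
      have h2 := norm_lt_one_le hP
      have h3 : f₁ + (f₁ - f₂) * (f₁ - f₃) / (x - f₁) - f₁ = (f₁ - f₂) * (f₁ - f₃) / (x - f₁) := by
        ring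
      rw [h3, norm_div, norm_mul, A.d12, A.d13', one_mul, le_div_iff₀ hx0, one_mul]
      exact h2

theorem index (A : MulHypS f₁ f₂ f₃) (H : T3 V f₁ f₂ f₃) : (A.E0 H).index = 2 := by
  rw [AddSubgroup.index_eq_two_iff]
  refine ⟨H.T, fun P => ?_⟩
  by_cases hP : P ∈ A.E0 H
  · right
    refine ⟨hP, fun hc => A.T1_not_mem H ?_⟩
    have := (A.E0 H).sub_mem hc hP
    rwa [add_sub_cancel_left] at this
  · left
    exact ⟨A.add_T1 H hP, hP⟩

end MulHypS

theorem tamagawa_mulS {E : WeierstrassCurve ℚ} {e₁ e₂ e₃ : ℚ}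
    (h : T3 E e₁ e₂ e₃) (A : MulHypS (algebraMap ℚ ℚ_[p] e₁) (algebraMap ℚ ℚ_[p] e₂)
      (algebraMap ℚ ℚ_[p] e₃)) (ha : ‖(E.a₁ : ℚ_[p])‖ ≤ 1) : tamagawa E p = 2 := by
  unfold tamagawa
  rw [closure_eq_of_set_eq (A.E0 (h.bc ℚ_[p]))]
  · exact A.index (h.bc ℚ_[p])
  · intro P
    rcases (h.bc ℚ_[p]).eq_zero_or_pt P with rfl | ⟨x, η, hη, rfl⟩
    · exact ⟨fun _ => zero_mem _, fun _ => (nonsing_zero : NonsingularReduction E p 0)⟩
    · rw [A.mem_E0 (h.bc ℚ_[p])]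
      have h0 : ((h.bc ℚ_[p]).pt x η hη ∈ {P | NonsingularReduction E p P}) ↔
        NonsingularReduction E p ((h.bc ℚ_[p]).pt x η hη) := Iff.rfl
      rw [h0, nonsing_pt h hη]
      have hsq := A.norm_eta hη
      have h2 := padic_norm_two A.hp2
      constructor
      · intro h1
        by_contra hc
        push Not at hc
        have hxn : ‖x‖ ≤ 1 := by
          have : x = (x - algebraMap ℚ ℚ_[p] e₁) + algebraMap ℚ ℚ_[p] e₁ := by ring
          rw [this]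
          exact (Padic.nonarchimedean _ _).trans (max_le hc.le A.n1)
        have g3 : ‖x - algebraMap ℚ ℚ_[p] e₃‖ < 1 := by
          have : x - algebraMap ℚ ℚ_[p] e₃ = (x - algebraMap ℚ ℚ_[p] e₁) +
            (algebraMap ℚ ℚ_[p] e₁ - algebraMap ℚ ℚ_[p] e₃) := by ring
          rw [this]; exact norm_add_lt hc A.d13
        have g2 : ‖x - algebraMap ℚ ℚ_[p] e₂‖ ≤ 1 := by
          rw [sub_eq_add_neg]
          refine (Padic.nonarchimedean _ _).trans (max_le hxn ?_)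
          rw [norm_neg]; exact A.n2
        have hη1 : ‖η‖ < 1 := by
          by_contra h3
          push Not at h3
          have h4 : 1 ≤ ‖η‖ ^ 2 := one_le_pow₀ h3
          rw [hsq] at h4
          have h5 : ‖x - algebraMap ℚ ℚ_[p] e₁‖ * ‖x - algebraMap ℚ ℚ_[p] e₂‖ ≤ 1 :=
            mul_le_one₀ hc.le (norm_nonneg _) g2
          have h6 := mul_le_mul_of_nonneg_right h5 (norm_nonneg (x - algebraMap ℚ ℚ_[p] e₃))
          linarith
        rcases h1 with h1 | h1 | h1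
        · linarith
        · rw [norm_div, h2, div_one] at h1
          have k2 : ‖(E.a₁ : ℚ_[p]) * η‖ < 1 := by
            rw [mul_comm]; exact norm_mul_lt hη1 ha
          have k3 : ‖(2 : ℚ_[p]) * ((x - algebraMap ℚ ℚ_[p] e₁) * (x - algebraMap ℚ ℚ_[p] e₂) +
            (x - algebraMap ℚ ℚ_[p] e₁) * (x - algebraMap ℚ ℚ_[p] e₃) +
            (x - algebraMap ℚ ℚ_[p] e₂) * (x - algebraMap ℚ ℚ_[p] e₃))‖ < 1 := by
            rw [norm_mul, h2, one_mul]
            exact norm_add_lt (norm_add_lt (norm_mul_lt hc g2) (norm_mul_lt hc g3.le))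
              (by rw [mul_comm]; exact norm_mul_lt g3 g2)
          have := norm_sub_lt k2 k3
          linarith
        · linarith
      · intro h1
        by_cases hxn : 1 < ‖x‖
        · exact Or.inl hxn
        right
        push Not at hxn
        have g1 : ‖x - algebraMap ℚ ℚ_[p] e₁‖ = 1 := by
          apply le_antisymm _ h1
          rw [sub_eq_add_neg]
          refine (Padic.nonarchimedean _ _).trans (max_le hxn ?_)
          rw [norm_neg]; exact A.n1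
        have g3 : ‖x - algebraMap ℚ ℚ_[p] e₃‖ = 1 := by
          have : x - algebraMap ℚ ℚ_[p] e₃ = (x - algebraMap ℚ ℚ_[p] e₁) -
            (algebraMap ℚ ℚ_[p] e₃ - algebraMap ℚ ℚ_[p] e₁) := by ring
          rw [this, norm_sub_of_lt, g1]
          rw [g1, norm_sub_rev]; exact A.d13
        have g2 : ‖x - algebraMap ℚ ℚ_[p] e₂‖ ≤ 1 := by
          rw [sub_eq_add_neg]
          refine (Padic.nonarchimedean _ _).trans (max_le hxn ?_)
          rw [norm_neg]; exact A.n2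
        rw [g1, g3, one_mul, mul_one] at hsq
        rcases g2.lt_or_eq with g2' | g2'
        · left
          have hη1 : ‖η‖ < 1 := by
            by_contra h3
            push Not at h3
            have h4 : 1 ≤ ‖η‖ ^ 2 := one_le_pow₀ h3
            rw [hsq] at h4; linarith
          rw [norm_div, h2, div_one]
          have k1 : ‖(x - algebraMap ℚ ℚ_[p] e₁) * (x - algebraMap ℚ ℚ_[p] e₃)‖ = 1 := by
            rw [norm_mul, g1, g3, one_mul]
          have k2 : ‖(E.a₁ : ℚ_[p]) * η‖ < 1 := by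
            rw [mul_comm]; exact norm_mul_lt hη1 ha
          have k3 : ‖(x - algebraMap ℚ ℚ_[p] e₂) * ((x - algebraMap ℚ ℚ_[p] e₁) +
              (x - algebraMap ℚ ℚ_[p] e₃))‖ < 1 := by
            apply norm_mul_lt g2'
            exact (Padic.nonarchimedean _ _).trans (max_le g1.le g3.le)
          have e1 : (E.a₁ : ℚ_[p]) * η - 2 * ((x - algebraMap ℚ ℚ_[p] e₁) *
            (x - algebraMap ℚ ℚ_[p] e₂) + (x - algebraMap ℚ ℚ_[p] e₁) *
            (x - algebraMap ℚ ℚ_[p] e₃) + (x - algebraMap ℚ ℚ_[p] e₂) *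
            (x - algebraMap ℚ ℚ_[p] e₃)) = -(2 * ((x - algebraMap ℚ ℚ_[p] e₁) *
            (x - algebraMap ℚ ℚ_[p] e₃)) - ((E.a₁ : ℚ_[p]) * η - 2 *
            ((x - algebraMap ℚ ℚ_[p] e₂) * ((x - algebraMap ℚ ℚ_[p] e₁) +
              (x - algebraMap ℚ ℚ_[p] e₃))))) := by ring
          have k4 : ‖(2 : ℚ_[p]) * ((x - algebraMap ℚ ℚ_[p] e₁) *
            (x - algebraMap ℚ ℚ_[p] e₃))‖ = 1 := by rw [norm_mul, h2, k1, one_mul]
          have k5 : ‖(E.a₁ : ℚ_[p]) * η - 2 *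
            ((x - algebraMap ℚ ℚ_[p] e₂) * ((x - algebraMap ℚ ℚ_[p] e₁) +
              (x - algebraMap ℚ ℚ_[p] e₃)))‖ < 1 := by
            apply norm_sub_lt k2
            rw [norm_mul, h2, one_mul]; exact k3
          rw [e1, norm_neg, norm_sub_of_lt (by rw [k4]; exact k5), k4]
        · right
          rw [g2'] at hsq
          by_contra hc
          push Not at hc
          have := norm_nonneg η
          nlinarith

/-! ### the twists by `V = 4k + 1 > 0` -/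

/-- the 2-torsion of `tw k`, `4k + 1 = m` -/
theorem tw_T3' {k m : ℤ} (hm : m ≠ 0) (hk : 4 * k + 1 = m) :
    T3 (tw k) (-5 * m / 4 : ℚ) (-m : ℚ) (3 * m : ℚ) := by
  have hkQ : (k : ℚ) = ((m : ℚ) - 1) / 4 := by
    have : (4 * k + 1 : ℚ) = (m : ℚ) := by exact_mod_cast hk
    linarith
  have hn' : (m : ℚ) ≠ 0 := by exact_mod_cast hm
  refine ⟨two_ne_zero, ?_, ?_, ?_, ?_, ?_, ?_⟩
  · simp only [tw, WeierstrassCurve.b₂, hkQ]; ring
  · simp only [tw, WeierstrassCurve.b₄, hkQ]; ring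
  · simp only [tw, WeierstrassCurve.b₆, hkQ]; ring
  · intro hc; apply hn'; linarith
  · intro hc; apply hn'; linarith
  · intro hc; apply hn'; linarith

theorem addHyp_twS {m : ℤ} {q : ℕ} [hq : Fact q.Prime] (h2 : q ≠ 2) (h17 : q ≠ 17) {c : ℤ}
    (hm : m = q * c) (hc : ¬ (q : ℤ) ∣ c) :
    AddHyp (algebraMap ℚ ℚ_[q] (-5 * m / 4)) (algebraMap ℚ ℚ_[q] (-m))
      (algebraMap ℚ ℚ_[q] (3 * m)) := by
  have hn2 := padic_norm_two (p := q) h2
  have h4 : ‖(4 : ℚ_[q])‖ = 1 := by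
    have : (4 : ℚ_[q]) = 2 * 2 := by norm_num
    rw [this, norm_mul, hn2, mul_one]
  have hn : ‖(m : ℚ_[q])‖ = (q : ℝ)⁻¹ := by
    have := norm_int_eq_inv hc
    rw [hm]; exact this
  have hn17 : ‖(17 : ℚ_[q])‖ = 1 := by
    have := norm_int_unit (p := q) (a := 17) (by
      intro h
      have h3 : q ∣ 17 := by exact_mod_cast h
      exact h17 ((Nat.prime_dvd_prime_iff_eq hq.out (by norm_num)).mp h3))
    simpa using this
  have hlt : (q : ℝ)⁻¹ < 1 := by
    apply inv_lt_one_of_one_lt₀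
    exact_mod_cast hq.out.one_lt
  have hint : ∀ z : ℤ, ‖(z : ℚ_[q])‖ ≤ 1 := fun z => Padic.norm_int_le_one z
  have hinv : 0 ≤ (q : ℝ)⁻¹ := by positivity
  refine ⟨h2, ?_, ?_, ?_, ?_, ?_, ?_⟩
  · rw [algMap_eq]; push_cast
    rw [norm_div, norm_mul, h4, hn, div_one]
    have := hint (-5)
    push_cast at this
    nlinarith
  · rw [algMap_eq]; push_cast
    rw [norm_neg, hn]; exact hlt
  · rw [algMap_eq]; push_cast
    rw [norm_mul, hn]
    have := hint 3
    push_cast at this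
    nlinarith
  · rw [← map_sub, algMap_eq]
    have : ((-5 * (m : ℚ) / 4 - -(m : ℚ) : ℚ) : ℚ_[q]) = -(m / 4) := by push_cast; ring
    rw [this, norm_neg, norm_div, h4, hn, div_one]
  · rw [← map_sub, algMap_eq]
    have : ((-5 * (m : ℚ) / 4 - 3 * (m : ℚ) : ℚ) : ℚ_[q]) = -(17 * m / 4) := by push_cast; ring
    rw [this, norm_neg, norm_div, norm_mul, h4, hn, hn17, div_one, one_mul]
  · rw [← map_sub, algMap_eq]
    have : ((-(m : ℚ) - 3 * (m : ℚ) : ℚ) : ℚ_[q]) = -(4 * m) := by push_cast; ring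
    rw [this, norm_neg, norm_mul, h4, hn, one_mul]

theorem mulHyp_twS {m : ℤ} [h17f : Fact (Nat.Prime 17)] (h : ¬ (17 : ℤ) ∣ m) :
    MulHypS (algebraMap ℚ ℚ_[17] (-5 * m / 4)) (algebraMap ℚ ℚ_[17] (-m))
      (algebraMap ℚ ℚ_[17] (3 * m)) := by
  have h2 := padic_norm_two (p := 17) (by norm_num)
  have h4 : ‖(4 : ℚ_[17])‖ = 1 := by
    have : (4 : ℚ_[17]) = 2 * 2 := by norm_num
    rw [this, norm_mul, h2, mul_one]
  have hn : ‖(m : ℚ_[17])‖ = 1 := norm_int_unit (by exact_mod_cast h)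
  have h17 : ‖(17 : ℚ_[17])‖ = (17 : ℝ)⁻¹ := by
    have := Padic.norm_p (p := 17)
    simpa using this
  have hint : ∀ z : ℤ, ‖(z : ℚ_[17])‖ ≤ 1 := fun z => Padic.norm_int_le_one z
  have e12 : algebraMap ℚ ℚ_[17] (-5 * m / 4) - algebraMap ℚ ℚ_[17] (-m) = -(m / 4) := by
    rw [← map_sub, algMap_eq]; push_cast; ring
  have e13 : algebraMap ℚ ℚ_[17] (-5 * m / 4) - algebraMap ℚ ℚ_[17] (3 * m) =
      -(17 * m / 4) := by
    rw [← map_sub, algMap_eq]; push_cast; ring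
  have e23 : algebraMap ℚ ℚ_[17] (-m) - algebraMap ℚ ℚ_[17] (3 * m) = -(4 * m) := by
    rw [← map_sub, algMap_eq]; push_cast; ring
  refine ⟨by norm_num, ?_, ?_, ?_, ?_, ?_, ?_, ?_⟩
  · rw [algMap_eq]; push_cast
    rw [norm_div, norm_mul, h4, hn, div_one, mul_one]
    have := hint (-5)
    push_cast at this
    exact this
  · rw [algMap_eq]; push_cast
    rw [norm_neg]
    exact hn.le
  · rw [algMap_eq]; push_cast
    rw [norm_mul, hn, mul_one]
    have := hint 3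
    push_cast at this
    exact this
  · rw [e12, norm_neg, norm_div, h4, hn, div_one]
  · rw [e13, norm_neg, norm_div, norm_mul, h4, hn, h17]; norm_num
  · rw [e13, norm_neg, norm_div, norm_mul, h4, hn, h17]; norm_num
  · rw [e23, norm_neg, norm_mul, h4, hn, one_mul]

/-- **the Tamagawa product of the twist by `m = 4k + 1`**, for both signs -/
theorem tamagawaProduct_tw' {m k : ℤ} (hk : 4 * k + 1 = m) (hsq : Squarefree m)
    (h17 : ¬ (17 : ℤ) ∣ m) : tamagawaProduct (tw k) = 2 * 4 ^ m.natAbs.primeFactors.card := by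
  have hm0 : m ≠ 0 := hsq.ne_zero
  have hT := tw_T3' hm0 hk
  have hn0 : m.natAbs ≠ 0 := Int.natAbs_ne_zero.mpr hm0
  have hsqn : Squarefree m.natAbs := Int.squarefree_natAbs.mpr hsq
  have h17n : ¬ 17 ∣ m.natAbs := by
    intro h; exact h17 (by have := Int.natCast_dvd.mpr h; exact_mod_cast this)
  let g : ℕ → ℕ := fun p => if p ∣ m.natAbs then 4 else if p = 17 then 2 else 1
  have hg : ∀ p : Nat.Primes, (haveI : Fact (p : ℕ).Prime := ⟨p.2⟩; tamagawa (tw k) p) = g p := by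
    intro p
    have hpf : Fact (p : ℕ).Prime := ⟨p.2⟩
    simp only [g]
    split_ifs with h1 h2
    · have h3 : ((p : ℕ) : ℤ) ∣ m := Int.natCast_dvd.mpr h1
      obtain ⟨c, hc⟩ := h3
      have hpZ := Nat.prime_iff_prime_int.mp p.2
      have hcn : ¬ ((p : ℕ) : ℤ) ∣ c := by
        rintro ⟨d, rfl⟩
        have : ((p : ℕ) : ℤ) * ((p : ℕ) : ℤ) ∣ m := ⟨d, by rw [hc]; ring⟩
        exact hpZ.not_isUnit (hsq _ this)
      have hp2 : (p : ℕ) ≠ 2 := by
        intro h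
        rw [h] at hc
        push_cast at hc
        omega
      have hp17 : (p : ℕ) ≠ 17 := by
        intro h
        rw [h] at h1
        exact h17n h1
      exact tamagawa_additive hT (addHyp_twS hp2 hp17 hc hcn) (norm_a1 k)
    · obtain ⟨p, hp⟩ := p
      subst h2
      exact tamagawa_mulS hT (mulHyp_twS h17) (norm_a1 k)
    · apply tamagawa_good
      rw [hk]
      intro hc
      have hpZ := Nat.prime_iff_prime_int.mp p.2
      rcases hpZ.dvd_or_dvd hc with h3 | h3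
      · have h4 : (p : ℕ) ∣ 17 := by exact_mod_cast h3
        exact h2 ((Nat.prime_dvd_prime_iff_eq p.2 (by norm_num)).mp h4)
      · exact h1 (Int.natCast_dvd.mp h3)
  unfold tamagawaProduct
  rw [finprod_congr hg]
  let S : Finset Nat.Primes := Finset.subtype Nat.Prime (17 * m.natAbs).primeFactors
  have hsub : Function.mulSupport (fun p : Nat.Primes => g p) ⊆ (S : Set Nat.Primes) := by
    intro p hp
    rw [Function.mem_mulSupport] at hp
    rw [Finset.mem_coe]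
    apply Finset.mem_subtype.mpr
    rw [Nat.mem_primeFactors]
    refine ⟨p.2, ?_, mul_ne_zero (by norm_num) hn0⟩
    simp only [g] at hp
    split_ifs at hp with h1 h2
    · exact Dvd.dvd.mul_left h1 17
    · exact Dvd.dvd.mul_right (by rw [h2]) _
    · exact absurd rfl hp
  rw [finprod_eq_prod_of_mulSupport_subset _ hsub]
  have hS : ∏ p ∈ S, g p = ∏ p ∈ (17 * m.natAbs).primeFactors, g p :=
    Finset.prod_subtype_of_mem (fun p => g p) (fun p hp => Nat.prime_of_mem_primeFactors hp)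
  rw [hS]
  have hcop : Nat.Coprime 17 m.natAbs := (Nat.Prime.coprime_iff_not_dvd (by norm_num)).mpr h17n
  rw [Nat.Coprime.primeFactors_mul hcop, Finset.prod_union hcop.disjoint_primeFactors,
    Nat.Prime.primeFactors (by norm_num), Finset.prod_singleton]
  have h1 : g 17 = 2 := by simp [g, h17n]
  rw [h1]
  congr 1
  rw [Finset.prod_congr rfl (g := fun _ => 4) (fun p hp => by
    simp [g, Nat.dvd_of_mem_primeFactors hp])]
  rw [Finset.prod_const]

end Vale.Agent.P014.H71
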