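import Vale.Agent.P014.H71.Sel8
import Vale.Agent.P014.H71.TorsOrd
import Vale.Agent.P014.H71.Min
import Vale.Agent.P014.H74.TamS

/-!
# Global consequences of the triviality of the 2-Selmer group, for both signs
-/

namespace Vale.Agent.P014.H71

open WeierstrassCurve Vale.Agent.P017.H185

/-- the equation `tw k`, `4k + 1 = m`, is globally minimal -/
theorem globalMinimal_tw' {m : ℤ} (hn : Squarefree m) {k : ℤ} (hk : 4 * k + 1 = m) :
    GlobalMinimal (tw k) := by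
  refine ⟨isIntegral_tw k, fun C hC => ?_⟩
  obtain ⟨n, hnm⟩ : ∃ n : ℕ, n = m.natAbs := ⟨_, rfl⟩
  have hn' : Squarefree n := by rw [hnm]; exact Int.squarefree_natAbs.mpr hn
  obtain ⟨z, hm⟩ := Δ_integral_of_isIntegral ℤ (C • tw k)
  have hkQ : (4 * k + 1 : ℚ) = (m : ℚ) := by exact_mod_cast hk
  have hm2 : (m : ℚ) ^ 2 = (n : ℚ) ^ 2 := by
    have : m ^ 2 = (n : ℤ) ^ 2 := by rw [hnm, Int.natAbs_sq]
    exact_mod_cast this
  have hΔ : (tw k).Δ = ((17 ^ 2 * n ^ 6 : ℕ) : ℚ) := by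
    rw [tw_Δ, hkQ]; push_cast
    rw [show (m : ℚ) ^ 6 = (m ^ 2) ^ 3 by ring, hm2]; ring
  have hN0 : 17 ^ 2 * n ^ 6 ≠ 0 := mul_ne_zero (by norm_num) (pow_ne_zero 6 hn'.ne_zero)
  rw [variableChange_Δ] at hm ⊢
  set v : ℚ := ((C.u⁻¹ : ℚˣ) : ℚ) with hv
  have hv0 : v ≠ 0 := Units.ne_zero _
  rw [hΔ] at hm ⊢
  have hden : v.den = 1 := by
    by_contra hd
    obtain ⟨p, hp, hpd⟩ := Nat.exists_prime_and_dvd hd
    apply not_pow_dvd hn' hp
    have h1 : v.num ^ 12 * ((17 ^ 2 * n ^ 6 : ℕ) : ℤ) = v.den ^ 12 * z := by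
      have h2 : (v.num : ℚ) ^ 12 * ((17 ^ 2 * n ^ 6 : ℕ) : ℚ) = v.den ^ 12 * z := by
        have h3 : (z : ℚ) = v ^ 12 * ((17 ^ 2 * n ^ 6 : ℕ) : ℚ) := by
          rw [← hm]; simp
        rw [h3]
        have h4 : (v.den : ℚ) * v = v.num := by rw [mul_comm]; exact Rat.mul_den_eq_num v
        rw [← h4]; ring
      exact_mod_cast h2
    have h5 : (v.den : ℤ) ^ 12 ∣ v.num ^ 12 * ((17 ^ 2 * n ^ 6 : ℕ) : ℤ) := ⟨z, h1⟩
    have h6 : v.den ^ 12 ∣ v.num.natAbs ^ 12 * (17 ^ 2 * n ^ 6) := by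
      have h7 := Int.natAbs_dvd_natAbs.mpr h5
      rw [Int.natAbs_mul, Int.natAbs_pow, Int.natAbs_pow, Int.natAbs_natCast,
        Int.natAbs_natCast] at h7
      exact h7
    have h8 : Nat.Coprime (v.den ^ 12) (v.num.natAbs ^ 12) :=
      Nat.Coprime.pow _ _ (Nat.Coprime.symm v.reduced)
    exact (pow_dvd_pow_of_dvd hpd 12).trans (h8.dvd_of_dvd_mul_left h6)
  have hv1 : 1 ≤ |v| := by
    have h1 : v = v.num := by
      conv_lhs => rw [← Rat.num_div_den v, hden]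
      simp
    have h2 : v.num ≠ 0 := by
      intro hc; exact hv0 (Rat.num_eq_zero.mp hc)
    have h3 : 1 ≤ |v.num| := Int.one_le_abs h2
    rw [h1]
    exact_mod_cast h3
  rw [abs_mul, abs_pow]
  exact le_mul_of_one_le_left (abs_nonneg _) (one_le_pow₀ hv1)

/-- `tw k` is an equation of `y² = x (x - m) (x - 17 m)`, `m = 4k + 1` -/
theorem tw_iso_short' {m k : ℤ} (hk : 4 * k + 1 = m) :
    ∃ C : VariableChange ℚ, C • tw k = ⟨0, -18 * m, 0, 17 * m ^ 2, 0⟩ := by
  have hkQ : (k : ℚ) = ((m : ℚ) - 1) / 4 := by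
    have : (4 * k + 1 : ℚ) = (m : ℚ) := by exact_mod_cast hk
    linarith
  refine ⟨⟨Units.mk0 (1 / 2) (by norm_num), -5 * m / 4, -1 / 2, -(1 + -5 * m / 4) / 2⟩, ?_⟩
  ext
  · simp [variableChange_def, tw]; ring
  · simp [variableChange_def, tw, hkQ]; ring
  · simp [variableChange_def, tw]; ring
  · simp [variableChange_def, tw, hkQ]; ring
  · simp [variableChange_def, tw, hkQ]; ring

theorem finite_shortS {m : ℤ} (hm : m ≠ 0)
    (hS : SelTriv (-5 * m / 4 : ℚ) (-m : ℚ) (3 * m : ℚ)) :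
    Finite (short (-(m : ℚ))).toAffine.Point := by
  have hn : (-(m : ℚ)) ≠ 0 := neg_ne_zero.mpr (by exact_mod_cast hm)
  have hT := short_T3 hn
  have hS' : SelTriv 0 (-(-(m : ℚ))) (-17 * (-(m : ℚ))) := by
    have h1 := hS.scale (5 * m)
    convert h1 using 1 <;> ring
  have := short_isElliptic hn
  refine finite_of_descent (short (-(m : ℚ))) rfl rfl {P | P + P = 0} ?_ 2 (by norm_num)
    (fun T hT => by rw [two_nsmul]; exact hT) ?_
  · apply Set.Finite.subset (Set.toFinite {0, hT.T, hT.rot.T, hT.rot.rot.T})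
    intro P hP
    rcases hT.two_torsion hP with h1 | h1 | h1 | h1 <;> simp [h1]
  · intro P
    obtain ⟨t, R, ht, hP⟩ := descent hT hS' P
    exact ⟨t, ht, R, by rw [hP, two_nsmul]⟩

/-- **Finiteness of `E(ℚ)`.** -/
theorem finite_twS {m k : ℤ} (hm : m ≠ 0) (hk : 4 * k + 1 = m)
    (hS : SelTriv (-5 * m / 4 : ℚ) (-m : ℚ) (3 * m : ℚ)) :
    Finite (tw k).toAffine.Point := by
  have hn : (-(m : ℚ)) ≠ 0 := neg_ne_zero.mpr (by exact_mod_cast hm)
  have hT := short_T3 hn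
  have hT' := tw_T3' hm hk
  have := finite_shortS hm hS
  have hmap : ∀ P : (tw k).toAffine.Point, ∃ Q : (short (-(m : ℚ))).toAffine.Point,
      (P = 0 → Q = 0) ∧ ∀ x η hη, P = hT'.pt x η hη → ∃ hh, Q = hT.pt (4 * x + 5 * m) (8 * η) hh := by
    intro P
    rcases hT'.eq_zero_or_pt P with rfl | ⟨x, η, hη, rfl⟩
    · exact ⟨0, fun _ => rfl, fun x η hη h0 => absurd h0.symm (hT'.pt_ne_zero _ _ _)⟩
    · have hh : (8 * η) ^ 2 = 4 * ((4 * x + 5 * m - 0) * (4 * x + 5 * m - -(-(m : ℚ))) *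
          (4 * x + 5 * m - -17 * (-(m : ℚ)))) := by
        rw [mul_pow, hη]; ring
      refine ⟨hT.pt _ _ hh, fun h0 => absurd h0 (hT'.pt_ne_zero _ _ _), ?_⟩
      intro x' η' hη' he
      obtain ⟨rfl, rfl⟩ := hT'.pt_inj he
      exact ⟨hh, rfl⟩
  choose f hf0 hf using hmap
  apply Finite.of_injective f
  intro P P' hPP
  rcases hT'.eq_zero_or_pt P with h1 | ⟨x, η, hη, h1⟩ <;>
  rcases hT'.eq_zero_or_pt P' with h2 | ⟨x', η', hη', h2⟩
  · rw [h1, h2]
  · obtain ⟨hh, h3⟩ := hf P' x' η' hη' h2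
    rw [hf0 P h1, h3] at hPP
    exact absurd hPP.symm (hT.pt_ne_zero _ _ _)
  · obtain ⟨hh, h3⟩ := hf P x η hη h1
    rw [hf0 P' h2, h3] at hPP
    exact absurd hPP (hT.pt_ne_zero _ _ _)
  · obtain ⟨hh, h3⟩ := hf P x η hη h1
    obtain ⟨hh', h3'⟩ := hf P' x' η' hη' h2
    rw [h3, h3'] at hPP
    obtain ⟨h4, h5⟩ := hT.pt_inj hPP
    rw [h1, h2]
    exact hT'.pt_congr (by linarith) (by linarith)

theorem not_sq_seventeen {r : ℚ} (h : r ^ 2 = 17) : False := by
  obtain ⟨w, hw⟩ := int_of_sq_int (m := (17 : ℤ)) (r := r) (by rw [h]; norm_num)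
  have h1 : w ≤ 5 := by nlinarith
  have h2 : -5 ≤ w := by nlinarith
  interval_cases w <;> omega

/-- no point of order four -/
theorem no_four_twS {m k : ℤ} (hm : m ≠ 0) (hk : 4 * k + 1 = m)
    (x : (tw k).toAffine.Point) (hx : x + x = 0) (hy : ∃ y, y + y = x) : x = 0 := by
  have hT := tw_T3' hm hk
  have hm' : (m : ℚ) ≠ 0 := by exact_mod_cast hm
  have n1 : ¬ ∃ y, y + y = hT.T := by
    rintro ⟨y, hy⟩
    obtain ⟨r, hr⟩ := sq_of_isTwo hT.rot (x := -5 * m / 4) (η := 0) (by ring) hy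
    obtain ⟨s, hs⟩ := sq_of_isTwo hT.rot.rot (x := -5 * m / 4) (η := 0) (by ring) hy
    have hr0 : r ≠ 0 := by
      rintro rfl; apply hm'; linarith
    apply not_sq_seventeen (r := s / r)
    rw [div_pow, div_eq_iff (pow_ne_zero 2 hr0)]
    linear_combination hs - 17 * hr
  have n2 : ¬ ∃ y, y + y = hT.rot.T := by
    rintro ⟨y, hy⟩
    obtain ⟨r, hr⟩ := sq_of_isTwo hT (x := -m) (η := 0) (by ring) hy
    obtain ⟨s, hs⟩ := sq_of_isTwo hT.rot.rot (x := -m) (η := 0) (by ring) hy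
    apply hm'
    nlinarith [sq_nonneg r, sq_nonneg s]
  have n3 : ¬ ∃ y, y + y = hT.rot.rot.T := by
    rintro ⟨y, hy⟩
    obtain ⟨r, hr⟩ := sq_of_isTwo hT (x := 3 * m) (η := 0) (by ring) hy
    obtain ⟨s, hs⟩ := sq_of_isTwo hT.rot (x := 3 * m) (η := 0) (by ring) hy
    have hs0 : s ≠ 0 := by
      rintro rfl; apply hm'; linarith
    apply not_sq_seventeen (r := 4 * r / s)
    rw [div_pow, div_eq_iff (pow_ne_zero 2 hs0)]
    linear_combination 16 * hr - 17 * hs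
  rcases hT.two_torsion hx with h | h | h | h
  · exact h
  · rw [h] at hy; exact absurd hy n1
  · rw [h] at hy; exact absurd hy n2
  · rw [h] at hy; exact absurd hy n3

/-- the order of the torsion subgroup is four times an odd number -/
theorem torsionOrder_twS {m k : ℤ} (hm : m ≠ 0) (hk : 4 * k + 1 = m)
    (hfin : Finite (tw k).toAffine.Point) :
    ∃ r : ℕ, Odd r ∧ torsionOrder (tw k) = 4 * r := by
  have hT := tw_T3' hm hk
  have htor : torsionOrder (tw k) = Nat.card (tw k).toAffine.Point := by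
    unfold torsionOrder
    have : AddCommGroup.torsion (tw k).toAffine.Point = ⊤ := by
      ext x
      simp only [AddSubgroup.mem_top, iff_true]
      exact isOfFinAddOrder_of_finite x
    rw [this]
    exact Nat.card_congr AddSubgroup.topEquiv.toEquiv
  classical
  let S : Finset (tw k).toAffine.Point := {0, hT.T, hT.rot.T, hT.rot.rot.T}
  have hcard : S.card = 4 := by
    have a1 := hT.T_ne_zero.symm
    have a2 := hT.rot.T_ne_zero.symm
    have a3 := hT.rot.rot.T_ne_zero.symm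
    have b1 := hT.T1_ne_T2
    have b2 := hT.T1_ne_T3
    have b3 := hT.T2_ne_T3
    simp only [S]
    rw [Finset.card_insert_of_notMem, Finset.card_insert_of_notMem, Finset.card_insert_of_notMem,
      Finset.card_singleton]
    · simpa using b3
    · simp only [Finset.mem_insert, Finset.mem_singleton, not_or]; exact ⟨b1, b2⟩
    · simp only [Finset.mem_insert, Finset.mem_singleton, not_or]; exact ⟨a1, a2, a3⟩
  have h1 : ∀ x, x ∈ S ↔ x + x = 0 := by
    intro x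
    simp only [S, Finset.mem_insert, Finset.mem_singleton]
    constructor
    · rintro (rfl | rfl | rfl | rfl)
      · exact add_zero 0
      · exact hT.two_T
      · exact hT.rot.two_T
      · exact hT.rot.rot.two_T
    · exact hT.two_torsion
  obtain ⟨r, hr, hc⟩ := card_of_two S h1 (by
    intro x hx hy
    exact no_four_twS hm hk x ((h1 x).mp hx) hy)
  exact ⟨r, hr, by rw [htor, hc, hcard]⟩

open scoped Classical in
/-- **the Selmer group is minimal if and only if `E(ℚ)` is finite and `Sha[2] = 0`** -/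
theorem selTriv_iff {m k : ℤ} (hm : m ≠ 0) (hk : 4 * k + 1 = m) :
    SelTriv (-5 * m / 4 : ℚ) (-m : ℚ) (3 * m : ℚ) ↔
      (Finite (tw k).toAffine.Point ∧ ∀ s : Sha (tw k), s + s = 0 → s = 0) := by
  constructor
  · intro h
    exact ⟨finite_twS hm hk h, fun s hs => sha_eq_zero (tw_T3' hm hk) h hs⟩
  · rintro ⟨h1, h2⟩
    exact selTriv_of_sha (tw_T3' hm hk) h2 (div_of_finite (no_four_twS hm hk))

/-- the 2-primary part of `Sha` -/
theorem sha_twS {m k : ℤ} (hm : m ≠ 0) (hk : 4 * k + 1 = m)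
    (hS : SelTriv (-5 * m / 4 : ℚ) (-m : ℚ) (3 * m : ℚ)) :
    Nat.card (shaPrimary (tw k) 2) = 1 :=
  sha_primary_trivial (tw_T3' hm hk) hS

end Vale.Agent.P014.H71
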