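import Vale.Agent.P014.H74.MainE
import Vale.Agent.P014.H74.GlobE

/-!
# Theorem B for the twists by `+V`, given the Selmer criterion
-/

namespace Vale.Agent.P014.H71

open Vale.Agent.P014.H74 (Dp Inp mainE_L ppart_even)
open scoped Classical

/-- **Theorem B, for one curve with `V > 0`**, given the determinant criterion -/
theorem mainE (hI : Inp DF gF) {n : ℕ} (hn : Dp n) (hn1 : n ≠ 1) {k : ℤ} (hk : 4 * k + 1 = (n : ℤ))
    (hsel : (NP n).det ≠ 0 ↔
      SelTriv (-5 * ((n : ℤ) : ℚ) / 4) (-((n : ℤ) : ℚ)) (3 * ((n : ℤ) : ℚ))) :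
    ∃ L : ℂ → ℂ, IsHasseWeil (tw k) L ∧
      (∃ p q : ℤ, Odd q ∧ ‖L 1‖ =
          ((p : ℝ) / q) ^ 2 * (realPeriod (tw k) * (tamagawaProduct (tw k) : ℝ) / 4 ^ 2) ∧
        (Odd p ↔ Finite (tw k).toAffine.Point ∧ ∀ s : Sha (tw k), s + s = 0 → s = 0)) ∧
      (Finite (tw k).toAffine.Point → (∀ s : Sha (tw k), s + s = 0 → s = 0) →
        L 1 ≠ 0 ∧ Nat.card (shaPrimary (tw k) 2) = 1 ∧ PPartRankZero (tw k) L 2) := by
  have hn0 : n ≠ 0 := hn.2.1.ne_zero
  have hm0 : (n : ℤ) ≠ 0 := by exact_mod_cast hn0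
  obtain ⟨L, hL, e, p, q, he, hq, hp, hL1⟩ := mainE_L hI hn hn1 hk
  rw [DF_eq (by have := hn.1; omega), hsel, selTriv_iff hm0 hk] at hp
  have hΩ := H483.realPeriod_pos_even hn0 hk
  have hT : 0 < tamagawaProduct (tw k) := by
    rw [tamagawaProduct_tw' (m := (n : ℤ)) hk (Int.squarefree_natCast.mpr hn.2.1)
      (H74.not17_of_Dp hn)]
    positivity
  have hTR : (0 : ℝ) < tamagawaProduct (tw k) := by exact_mod_cast hT
  have hq0 : (q : ℝ) ≠ 0 := by
    have : q ≠ 0 := by rintro rfl; simp at hq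
    exact_mod_cast this
  have habs : |(e : ℝ)| = 1 := by rcases he with h | h <;> rw [h] <;> simp
  refine ⟨L, hL, ⟨p, q, hq, ?_, hp⟩, fun hfin hsha => ?_⟩
  · rw [hL1, Complex.norm_real, Real.norm_eq_abs, abs_mul, abs_mul, habs, one_mul,
      abs_of_nonneg (sq_nonneg _), abs_of_nonneg (by positivity)]
  · have hpo : Odd p := hp.mpr ⟨hfin, hsha⟩
    have hS := (selTriv_iff hm0 hk).mpr ⟨hfin, hsha⟩
    have hp0 : (p : ℝ) ≠ 0 := by
      have : p ≠ 0 := by rintro rfl; simp at hpo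
      exact_mod_cast this
    have he0 : (e : ℝ) ≠ 0 := by rcases he with h | h <;> rw [h] <;> norm_num
    obtain ⟨r, hr, hr'⟩ := torsionOrder_twS hm0 hk hfin
    refine ⟨?_, sha_twS hm0 hk hS, ?_⟩
    · rw [hL1]
      exact_mod_cast mul_ne_zero (mul_ne_zero he0 (pow_ne_zero 2 (div_ne_zero hp0 hq0)))
        (by positivity)
    · exact ppart_even he hq hpo (m := (r : ℤ)) (by exact_mod_cast hr)
        (by rw [hr']; push_cast; ring) (sha_twS hm0 hk hS) hL1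

end Vale.Agent.P014.H71
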