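import Mathlib

/-!
# P014, module A: geodesics between cusps and their crossing numbers

A quadruple `(X, Y, w, v)` with `X v - 17 w Y > 0` stands for the matrix `[X, Y; 17 w, v]` and for the
geodesic from `Y / v` to `X / (17 w)` in the upper half plane.
-/

namespace Vale.Agent.P014.H74

open UpperHalfPlane

/-- the matrix `[X, Y; 17 w, v]` -/
@[ext] structure M4 where
  X : ℤ
  Y : ℤ
  w : ℤ
  v : ℤ

namespace M4

/-- determinant -/
def det (N : M4) : ℤ := N.X * N.v - 17 * N.w * N.Y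

/-- all entries are at most `B` in absolute value -/
def box (B : ℕ) : Set M4 := {N | |N.X| ≤ B ∧ |N.Y| ≤ B ∧ |N.w| ≤ B ∧ |N.v| ≤ B}

theorem box_finite (B : ℕ) : (box B).Finite := by
  have h : (box B) ⊆ (fun p : ℤ × ℤ × ℤ × ℤ => (⟨p.1, p.2.1, p.2.2.1, p.2.2.2⟩ : M4)) ''
      ((Set.Icc (-(B : ℤ)) B) ×ˢ (Set.Icc (-(B : ℤ)) B) ×ˢ (Set.Icc (-(B : ℤ)) B) ×ˢ
        (Set.Icc (-(B : ℤ)) B)) := by
    intro N hN
    obtain ⟨h1, h2, h3, h4⟩ := hN
    refine ⟨(N.X, N.Y, N.w, N.v), ?_, rfl⟩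
    simp only [Set.mem_prod, Set.mem_Icc]
    exact ⟨abs_le.mp h1, abs_le.mp h2, abs_le.mp h3, abs_le.mp h4⟩
  refine Set.Finite.subset (Set.Finite.image _ ?_) h
  exact (Set.finite_Icc _ _).prod ((Set.finite_Icc _ _).prod ((Set.finite_Icc _ _).prod
    (Set.finite_Icc _ _)))

/-- the quadratic form which is positive on the right hand side of the geodesic -/
noncomputable def qf (N : M4) (z : ℍ) : ℝ :=
  ((N.v : ℝ) * N.X + 17 * N.w * N.Y) * z.re - 17 * N.w * N.v * (z.re ^ 2 + z.im ^ 2) - N.X * N.Y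

/-- the side of the geodesic on which `z` lies -/
noncomputable def sg (N : M4) (z : ℍ) : ℤ := ((SignType.sign (N.qf z) : SignType) : ℤ)

theorem qf_eq (N : M4) (z : ℍ) :
    N.qf z = (((N.v : ℂ) * z - N.Y) * (starRingEnd ℂ) ((N.X : ℂ) - 17 * N.w * z)).re := by
  unfold qf
  have h1 : ((z : ℂ)).re = z.re := rfl
  have h2 : ((z : ℂ)).im = z.im := rfl
  simp only [Complex.mul_re, Complex.mul_im, Complex.sub_re, Complex.sub_im, Complex.conj_re,
    Complex.conj_im, Complex.intCast_re, Complex.intCast_im, h1, h2]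
  norm_num
  ring

/-- `|v z - Y|² |X - 17 w z|² = qf² + det² y²` -/
theorem norm_id (N : M4) (z : ℍ) :
    ((N.v * z.re - N.Y) ^ 2 + (N.v * z.im) ^ 2) * ((N.X - 17 * N.w * z.re) ^ 2 + (17 * N.w * z.im) ^ 2)
      = N.qf z ^ 2 + ((N.det : ℝ) * z.im) ^ 2 := by
  unfold qf det
  push_cast
  ring

end M4

/-- the family of the `Γ₀(17)`-translates of the geodesic from `b / d` to `∞` -/
def Fam (b d : ℤ) (N : M4) : Prop := N.det = d ∧ d ∣ N.Y - b * N.X ∧ d ∣ N.v - 17 * b * N.w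

open Classical in
/-- four times the signed number of the geodesics of the family which separate `z` from `w` -/
noncomputable def Psi (b d : ℤ) (z w : ℍ) : ℤ :=
  ∑ᶠ N : M4, if Fam b d N then N.sg w - N.sg z else 0

end Vale.Agent.P014.H74
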