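import Vale.Agent.P014.H74.A1

namespace Vale.Agent.P014.H74

open UpperHalfPlane

namespace M4

/-- the form `qf` at the point `x + i y` -/
noncomputable def qr (N : M4) (x y : ℝ) : ℝ :=
  ((N.v : ℝ) * N.X + 17 * N.w * N.Y) * x - 17 * N.w * N.v * (x ^ 2 + y ^ 2) - N.X * N.Y

theorem qf_qr (N : M4) (z : ℍ) : N.qf z = N.qr z.re z.im := rfl

theorem norm_id' (N : M4) (x y : ℝ) :
    ((N.v * x - N.Y) ^ 2 + (N.v * y) ^ 2) * ((N.X - 17 * N.w * x) ^ 2 + (17 * N.w * y) ^ 2)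
      = N.qr x y ^ 2 + ((N.det : ℝ) * y) ^ 2 := by
  unfold qr det
  push_cast
  ring

theorem one_le_sq {a : ℤ} (h : a ≠ 0) : (1 : ℝ) ≤ (a : ℝ) ^ 2 := by
  have : (1 : ℤ) ≤ a ^ 2 := by
    have := sq_abs a ▸ (one_le_pow₀ (Int.one_le_abs h) : (1:ℤ) ≤ |a| ^ 2)
    simpa using this
  exact_mod_cast this

/-- auxiliary real inequality -/
theorem real_bound {X Y w v x y x1 C μ : ℝ} (hμ0 : 0 < μ) (hμy : μ ≤ y ^ 2)
    (hx2 : x ^ 2 ≤ x1 ^ 2) (hC0 : 0 ≤ C)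
    (hAC : (v * x - Y) ^ 2 + (v * y) ^ 2 ≤ C)
    (hBC : (X - 17 * w * x) ^ 2 + (17 * w * y) ^ 2 ≤ C) :
    X ^ 2 ≤ 2 * C + 2 * x1 ^ 2 * (C / μ) + C / μ ∧
    Y ^ 2 ≤ 2 * C + 2 * x1 ^ 2 * (C / μ) + C / μ ∧
    w ^ 2 ≤ 2 * C + 2 * x1 ^ 2 * (C / μ) + C / μ ∧
    v ^ 2 ≤ 2 * C + 2 * x1 ^ 2 * (C / μ) + C / μ := by
  have hCμ : 0 ≤ C / μ := div_nonneg hC0 hμ0.le
  have hp : 0 ≤ 2 * x1 ^ 2 * (C / μ) := by positivity
  have hv2 : v ^ 2 ≤ C / μ := by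
    rw [le_div_iff₀ hμ0]
    calc v ^ 2 * μ ≤ v ^ 2 * y ^ 2 := by gcongr
      _ = (v * y) ^ 2 := by ring
      _ ≤ C := by linarith [sq_nonneg (v * x - Y)]
  have hw3 : (17 * w) ^ 2 ≤ C / μ := by
    rw [le_div_iff₀ hμ0]
    calc (17 * w) ^ 2 * μ ≤ (17 * w) ^ 2 * y ^ 2 := by gcongr
      _ = (17 * w * y) ^ 2 := by ring
      _ ≤ C := by linarith [sq_nonneg (X - 17 * w * x)]
  have hw2 : w ^ 2 ≤ C / μ := by
    have : w ^ 2 ≤ (17 * w) ^ 2 := by nlinarith [sq_nonneg w]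
    linarith
  have hY2 : Y ^ 2 ≤ 2 * C + 2 * x1 ^ 2 * (C / μ) := by
    have h1 : Y ^ 2 ≤ 2 * (v * x - Y) ^ 2 + 2 * (v ^ 2 * x ^ 2) := by
      nlinarith [sq_nonneg (2 * v * x - Y)]
    have h2 : (v * x - Y) ^ 2 ≤ C := by linarith [sq_nonneg (v * y)]
    have h3 : v ^ 2 * x ^ 2 ≤ (C / μ) * x1 ^ 2 := by gcongr
    linarith
  have hX2 : X ^ 2 ≤ 2 * C + 2 * x1 ^ 2 * (C / μ) := by
    have h1 : X ^ 2 ≤ 2 * (X - 17 * w * x) ^ 2 + 2 * ((17 * w) ^ 2 * x ^ 2) := by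
      nlinarith [sq_nonneg (2 * (17 * w) * x - X)]
    have h2 : (X - 17 * w * x) ^ 2 ≤ C := by linarith [sq_nonneg (17 * w * y)]
    have h3 : (17 * w) ^ 2 * x ^ 2 ≤ (C / μ) * x1 ^ 2 := by gcongr
    linarith
  exact ⟨by linarith, by linarith, by linarith, by linarith⟩

theorem left_bound {d : ℤ} (hd : 0 < d) (N : M4) (hN : N.det = d) {x y μ : ℝ} (hμy : μ ≤ y ^ 2)
    (hμ1 : μ ≤ 1) : μ ≤ ((N.v : ℝ) * x - N.Y) ^ 2 + (N.v * y) ^ 2 := by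
  have hdet : N.X * N.v - 17 * N.w * N.Y = d := hN
  by_cases hv : N.v = 0
  · have hY : N.Y ≠ 0 := by
      rintro h; rw [hv, h] at hdet; simp at hdet; omega
    have := one_le_sq hY
    rw [hv]; push_cast; nlinarith [sq_nonneg (N.Y : ℝ)]
  · have := one_le_sq hv
    have h2 : y ^ 2 ≤ (N.v * y : ℝ) ^ 2 := by
      rw [mul_pow]; nlinarith [sq_nonneg y]
    have h3 := sq_nonneg ((N.v : ℝ) * x - N.Y)
    linarith

theorem right_bound {d : ℤ} (hd : 0 < d) (N : M4) (hN : N.det = d) {x y μ : ℝ} (hμy : μ ≤ y ^ 2)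
    (hμ1 : μ ≤ 1) : μ ≤ ((N.X : ℝ) - 17 * N.w * x) ^ 2 + (17 * N.w * y) ^ 2 := by
  have hdet : N.X * N.v - 17 * N.w * N.Y = d := hN
  by_cases hw : N.w = 0
  · have hX : N.X ≠ 0 := by
      rintro h; rw [hw, h] at hdet; simp at hdet; omega
    have := one_le_sq hX
    rw [hw]; push_cast; nlinarith [sq_nonneg (N.X : ℝ)]
  · have h1 := one_le_sq hw
    have h2 : y ^ 2 ≤ (17 * N.w * y : ℝ) ^ 2 := by
      have e : (17 * (N.w : ℝ) * y) ^ 2 = 289 * ((N.w : ℝ) ^ 2 * y ^ 2) := by ring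
      have h3 : 1 * y ^ 2 ≤ (N.w : ℝ) ^ 2 * y ^ 2 := by gcongr
      rw [e]; nlinarith [sq_nonneg y]
    have h3 := sq_nonneg ((N.X : ℝ) - 17 * N.w * x)
    linarith

/-- the bound for the entries -/
noncomputable def kb (d : ℤ) (y0 y1 x1 : ℝ) : ℕ :=
  ⌈2 * ((d : ℝ) ^ 2 * y1 ^ 2 / min 1 (y0 ^ 2)) +
      2 * x1 ^ 2 * ((d : ℝ) ^ 2 * y1 ^ 2 / min 1 (y0 ^ 2) / min 1 (y0 ^ 2)) +
      (d : ℝ) ^ 2 * y1 ^ 2 / min 1 (y0 ^ 2) / min 1 (y0 ^ 2)⌉₊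

theorem key_bound (K : ℝ) (a : ℤ) (ha : (a : ℝ) ^ 2 ≤ K) : |a| ≤ (⌈K⌉₊ : ℤ) := by
  have h1 : (|a| : ℤ) ≤ a ^ 2 := by
    by_cases h : a = 0
    · simp [h]
    · have := Int.one_le_abs h
      nlinarith [sq_abs a]
  have h2 : ((a ^ 2 : ℤ) : ℝ) ≤ (⌈K⌉₊ : ℝ) := by
    push_cast
    exact ha.trans (Nat.le_ceil K)
  have h3 : a ^ 2 ≤ (⌈K⌉₊ : ℤ) := by exact_mod_cast h2
  exact h1.trans h3

theorem entry_bound {d : ℤ} (hd : 0 < d) {y0 y1 x1 : ℝ} (h0 : 0 < y0) (N : M4) (hN : N.det = d)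
    {x y : ℝ} (hy0 : y0 ≤ y) (hy1 : y ≤ y1) (hx : |x| ≤ x1) (hq : N.qr x y = 0) :
    N ∈ box (kb d y0 y1 x1) := by
  have hμ0 : 0 < min 1 (y0 ^ 2) := lt_min one_pos (by positivity)
  have hy : 0 < y := lt_of_lt_of_le h0 hy0
  have hμy : min 1 (y0 ^ 2) ≤ y ^ 2 := le_trans (min_le_right _ _) (by gcongr)
  have hμ1 : min 1 (y0 ^ 2) ≤ 1 := min_le_left _ _
  have hAB := N.norm_id' x y
  rw [hq, hN] at hAB
  have hA := left_bound hd N hN (x := x) hμy hμ1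
  have hB := right_bound hd N hN (x := x) hμy hμ1
  generalize hAe : ((N.v : ℝ) * x - N.Y) ^ 2 + (N.v * y) ^ 2 = A at hAB hA
  generalize hBe : ((N.X : ℝ) - 17 * N.w * x) ^ 2 + (17 * N.w * y) ^ 2 = B at hAB hB
  have hdy : ((d : ℝ) * y) ^ 2 ≤ (d : ℝ) ^ 2 * y1 ^ 2 := by
    rw [mul_pow]; gcongr
  have hAB' : A * B ≤ (d : ℝ) ^ 2 * y1 ^ 2 := by
    rw [hAB]; simpa using hdy
  have hA0 : 0 ≤ A := le_trans hμ0.le hA
  have hB0 : 0 ≤ B := le_trans hμ0.le hB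
  have hAC : A ≤ (d : ℝ) ^ 2 * y1 ^ 2 / min 1 (y0 ^ 2) := by
    rw [le_div_iff₀ hμ0]
    exact (mul_le_mul_of_nonneg_left hB hA0).trans hAB'
  have hBC : B ≤ (d : ℝ) ^ 2 * y1 ^ 2 / min 1 (y0 ^ 2) := by
    rw [le_div_iff₀ hμ0]
    refine (mul_le_mul_of_nonneg_left hA hB0).trans ?_
    rw [mul_comm]; exact hAB'
  have hx2 : x ^ 2 ≤ x1 ^ 2 := by
    rw [← sq_abs x]; gcongr
  rw [← hAe] at hAC
  rw [← hBe] at hBC
  obtain ⟨h1, h2, h3, h4⟩ := real_bound (x1 := x1) hμ0 hμy hx2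
    (by positivity) hAC hBC
  exact ⟨key_bound _ _ h1, key_bound _ _ h2, key_bound _ _ h3, key_bound _ _ h4⟩

/-- finiteness of the geodesics of given determinant separating two points -/
theorem sep_finite {d : ℤ} (hd : 0 < d) (z w : ℍ) :
    {N : M4 | N.det = d ∧ N.sg z ≠ N.sg w}.Finite := by
  refine Set.Finite.subset (box_finite (kb d (min z.im w.im) (max z.im w.im)
    (max |z.re| |w.re|))) ?_
  rintro N ⟨hN, hs⟩
  let g : ℝ → ℝ := fun t => N.qr ((1 - t) * z.re + t * w.re) ((1 - t) * z.im + t * w.im)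
  have hg : Continuous g := by
    unfold g qr
    fun_prop
  have hg0 : g 0 = N.qf z := by simp [g, qf_qr]
  have hg1 : g 1 = N.qf w := by simp [g, qf_qr]
  have hex : ∃ t ∈ Set.Icc (0 : ℝ) 1, g t = 0 := by
    by_contra hcon
    push Not at hcon
    apply hs
    unfold sg
    rw [← hg0, ← hg1]
    have hne0 : g 0 ≠ 0 := hcon 0 ⟨le_refl _, zero_le_one⟩
    have hne1 : g 1 ≠ 0 := hcon 1 ⟨zero_le_one, le_refl _⟩
    rcases lt_or_gt_of_ne hne0 with h0 | h0 <;> rcases lt_or_gt_of_ne hne1 with h1 | h1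
    · rw [sign_neg h0, sign_neg h1]
    · exfalso
      obtain ⟨t, ht, ht'⟩ := intermediate_value_Icc (zero_le_one) hg.continuousOn
        (Set.mem_Icc.mpr ⟨h0.le, h1.le⟩)
      exact hcon t ht ht'
    · exfalso
      obtain ⟨t, ht, ht'⟩ := intermediate_value_Icc' (zero_le_one) hg.continuousOn
        (Set.mem_Icc.mpr ⟨h1.le, h0.le⟩)
      exact hcon t ht ht'
    · rw [sign_pos h0, sign_pos h1]
  obtain ⟨t, ⟨ht0, ht1⟩, hgt⟩ := hex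
  have hz := z.im_pos
  have hw := w.im_pos
  have h1t : 0 ≤ 1 - t := by linarith
  refine entry_bound hd (y0 := min z.im w.im) (y1 := max z.im w.im) (x1 := max |z.re| |w.re|)
    (lt_min hz hw) N hN (x := (1 - t) * z.re + t * w.re) (y := (1 - t) * z.im + t * w.im)
    ?_ ?_ ?_ hgt
  · calc min z.im w.im = (1 - t) * min z.im w.im + t * min z.im w.im := by ring
      _ ≤ _ := by gcongr <;> simp
  · calc (1 - t) * z.im + t * w.im ≤ (1 - t) * max z.im w.im + t * max z.im w.im := by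
          gcongr <;> simp
      _ = _ := by ring
  · calc |(1 - t) * z.re + t * w.re| ≤ |(1 - t) * z.re| + |t * w.re| := abs_add_le _ _
      _ = (1 - t) * |z.re| + t * |w.re| := by
          rw [abs_mul, abs_mul, abs_of_nonneg h1t, abs_of_nonneg ht0]
      _ ≤ (1 - t) * max |z.re| |w.re| + t * max |z.re| |w.re| := by
          gcongr <;> simp
      _ = _ := by ring

end M4

end Vale.Agent.P014.H74
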