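import Vale.Agent.P014.H74.A1b

namespace Vale.Agent.P014.H74

open UpperHalfPlane
open scoped MatrixGroups

namespace M4

instance : Mul M4 :=
  ⟨fun A B => ⟨A.X * B.X + 17 * A.Y * B.w, A.X * B.Y + A.Y * B.v, A.w * B.X + A.v * B.w,
    17 * A.w * B.Y + A.v * B.v⟩⟩

@[simp] theorem mul_X (A B : M4) : (A * B).X = A.X * B.X + 17 * A.Y * B.w := rfl
@[simp] theorem mul_Y (A B : M4) : (A * B).Y = A.X * B.Y + A.Y * B.v := rfl
@[simp] theorem mul_w (A B : M4) : (A * B).w = A.w * B.X + A.v * B.w := rfl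
@[simp] theorem mul_v (A B : M4) : (A * B).v = 17 * A.w * B.Y + A.v * B.v := rfl

theorem det_mul (A B : M4) : (A * B).det = A.det * B.det := by
  simp only [det, mul_X, mul_Y, mul_w, mul_v]; ring

theorem mul_assoc' (A B C : M4) : A * B * C = A * (B * C) := by
  ext <;> simp only [mul_X, mul_Y, mul_w, mul_v] <;> ring

/-- the adjugate -/
def adj (A : M4) : M4 := ⟨A.v, -A.Y, -A.w, A.X⟩

end M4

/-- the group `Γ₀(17)` -/
structure G where
  /-- the matrix -/
  val : M4
  /-- the determinant is one -/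
  det_one : val.det = 1

namespace G

instance : Mul G := ⟨fun A B => ⟨A.1 * B.1, by rw [M4.det_mul, A.2, B.2, one_mul]⟩⟩
instance : One G := ⟨⟨⟨1, 0, 0, 1⟩, by simp [M4.det]⟩⟩
instance : Inv G := ⟨fun A => ⟨A.1.adj, by
  have := A.2
  unfold M4.det at this ⊢
  simp only [M4.adj]; linarith⟩⟩

theorem mul_val (A B : G) : (A * B).1 = A.1 * B.1 := rfl
theorem one_val : (1 : G).1 = ⟨1, 0, 0, 1⟩ := rfl
theorem inv_val (A : G) : (A⁻¹).1 = A.1.adj := rfl

@[ext] theorem ext' {A B : G} (h : A.1 = B.1) : A = B := by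
  cases A; cases B; cases h; rfl

instance : Group G :=
  Group.ofLeftAxioms (fun A B C => ext' (M4.mul_assoc' _ _ _))
    (fun A => ext' (by rw [mul_val, one_val]; ext <;> simp))
    (fun A => ext' (by
      have := A.2
      unfold M4.det at this
      rw [mul_val, one_val, inv_val]
      ext <;> simp only [M4.mul_X, M4.mul_Y, M4.mul_w, M4.mul_v, M4.adj] <;> linarith))

theorem det_eq (A : G) : A.1.X * A.1.v - 17 * A.1.w * A.1.Y = 1 := A.2

/-- the inclusion in `SL(2, ℤ)` -/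
def toSL0 (A : G) : SL(2, ℤ) := ⟨!![A.1.X, A.1.Y; 17 * A.1.w, A.1.v], by
    rw [Matrix.det_fin_two_of]; have := A.det_eq; linarith⟩

theorem toSL0_apply (A : G) : ((toSL0 A : SL(2, ℤ)) : Matrix (Fin 2) (Fin 2) ℤ) =
    !![A.1.X, A.1.Y; 17 * A.1.w, A.1.v] := rfl

/-- the inclusion in `SL(2, ℤ)` -/
def toSL : G →* SL(2, ℤ) where
  toFun := toSL0
  map_one' := by
    apply Matrix.SpecialLinearGroup.ext
    intro i j
    rw [toSL0_apply]
    fin_cases i <;> fin_cases j <;> simp [one_val]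
  map_mul' A B := by
    apply Matrix.SpecialLinearGroup.ext
    intro i j
    rw [Matrix.SpecialLinearGroup.coe_mul, toSL0_apply, toSL0_apply, toSL0_apply]
    fin_cases i <;> fin_cases j <;>
      simp [mul_val, Matrix.mul_apply, Fin.sum_univ_two] <;> ring

theorem toSL_apply (A : G) : ((toSL A : SL(2, ℤ)) : Matrix (Fin 2) (Fin 2) ℤ) =
    !![A.1.X, A.1.Y; 17 * A.1.w, A.1.v] := rfl

noncomputable instance : MulAction G ℍ := MulAction.compHom ℍ toSL

theorem smul_def' (A : G) (z : ℍ) : A • z = toSL A • z := rfl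

theorem den_ne (A : G) (z : ℍ) : (17 * (A.1.w : ℂ) * z + A.1.v) ≠ 0 := by
  intro h
  have h2 := congrArg Complex.im h
  have hz := z.im_pos
  have hre : ((17 * (A.1.w : ℂ) * z + A.1.v)).im = 17 * A.1.w * z.im := by
    simp [Complex.add_im, Complex.mul_im]
  rw [hre] at h2
  have hw : (A.1.w : ℝ) = 0 := by
    simp only [Complex.zero_im] at h2
    rcases mul_eq_zero.mp h2 with h3 | h3
    · linarith
    · exact absurd h3 hz.ne'
  have hw' : A.1.w = 0 := by exact_mod_cast hw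
  rw [hw'] at h
  simp at h
  have := A.det_eq
  rw [hw', h] at this
  simp at this

theorem coe_smul (A : G) (z : ℍ) :
    ((A • z : ℍ) : ℂ) = ((A.1.X : ℂ) * z + A.1.Y) / (17 * (A.1.w : ℂ) * z + A.1.v) := by
  rw [smul_def', UpperHalfPlane.specialLinearGroup_apply]
  simp [toSL_apply]

end G

namespace M4

/-- change of the form under the group -/
theorem qf_smul (A : G) (N : M4) (z : ℍ) :
    (A.1 * N).qf (A • z) = N.qf z / Complex.normSq (17 * (A.1.w : ℂ) * z + A.1.v) := by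
  rw [qf_eq, qf_eq, G.coe_smul]
  have hd := G.den_ne A z
  have hdet : (A.1.X : ℂ) * A.1.v - 17 * A.1.w * A.1.Y = 1 := by exact_mod_cast A.det_eq
  set j : ℂ := 17 * (A.1.w : ℂ) * z + A.1.v with hj
  have h1 : (((A.1 * N).v : ℤ) : ℂ) * (((A.1.X : ℂ) * z + A.1.Y) / j) - ((A.1 * N).Y : ℤ)
      = ((N.v : ℂ) * z - N.Y) / j := by
    simp only [mul_v, mul_Y]
    push_cast
    field_simp
    rw [hj]
    linear_combination ((N.v : ℂ) * z - N.Y) * hdet
  have h2 : (((A.1 * N).X : ℤ) : ℂ) - 17 * ((A.1 * N).w : ℤ) * (((A.1.X : ℂ) * z + A.1.Y) / j)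
      = ((N.X : ℂ) - 17 * N.w * z) / j := by
    simp only [mul_X, mul_w]
    push_cast
    field_simp
    rw [hj]
    linear_combination ((N.X : ℂ) - 17 * N.w * z) * hdet
  rw [h1, h2, map_div₀, div_mul_div_comm, Complex.mul_conj, Complex.div_ofReal_re]

theorem sg_smul (A : G) (N : M4) (z : ℍ) : (A.1 * N).sg (A • z) = N.sg z := by
  unfold sg
  rw [qf_smul, div_eq_mul_inv, sign_mul, sign_pos (inv_pos.mpr
    (Complex.normSq_pos.mpr (G.den_ne A z))), mul_one]

end M4

theorem fam_mul (b d : ℤ) (A : G) (N : M4) : Fam b d (A.1 * N) ↔ Fam b d N := by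
  have key : ∀ (A : G) (N : M4), Fam b d N → Fam b d (A.1 * N) := by
    intro A N h
    obtain ⟨h1, h2, h3⟩ := h
    refine ⟨by rw [M4.det_mul, A.2, one_mul, h1], ?_, ?_⟩
    · have e : (A.1 * N).Y - b * (A.1 * N).X = A.1.X * (N.Y - b * N.X)
        + A.1.Y * (N.v - 17 * b * N.w) := by
        simp only [M4.mul_X, M4.mul_Y]; ring
      rw [e]
      exact dvd_add (Dvd.dvd.mul_left h2 _) (Dvd.dvd.mul_left h3 _)
    · have e : (A.1 * N).v - 17 * b * (A.1 * N).w = 17 * A.1.w * (N.Y - b * N.X)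
        + A.1.v * (N.v - 17 * b * N.w) := by
        simp only [M4.mul_w, M4.mul_v]; ring
      rw [e]
      exact dvd_add (Dvd.dvd.mul_left h2 _) (Dvd.dvd.mul_left h3 _)
  refine ⟨fun h => ?_, key A N⟩
  have h2 := key A⁻¹ _ h
  rwa [← M4.mul_assoc', ← G.mul_val, inv_mul_cancel, show (1 : G).1 * N = N from by
    rw [G.one_val]; ext <;> simp] at h2

/-- left multiplication -/
def lm (A : G) : M4 ≃ M4 where
  toFun N := A.1 * N
  invFun N := A⁻¹.1 * N
  left_inv N := by
    change A⁻¹.1 * (A.1 * N) = N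
    rw [← M4.mul_assoc', ← G.mul_val, inv_mul_cancel, G.one_val]; ext <;> simp
  right_inv N := by
    change A.1 * (A⁻¹.1 * N) = N
    rw [← M4.mul_assoc', ← G.mul_val, mul_inv_cancel, G.one_val]; ext <;> simp

open Classical in
theorem psi_supp {b d : ℤ} (hd : 0 < d) (z w : ℍ) :
    (Function.support fun N : M4 => if Fam b d N then N.sg w - N.sg z else 0).Finite := by
  refine (M4.sep_finite hd z w).subset ?_
  intro N hN
  simp only [Function.mem_support, ne_eq, ite_eq_right_iff, Classical.not_imp] at hN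
  exact ⟨hN.1.1, fun h => hN.2 (by rw [h]; ring)⟩

theorem psi_add {b d : ℤ} (hd : 0 < d) (z w t : ℍ) :
    Psi b d z w + Psi b d w t = Psi b d z t := by
  classical
  unfold Psi
  rw [← finsum_add_distrib (psi_supp hd z w) (psi_supp hd w t)]
  refine finsum_congr fun N => ?_
  split_ifs <;> ring

theorem psi_self (b d : ℤ) (z : ℍ) : Psi b d z z = 0 := by
  unfold Psi; simp

theorem psi_swap {b d : ℤ} (hd : 0 < d) (z w : ℍ) : Psi b d w z = - Psi b d z w := by
  have h1 := psi_add (b := b) hd z w z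
  rw [psi_self] at h1
  linarith

theorem psi_smul (b d : ℤ) (A : G) (z w : ℍ) : Psi b d (A • z) (A • w) = Psi b d z w := by
  classical
  unfold Psi
  rw [← finsum_comp_equiv (lm A)]
  refine finsum_congr fun N => ?_
  change (if Fam b d (A.1 * N) then (A.1 * N).sg (A • w) - (A.1 * N).sg (A • z) else 0) = _
  simp only [fam_mul, M4.sg_smul]

/-! ### the homomorphisms -/

/-- the homomorphism attached to the family -/
noncomputable def hom (b d : ℤ) (A : G) : ℤ := Psi b d I (A • I)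

theorem hom_eq {b d : ℤ} (hd : 0 < d) (A : G) (z : ℍ) : hom b d A = Psi b d z (A • z) := by
  unfold hom
  have h1 := psi_add (b := b) hd I z (A • z)
  have h2 := psi_add (b := b) hd I (A • I) (A • z)
  have h3 := psi_smul b d A I z
  linarith

theorem hom_mul {b d : ℤ} (hd : 0 < d) (A B : G) : hom b d (A * B) = hom b d A + hom b d B := by
  unfold hom
  rw [mul_smul]
  have h1 := psi_add (b := b) hd I (A • I) (A • B • I)
  have h3 := psi_smul b d A I (B • I)
  linarith

theorem hom_one {b d : ℤ} (hd : 0 < d) : hom b d 1 = 0 := by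
  have := hom_mul (b := b) hd 1 1
  rw [one_mul] at this
  linarith

theorem hom_inv {b d : ℤ} (hd : 0 < d) (A : G) : hom b d A⁻¹ = - hom b d A := by
  have := hom_mul (b := b) hd A A⁻¹
  rw [mul_inv_cancel, hom_one hd] at this
  linarith

/-! ### the Fricke involution -/

/-- `z ↦ -1 / (17 z)` -/
noncomputable def WH (z : ℍ) : ℍ := ⟨-1 / (17 * (z : ℂ)), by
  have hz := z.im_pos
  have hn : (17 * (z : ℂ)) ≠ 0 := by
    refine mul_ne_zero (by norm_num) (UpperHalfPlane.ne_zero z)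
  have : (-1 / (17 * (z : ℂ))) = (17 * (z : ℂ))⁻¹ * (-1) := by
    field_simp
  have him : (-1 / (17 * (z : ℂ))).im = (17 * (z : ℂ)).im / Complex.normSq (17 * (z : ℂ)) := by
    rw [Complex.div_im]; simp [neg_div]
  rw [him]
  refine div_pos ?_ (Complex.normSq_pos.mpr hn)
  simp [Complex.mul_im]
  exact hz⟩

theorem coe_WH (z : ℍ) : ((WH z : ℍ) : ℂ) = -1 / (17 * (z : ℂ)) := rfl

/-- the action of the Fricke involution on geodesics (with reversed orientation) -/
def Wn (N : M4) : M4 := ⟨-N.v, N.w, N.Y, -N.X⟩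

theorem Wn_Wn (N : M4) : Wn (Wn N) = N := by
  ext <;> simp [Wn]

def WE : M4 ≃ M4 := ⟨Wn, Wn, Wn_Wn, Wn_Wn⟩

theorem qf_W (N : M4) (z : ℍ) :
    (Wn N).qf (WH z) = - (N.qf z / Complex.normSq z / 17) := by
  rw [M4.qf_eq, M4.qf_eq, coe_WH]
  have hz : (z : ℂ) ≠ 0 := UpperHalfPlane.ne_zero z
  have h1 : (((Wn N).v : ℤ) : ℂ) * (-1 / (17 * (z : ℂ))) - ((Wn N).Y : ℤ)
      = ((N.X : ℂ) - 17 * N.w * z) / z / 17 := by
    simp only [Wn]; push_cast; field_simp
  have h2 : (((Wn N).X : ℤ) : ℂ) - 17 * ((Wn N).w : ℤ) * (-1 / (17 * (z : ℂ)))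
      = - (((N.v : ℂ) * z - N.Y) / z) := by
    simp only [Wn]; push_cast; field_simp; ring
  rw [h1, h2]
  set P : ℂ := (N.X : ℂ) - 17 * N.w * z
  set R : ℂ := (N.v : ℂ) * z - N.Y
  have h3 : (P / z / 17) * (starRingEnd ℂ) (-(R / z)) =
      - ((starRingEnd ℂ) (R * (starRingEnd ℂ) P) / ((Complex.normSq z : ℝ) : ℂ) / ((17 : ℝ) : ℂ)) := by
    rw [← Complex.mul_conj, map_neg, map_div₀, map_mul, Complex.conj_conj]
    push_cast
    have hz' : (starRingEnd ℂ) (z : ℂ) ≠ 0 := by simpa using hz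
    field_simp
  rw [h3, Complex.neg_re, Complex.div_ofReal_re, Complex.div_ofReal_re, Complex.conj_re]

theorem sg_W (N : M4) (z : ℍ) : (Wn N).sg (WH z) = - N.sg z := by
  unfold M4.sg
  rw [qf_W, Left.sign_neg, div_div, div_eq_mul_inv, sign_mul, sign_pos (a := (_ * 17)⁻¹), mul_one]
  · push_cast; rfl
  · exact inv_pos.mpr (mul_pos (Complex.normSq_pos.mpr (UpperHalfPlane.ne_zero z)) (by norm_num))

theorem fam_W {b b' d : ℤ} (h : d ∣ 17 * b * b' + 1) (N : M4) :
    Fam b' d (Wn N) ↔ Fam b d N := by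
  have key : ∀ (b b' : ℤ) (N : M4), d ∣ 17 * b * b' + 1 → Fam b d N → Fam b' d (Wn N) := by
    intro b b' N h hN
    obtain ⟨h1, h2, h3⟩ := hN
    refine ⟨?_, ?_, ?_⟩
    · rw [← h1]; simp only [M4.det, Wn]; ring
    · have e : (Wn N).Y - b' * (Wn N).X = b' * (N.v - 17 * b * N.w) + N.w * (17 * b * b' + 1) := by
        simp only [Wn]; ring
      rw [e]; exact dvd_add (Dvd.dvd.mul_left h3 _) (Dvd.dvd.mul_left h _)
    · have e : (Wn N).v - 17 * b' * (Wn N).w = -17 * b' * (N.Y - b * N.X)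
        - N.X * (17 * b * b' + 1) := by
        simp only [Wn]; ring
      rw [e]; exact dvd_sub (Dvd.dvd.mul_left h2 _) (Dvd.dvd.mul_left h _)
  refine ⟨fun hN => ?_, key b b' N h⟩
  have := key b' b (Wn N) (by rwa [show 17 * b' * b + 1 = 17 * b * b' + 1 by ring]) hN
  rwa [Wn_Wn] at this

theorem psi_W {b b' d : ℤ} (h : d ∣ 17 * b * b' + 1) (z w : ℍ) :
    Psi b' d (WH z) (WH w) = - Psi b d z w := by
  classical
  unfold Psi
  rw [← finsum_comp_equiv WE, ← finsum_neg_distrib]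
  refine finsum_congr fun N => ?_
  change (if Fam b' d (Wn N) then (Wn N).sg (WH w) - (Wn N).sg (WH z) else 0) = _
  simp only [fam_W h, sg_W]
  split_ifs <;> ring

/-! ### complex conjugation -/

/-- `z ↦ - conj z` -/
noncomputable def cH (z : ℍ) : ℍ := ⟨⟨-z.re, z.im⟩, z.im_pos⟩

@[simp] theorem cH_re (z : ℍ) : (cH z).re = - z.re := rfl
@[simp] theorem cH_im (z : ℍ) : (cH z).im = z.im := rfl

def cn (N : M4) : M4 := ⟨N.X, -N.Y, -N.w, N.v⟩

theorem cn_cn (N : M4) : cn (cn N) = N := by ext <;> simp [cn]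

def cE : M4 ≃ M4 := ⟨cn, cn, cn_cn, cn_cn⟩

theorem sg_c (N : M4) (z : ℍ) : (cn N).sg (cH z) = - N.sg z := by
  unfold M4.sg
  have : (cn N).qf (cH z) = - N.qf z := by
    unfold M4.qf; simp only [cn, cH_re, cH_im]; push_cast; ring
  rw [this, Left.sign_neg]; push_cast; rfl

theorem fam_c {b d : ℤ} (N : M4) : Fam (-b) d (cn N) ↔ Fam b d N := by
  unfold Fam
  have h1 : (cn N).det = N.det := by simp only [M4.det, cn]; ring
  have h2 : (cn N).Y - -b * (cn N).X = -(N.Y - b * N.X) := by simp only [cn]; ring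
  have h3 : (cn N).v - 17 * -b * (cn N).w = N.v - 17 * b * N.w := by simp only [cn]; ring
  rw [h1, h2, h3, dvd_neg]

theorem psi_c (b d : ℤ) (z w : ℍ) : Psi (-b) d (cH z) (cH w) = - Psi b d z w := by
  classical
  unfold Psi
  rw [← finsum_comp_equiv cE, ← finsum_neg_distrib]
  refine finsum_congr fun N => ?_
  change (if Fam (-b) d (cn N) then (cn N).sg (cH w) - (cn N).sg (cH z) else 0) = _
  simp only [fam_c, sg_c]
  split_ifs <;> ring

/-- conjugation of the group -/
def cG (A : G) : G := ⟨cn A.1, by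
  have := A.2
  unfold M4.det at this ⊢
  simp only [cn]; linarith⟩

theorem cH_smul (A : G) (z : ℍ) : cH (A • z) = cG A • cH z := by
  ext1
  rw [G.coe_smul]
  have h : ∀ z : ℍ, ((cH z : ℍ) : ℂ) = - (starRingEnd ℂ) (z : ℂ) := by
    intro z; apply Complex.ext <;> simp [cH]
  rw [h, h, G.coe_smul, map_div₀]
  simp only [cG, cn, map_add, map_mul, Complex.conj_ofNat]
  push_cast
  simp only [map_intCast]
  rw [neg_div']
  congr 1 <;> ring

theorem hom_c {b d : ℤ} (hd : 0 < d) (A : G) : hom (-b) d (cG A) = - hom b d A := by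
  rw [hom_eq hd _ (cH I), hom_eq hd A I, ← cH_smul, psi_c]

end Vale.Agent.P014.H74
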