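import Vale.Agent.P014.H74.A1c

/-!
# Module A, part 2: the neighbourhood of the cusp, crossing numbers, the key identity
-/

namespace Vale.Agent.P014.H74

open UpperHalfPlane

/-- the point `x + i y` -/
noncomputable def pt (x y : ℝ) (hy : 0 < y) : ℍ := ⟨⟨x, y⟩, hy⟩

@[simp] theorem pt_re (x y : ℝ) (hy : 0 < y) : (pt x y hy).re = x := rfl
@[simp] theorem pt_im (x y : ℝ) (hy : 0 < y) : (pt x y hy).im = y := rfl

/-- sign of a real number as an integer -/
noncomputable def sgn (x : ℝ) : ℤ := ((SignType.sign x : SignType) : ℤ)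

theorem sgn_pos {x : ℝ} (h : 0 < x) : sgn x = 1 := by unfold sgn; rw [sign_pos h]; rfl
theorem sgn_neg {x : ℝ} (h : x < 0) : sgn x = -1 := by unfold sgn; rw [sign_neg h]; rfl
theorem sgn_zero : sgn 0 = 0 := by unfold sgn; rw [sign_zero]; rfl
theorem sgn_mul (x y : ℝ) : sgn (x * y) = sgn x * sgn y := by
  unfold sgn; rw [sign_mul]; push_cast; rfl
theorem sgn_neg' (x : ℝ) : sgn (-x) = - sgn x := by
  unfold sgn; rw [Left.sign_neg]; push_cast; rfl
theorem sg_eq (N : M4) (z : ℍ) : N.sg z = sgn (N.qf z) := rfl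

theorem sgn_mul_self {x : ℝ} (h : x ≠ 0) : sgn x * sgn x = 1 := by
  rcases lt_or_gt_of_ne h with h | h
  · rw [sgn_neg h]; norm_num
  · rw [sgn_pos h]; norm_num

/-- high up, the side of a semicircle does not depend on the point -/
theorem high_sg {N : M4} {d : ℤ} (hd : 0 < d) (hN : N.det = d) (h : N.w * N.v ≠ 0) {z : ℍ}
    (hz : (d : ℝ) / 2 < z.im) : N.sg z = - sgn ((N.w * N.v : ℤ) : ℝ) := by
  have hd' : (0 : ℝ) < d := by exact_mod_cast hd
  set m : ℝ := ((N.w * N.v : ℤ) : ℝ) with hm
  have hm0 : m ≠ 0 := by rw [hm]; exact_mod_cast h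
  have hm1 : 1 ≤ m ^ 2 := M4.one_le_sq h
  have hz2 : (d : ℝ) ^ 2 < 4 * z.im ^ 2 := by nlinarith
  have hid : 4 * 17 * m * N.qf z = - ((2 * 17 * m * z.re - (N.v * N.X + 17 * N.w * N.Y)) ^ 2
      + (4 * (17 * m) ^ 2 * z.im ^ 2 - (N.det : ℝ) ^ 2)) := by
    rw [hm]; unfold M4.qf M4.det; push_cast; ring
  have hneg : m * N.qf z < 0 := by
    rw [hN] at hid
    have h1 : (d : ℝ) ^ 2 < 4 * (17 * m) ^ 2 * z.im ^ 2 := by
      have : 4 * (17 * m) ^ 2 * z.im ^ 2 = 289 * (m ^ 2 * (4 * z.im ^ 2)) := by ring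
      rw [this]
      nlinarith [sq_nonneg z.im, mul_le_mul_of_nonneg_right hm1 (by positivity : 0 ≤ 4 * z.im ^ 2)]
    nlinarith [sq_nonneg (2 * 17 * m * z.re - (N.v * N.X + 17 * N.w * N.Y))]
  have h2 := sgn_neg hneg
  rw [sgn_mul, ← sg_eq] at h2
  have h3 := sgn_mul_self hm0
  have : sgn m * sgn m * N.sg z = - sgn m := by rw [mul_assoc, h2]; ring
  rw [h3, one_mul] at this
  exact this

/-- the vertical geodesics of the family, counted between two abscissas -/
noncomputable def St (b d : ℤ) (x y : ℝ) : ℤ :=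
  ∑ᶠ m : ℤ, (sgn (d * y - (b + d * m : ℤ)) - sgn (d * x - (b + d * m : ℤ)))

/-- between two high points there are only vertical geodesics -/
theorem psi_high {b d : ℤ} (hd : 0 < d) (h17 : ¬ (17 : ℤ) ∣ d) {z w : ℍ}
    (hz : (d : ℝ) / 2 < z.im) (hw : (d : ℝ) / 2 < w.im) :
    Psi b d z w = 2 * St b d z.re w.re := by
  classical
  have hd0 : (d : ℤ) ≠ 0 := hd.ne'
  -- the two injections
  let f1 : ℤ → M4 := fun m => ⟨1, b + d * m, 0, d⟩
  let f2 : ℤ → M4 := fun m => ⟨-1, -(b + d * m), 0, -d⟩
  have hf1 : Function.Injective f1 := by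
    intro m m' h
    have := congrArg M4.Y h
    simp only [f1, add_right_inj] at this
    exact mul_left_cancel₀ hd0 this
  have hf2 : Function.Injective f2 := by
    intro m m' h
    have := congrArg M4.Y h
    simp only [f2, neg_inj, add_right_inj] at this
    exact mul_left_cancel₀ hd0 this
  let F : M4 → ℤ := fun N => if Fam b d N then N.sg w - N.sg z else 0
  have hsupp : ∀ N : M4, F N ≠ 0 → N ∈ Set.range f1 ∪ Set.range f2 := by
    intro N hN
    have hfam : Fam b d N := by
      by_contra h; exact hN (if_neg h)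
    have hval : N.sg w - N.sg z ≠ 0 := by
      intro h; apply hN; change (if Fam b d N then _ else 0) = 0; rw [if_pos hfam, h]
    obtain ⟨h1, h2, h3⟩ := hfam
    have hdet : N.X * N.v - 17 * N.w * N.Y = d := h1
    by_cases hwv : N.w * N.v = 0
    · rcases mul_eq_zero.mp hwv with h0 | h0
      · -- w = 0
        rw [h0] at hdet h3
        simp only [mul_zero, zero_mul, sub_zero] at hdet h3
        obtain ⟨k, hk⟩ := h3
        have hXk : N.X * k = 1 := by
          rw [hk] at hdet
          have : d * (N.X * k) = d * 1 := by linarith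
          exact mul_left_cancel₀ hd0 this
        rcases Int.isUnit_iff.mp (IsUnit.of_mul_eq_one _ hXk) with hX | hX
        · left
          rw [hX, one_mul] at hXk
          rw [hX, mul_one] at h2
          obtain ⟨m, hm⟩ := h2
          refine ⟨m, ?_⟩
          ext
          · exact hX.symm
          · simp only [f1]; linarith
          · exact h0.symm
          · simp only [f1]; rw [hk, hXk, mul_one]
        · right
          have hk1 : k = -1 := by rw [hX] at hXk; linarith
          rw [hX] at h2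
          obtain ⟨m, hm⟩ := h2
          refine ⟨-m, ?_⟩
          ext
          · exact hX.symm
          · simp only [f2]; linarith
          · exact h0.symm
          · simp only [f2]; rw [hk, hk1]; ring
      · exfalso
        rw [h0] at hdet
        apply h17
        exact ⟨-(N.w * N.Y), by linarith⟩
    · exfalso
      apply hval
      rw [high_sg hd h1 hwv hz, high_sg hd h1 hwv hw]; ring
  have hdisj : Disjoint (Set.range f1) (Set.range f2) := by
    rw [Set.disjoint_left]
    rintro N ⟨m, rfl⟩ ⟨m', h⟩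
    have := congrArg M4.X h
    simp [f1, f2] at this
  have hfin : (Function.support F).Finite := psi_supp hd z w
  have hval1 : ∀ m : ℤ, F (f1 m) =
      sgn (d * w.re - (b + d * m : ℤ)) - sgn (d * z.re - (b + d * m : ℤ)) := by
    intro m
    have hfam : Fam b d (f1 m) := by
      refine ⟨by simp [f1, M4.det], ?_, ?_⟩
      · simp only [f1]; exact ⟨m, by ring⟩
      · simp only [f1]; exact ⟨1, by ring⟩
    change (if Fam b d (f1 m) then _ else 0) = _
    rw [if_pos hfam, sg_eq, sg_eq]
    congr 2 <;> · simp only [M4.qf, f1]; push_cast; ring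
  have hval2 : ∀ m : ℤ, F (f2 m) =
      sgn (d * w.re - (b + d * m : ℤ)) - sgn (d * z.re - (b + d * m : ℤ)) := by
    intro m
    have hfam : Fam b d (f2 m) := by
      refine ⟨by simp [f2, M4.det], ?_, ?_⟩
      · simp only [f2]; exact ⟨-m, by ring⟩
      · simp only [f2]; exact ⟨-1, by ring⟩
    change (if Fam b d (f2 m) then _ else 0) = _
    rw [if_pos hfam, sg_eq, sg_eq]
    congr 2 <;> · simp only [M4.qf, f2]; push_cast; ring
  have e1 : Psi b d z w = ∑ᶠ N ∈ Set.range f1 ∪ Set.range f2, F N := by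
    change ∑ᶠ N, F N = _
    rw [← finsum_mem_univ F]
    refine finsum_mem_inter_support_eq' _ _ _ ?_
    intro N hN
    exact ⟨fun _ => hsupp N hN, fun _ => Set.mem_univ _⟩
  rw [e1, finsum_mem_union' hdisj (hfin.subset Set.inter_subset_right)
    (hfin.subset Set.inter_subset_right), finsum_mem_range hf1, finsum_mem_range hf2]
  unfold St
  rw [finsum_congr hval1, finsum_congr hval2]
  ring

/-- the count of vertical geodesics from `0` to `x`, `0 ≤ x < 1` -/
theorem St_zero {b d : ℤ} (hb : 0 < b) (hbd : b < d) {x : ℝ} (hx : 0 ≤ x) (hx1 : x < 1) :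
    St b d 0 x = 1 + sgn (d * x - b) := by
  unfold St
  have hd : (0 : ℝ) < d := by exact_mod_cast (hb.trans hbd)
  have hb' : (0 : ℝ) < b := by exact_mod_cast hb
  have hbd' : (b : ℝ) < d := by exact_mod_cast hbd
  rw [finsum_eq_single _ 0]
  · simp only [mul_zero, add_zero, zero_sub]
    rw [sgn_neg' (b : ℝ), sgn_pos hb']; ring
  · intro m hm
    rcases lt_or_gt_of_ne hm with h | h
    · have h1 : ((b + d * m : ℤ) : ℝ) < 0 := by
        have : b + d * m < 0 := by nlinarith
        exact_mod_cast this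
      rw [sgn_pos, sgn_pos, sub_self]
      · linarith
      · nlinarith [mul_nonneg hd.le hx]
    · have h1 : (d : ℝ) < ((b + d * m : ℤ) : ℝ) := by
        have : d < b + d * m := by nlinarith
        exact_mod_cast this
      rw [sgn_neg, sgn_neg, sub_self]
      · linarith
      · nlinarith

theorem St_zero_one {x : ℝ} (hx : 0 ≤ x) (hx1 : x < 1) :
    St 0 1 0 x = sgn x := by
  unfold St
  rw [finsum_eq_single _ 0]
  · simp [sgn_zero]
  · intro m hm
    rcases lt_or_gt_of_ne hm with h | h
    · have h1 : ((0 + 1 * m : ℤ) : ℝ) ≤ -1 := by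
        have : 0 + 1 * m ≤ -1 := by omega
        exact_mod_cast this
      rw [sgn_pos, sgn_pos, sub_self]
      · push_cast at h1 ⊢; linarith
      · push_cast at h1 ⊢; linarith
    · have h1 : (1 : ℝ) ≤ ((0 + 1 * m : ℤ) : ℝ) := by
        have : 1 ≤ 0 + 1 * m := by omega
        exact_mod_cast this
      rw [sgn_neg, sgn_neg, sub_self]
      · push_cast at h1 ⊢; linarith
      · push_cast at h1 ⊢; linarith

end Vale.Agent.P014.H74
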