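import Vale.Agent.P014.H74.A2

/-!
# Module A, part 2b: crossing numbers and the key identity
-/

namespace Vale.Agent.P014.H74

open UpperHalfPlane

theorem sgn_int (a : ℤ) : sgn (a : ℝ) = a.sign := by
  rcases lt_trichotomy a 0 with h | h | h
  · rw [sgn_neg (by exact_mod_cast h), Int.sign_eq_neg_one_of_neg h]
  · rw [h]; simp [sgn_zero]
  · rw [sgn_pos (by exact_mod_cast h), Int.sign_eq_one_of_pos h]

/-- the conditions for a crossing -/
def Cr (c e b d : ℤ) (M : M4) : Prop :=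
  M.det = e * d ∧ e ∣ M.X + 17 * c * M.w ∧ e ∣ M.Y + c * M.v ∧ d ∣ M.Y - b * M.X ∧
    d ∣ M.v - 17 * b * M.w ∧ 0 < M.X * M.v ∧ M.w * M.Y < 0

open Classical in
/-- the crossing number -/
noncomputable def Icr (c e b d : ℤ) : ℤ :=
  ∑ᶠ M : M4, if Cr c e b d M then -2 * (M.w * M.v).sign else 0

/-- the change of variables `N ↦ [e, -c; 0, 1] N` -/
def phi (c e : ℤ) (N : M4) : M4 := ⟨e * N.X - 17 * c * N.w, e * N.Y - c * N.v, N.w, N.v⟩

theorem phi_inj {c e : ℤ} (he : e ≠ 0) : Function.Injective (phi c e) := by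
  intro N N' h
  have h1 := congrArg M4.X h
  have h2 := congrArg M4.Y h
  have h3 := congrArg M4.w h
  have h4 := congrArg M4.v h
  simp only [phi] at h1 h2 h3 h4
  rw [h3] at h1
  rw [h4] at h2
  ext
  · exact mul_left_cancel₀ he (by linarith)
  · exact mul_left_cancel₀ he (by linarith)
  · exact h3
  · exact h4

theorem phi_det (c e : ℤ) (N : M4) : (phi c e N).det = e * N.det := by
  simp only [phi, M4.det]; ring

theorem fam_of_cr {c e b d : ℤ} (he : e ≠ 0) (hed : IsCoprime d e) (N : M4)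
    (h : Cr c e b d (phi c e N)) : Fam b d N := by
  obtain ⟨h1, -, -, h4, h5, -, -⟩ := h
  rw [phi_det] at h1
  refine ⟨mul_left_cancel₀ he h1, ?_, h5⟩
  have e1 : (phi c e N).Y - b * (phi c e N).X = e * (N.Y - b * N.X) - c * (N.v - 17 * b * N.w) := by
    simp only [phi]; ring
  have h5' : d ∣ N.v - 17 * b * N.w := h5
  rw [e1] at h4
  have h6 : d ∣ e * (N.Y - b * N.X) := by
    have := dvd_add h4 (Dvd.dvd.mul_left h5' c)
    simpa using this
  exact hed.dvd_of_dvd_mul_left h6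

theorem cr_of_fam {c e b d : ℤ} (N : M4) (h : Fam b d N)
    (hA : 0 < (phi c e N).X * (phi c e N).v) (hB : (phi c e N).w * (phi c e N).Y < 0) :
    Cr c e b d (phi c e N) := by
  obtain ⟨h1, h2, h3⟩ := h
  refine ⟨by rw [phi_det, h1], ⟨N.X, by simp only [phi]; ring⟩, ⟨N.Y, by simp only [phi]; ring⟩,
    ?_, h3, hA, hB⟩
  have e1 : (phi c e N).Y - b * (phi c e N).X = e * (N.Y - b * N.X) - c * (N.v - 17 * b * N.w) := by
    simp only [phi]; ring
  rw [e1]
  exact dvd_sub (Dvd.dvd.mul_left h2 _) (Dvd.dvd.mul_left h3 _)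

theorem range_of_cr {c e b d : ℤ} (he : e ≠ 0) (M : M4) (h : Cr c e b d M) :
    M ∈ Set.range (phi c e) := by
  obtain ⟨-, ⟨x, hx⟩, ⟨y, hy⟩, -⟩ := h
  refine ⟨⟨x, y, M.w, M.v⟩, ?_⟩
  ext
  · simp only [phi]; linarith
  · simp only [phi]; linarith
  · rfl
  · rfl

/-- the side in terms of the transformed matrix -/
theorem sg_phi {c e : ℤ} (he : 0 < e) (N : M4) (y : ℝ) (hy : 0 < y) :
    N.sg (pt ((c : ℝ) / e) y hy) =
      sgn (-(((phi c e N).X * (phi c e N).Y : ℤ) : ℝ) - 17 * ((N.w * N.v : ℤ) : ℝ) * (e * y) ^ 2) := by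
  have he' : (0 : ℝ) < e := by exact_mod_cast he
  have h1 : -(((phi c e N).X * (phi c e N).Y : ℤ) : ℝ) - 17 * ((N.w * N.v : ℤ) : ℝ) * (e * y) ^ 2
      = (e : ℝ) ^ 2 * N.qf (pt ((c : ℝ) / e) y hy) := by
    simp only [phi, M4.qf, pt_re, pt_im]
    push_cast
    field_simp
    ring
  rw [h1, sgn_mul, sgn_pos (by positivity), one_mul, sg_eq]

theorem cross_val {A B P Q s : ℤ} (hs : 0 < s) (hAB : A - 17 * B = s) (hPQ : P * Q = A * B)
    {e ε Y0 : ℝ} (he : 0 < e) (hε : 0 < ε) (h1 : (s : ℝ) * (e * ε) < 2) (h2 : (s : ℝ) < 2 * (e * Y0))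
    (hY0 : 0 < Y0) :
    sgn (-(P : ℝ) - 17 * (Q : ℝ) * (e * Y0) ^ 2) - sgn (-(P : ℝ) - 17 * (Q : ℝ) * (e * ε) ^ 2) =
      if 0 < A ∧ B < 0 then -2 * Q.sign else 0 := by
  have hs' : (0 : ℝ) < s := by exact_mod_cast hs
  have a1 : 0 < (e * ε) ^ 2 := by positivity
  have a2 : 0 < (e * Y0) ^ 2 := by positivity
  split_ifs with h
  · obtain ⟨hA, hB⟩ := h
    have hPQn : P * Q < 0 := by rw [hPQ]; exact mul_neg_of_pos_of_neg hA hB
    -- 4 * 17 * |P Q| ≤ s ^ 2
    have hb : 68 * (-(P * Q)) ≤ s ^ 2 := by rw [hPQ]; nlinarith [sq_nonneg (A + 17 * B)]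
    have hb' : 68 * (-((P : ℝ) * Q)) ≤ (s : ℝ) ^ 2 := by exact_mod_cast hb
    have c1 : (s : ℝ) ^ 2 * (e * ε) ^ 2 < 4 := by
      rw [← mul_pow]
      have : 0 < (s : ℝ) * (e * ε) := by positivity
      nlinarith
    have c2 : (s : ℝ) ^ 2 < 4 * (e * Y0) ^ 2 := by
      have : 0 < e * Y0 := by positivity
      nlinarith
    rcases lt_trichotomy Q 0 with hQ | hQ | hQ
    · have hP : 0 < P := by by_contra hP; push Not at hP; nlinarith
      have hP' : (1 : ℝ) ≤ P := by exact_mod_cast hP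
      have hQ' : (Q : ℝ) ≤ -1 := by
        have : Q ≤ -1 := by omega
        exact_mod_cast this
      rw [Int.sign_eq_neg_one_of_neg hQ, sgn_pos, sgn_neg]
      · norm_num
      · -- bottom: -P - 17 Q (eε)² < 0
        have k1 : -(17 * (Q : ℝ)) ≤ 17 * (-((P : ℝ) * Q)) := by nlinarith
        have k2 : -(17 * (Q : ℝ)) * (e * ε) ^ 2 ≤ 17 * (-((P : ℝ) * Q)) * (e * ε) ^ 2 := by gcongr
        have k3 : 68 * (-((P : ℝ) * Q)) * (e * ε) ^ 2 ≤ (s : ℝ) ^ 2 * (e * ε) ^ 2 := by gcongr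
        nlinarith
      · have k1 : (P : ℝ) ≤ -((P : ℝ) * Q) := by nlinarith
        have k2 : (e * Y0) ^ 2 ≤ -(Q : ℝ) * (e * Y0) ^ 2 := by nlinarith
        nlinarith
    · rw [hQ, mul_zero] at hPQn; exact absurd hPQn (lt_irrefl _)
    · have hP : P < 0 := by by_contra hP; push Not at hP; nlinarith
      have hP' : (P : ℝ) ≤ -1 := by
        have : P ≤ -1 := by omega
        exact_mod_cast this
      have hQ' : (1 : ℝ) ≤ Q := by exact_mod_cast hQ
      rw [Int.sign_eq_one_of_pos hQ, sgn_neg, sgn_pos]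
      · norm_num
      · have k1 : (17 * (Q : ℝ)) ≤ 17 * (-((P : ℝ) * Q)) := by nlinarith
        have k2 : (17 * (Q : ℝ)) * (e * ε) ^ 2 ≤ 17 * (-((P : ℝ) * Q)) * (e * ε) ^ 2 := by gcongr
        have k3 : 68 * (-((P : ℝ) * Q)) * (e * ε) ^ 2 ≤ (s : ℝ) ^ 2 * (e * ε) ^ 2 := by gcongr
        nlinarith
      · have k1 : -(P : ℝ) ≤ -((P : ℝ) * Q) := by nlinarith
        have k2 : (e * Y0) ^ 2 ≤ (Q : ℝ) * (e * Y0) ^ 2 := by nlinarith
        nlinarith
  · have hPQ0 : 0 ≤ P * Q := by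
      rw [hPQ]
      by_cases hA : 0 < A
      · have hB : 0 ≤ B := by
          by_contra hB; push Not at hB; exact h ⟨hA, hB⟩
        positivity
      · push Not at hA
        have hB : B ≤ 0 := by omega
        nlinarith
    rcases lt_trichotomy Q 0 with hQ | hQ | hQ
    · have hP : P ≤ 0 := by
        by_contra hP; push Not at hP; nlinarith
      have hP' : (P : ℝ) ≤ 0 := by exact_mod_cast hP
      have hQ' : (Q : ℝ) < 0 := by exact_mod_cast hQ
      rw [sgn_pos, sgn_pos, sub_self]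
      · nlinarith
      · nlinarith
    · rw [hQ]; simp
    · have hP : 0 ≤ P := by
        by_contra hP; push Not at hP; nlinarith
      have hP' : (0 : ℝ) ≤ P := by exact_mod_cast hP
      have hQ' : (0 : ℝ) < Q := by exact_mod_cast hQ
      rw [sgn_neg, sgn_neg, sub_self]
      · nlinarith
      · nlinarith

/-- **crossing lemma** -/
theorem psi_vert {c e b d : ℤ} (he : 0 < e) (hd : 0 < d) (hed : IsCoprime d e)
    {ε Y0 : ℝ} (hε : 0 < ε) (hY0 : 0 < Y0) (h1 : (e : ℝ) ^ 2 * d * ε < 2) (h2 : (d : ℝ) < 2 * Y0) :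
    Psi b d (pt ((c : ℝ) / e) ε hε) (pt ((c : ℝ) / e) Y0 hY0) = Icr c e b d := by
  classical
  unfold Psi Icr
  set g : M4 → ℤ := fun M => if Cr c e b d M then -2 * (M.w * M.v).sign else 0 with hg
  have e1 : ∑ᶠ M : M4, g M = ∑ᶠ M ∈ Set.range (phi c e), g M := by
    rw [← finsum_mem_univ g]
    refine finsum_mem_inter_support_eq' _ _ _ ?_
    intro M hM
    refine ⟨fun _ => ?_, fun _ => Set.mem_univ _⟩
    refine range_of_cr (b := b) (d := d) he.ne' M ?_
    by_contra hcon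
    exact hM (if_neg hcon)
  rw [e1, finsum_mem_range (phi_inj he.ne')]
  refine finsum_congr fun N => ?_
  by_cases hN : Fam b d N
  · rw [if_pos hN, sg_phi he, sg_phi he]
    have he' : (0 : ℝ) < e := by exact_mod_cast he
    have hdet : (phi c e N).det = e * d := by rw [phi_det, hN.1]
    rw [cross_val (A := (phi c e N).X * (phi c e N).v) (B := (phi c e N).w * (phi c e N).Y)
      (s := e * d) (mul_pos he hd) (by rw [← hdet]; simp only [M4.det]; ring)
      (by simp only [phi]; ring) he' hε (by push_cast; nlinarith) (by push_cast; nlinarith) hY0]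
    rw [hg]
    dsimp only
    by_cases hc : 0 < (phi c e N).X * (phi c e N).v ∧ (phi c e N).w * (phi c e N).Y < 0
    · rw [if_pos hc, if_pos (cr_of_fam N hN hc.1 hc.2)]; rfl
    · rw [if_neg hc, if_neg]
      intro hcr; exact hc ⟨hcr.2.2.2.2.2.1, hcr.2.2.2.2.2.2⟩
  · rw [if_neg hN, hg]
    dsimp only
    rw [if_neg]
    intro hcr; exact hN (fam_of_cr he.ne' hed N hcr)

/-- the adjugate as a bijection -/
def adjE : M4 ≃ M4 := ⟨M4.adj, M4.adj, fun M => by ext <;> simp [M4.adj],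
  fun M => by ext <;> simp [M4.adj]⟩

/-- **antisymmetry of the crossing numbers** -/
theorem Icr_swap (c e b d : ℤ) : Icr c e b d = - Icr b d c e := by
  classical
  unfold Icr
  rw [← finsum_comp_equiv adjE, ← finsum_neg_distrib]
  refine finsum_congr fun M => ?_
  change (if Cr c e b d M.adj then -2 * (M.adj.w * M.adj.v).sign else 0) = _
  have hiff : Cr c e b d M.adj ↔ Cr b d c e M := by
    unfold Cr
    simp only [M4.adj, M4.det]
    constructor
    · rintro ⟨h1, h2, h3, h4, h5, h6, h7⟩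
      refine ⟨by linarith, ?_, ?_, ?_, ?_, by linarith, by linarith⟩
      · rw [show M.X + 17 * b * M.w = M.X - 17 * b * -M.w by ring]; exact h5
      · rw [show M.Y + b * M.v = -(-M.Y - b * M.v) by ring, dvd_neg]; exact h4
      · rw [show M.Y - c * M.X = -(-M.Y + c * M.X) by ring, dvd_neg]; exact h3
      · rw [show M.v - 17 * c * M.w = M.v + 17 * c * -M.w by ring]; exact h2
    · rintro ⟨h1, h2, h3, h4, h5, h6, h7⟩
      refine ⟨by linarith, ?_, ?_, ?_, ?_, by linarith, by linarith⟩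
      · rw [show M.v + 17 * c * -M.w = M.v - 17 * c * M.w by ring]; exact h5
      · rw [show -M.Y + c * M.X = -(M.Y - c * M.X) by ring, dvd_neg]; exact h4
      · rw [show -M.Y - b * M.v = -(M.Y + b * M.v) by ring, dvd_neg]; exact h3
      · rw [show M.X - 17 * b * -M.w = M.X + 17 * b * M.w by ring]; exact h2
  rw [hiff]
  by_cases h : Cr b d c e M
  · rw [if_pos h, if_pos h]
    obtain ⟨-, -, -, -, -, h6, h7⟩ := h
    simp only [M4.adj]
    have hs : (M.X).sign = (M.v).sign := by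
      rcases lt_trichotomy M.v 0 with hv | hv | hv
      · have : M.X < 0 := by by_contra hX; push Not at hX; nlinarith
        rw [Int.sign_eq_neg_one_of_neg hv, Int.sign_eq_neg_one_of_neg this]
      · rw [hv] at h6; simp at h6
      · have : 0 < M.X := by by_contra hX; push Not at hX; nlinarith
        rw [Int.sign_eq_one_of_pos hv, Int.sign_eq_one_of_pos this]
    rw [Int.sign_mul, Int.sign_mul, hs, Int.sign_neg]; ring
  · rw [if_neg h, if_neg h, neg_zero]

end Vale.Agent.P014.H74
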