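import Vale.Agent.P014.H74.A2b

/-!
# Module A, part 2c: translations and the key identity
-/

namespace Vale.Agent.P014.H74

open UpperHalfPlane

/-- translation by `k` -/
def tz (k : ℤ) : G := ⟨⟨1, k, 0, 1⟩, by simp [M4.det]⟩

/-- lower triangular matrices -/
def vz (k : ℤ) : G := ⟨⟨1, 0, k, 1⟩, by simp [M4.det]⟩

/-- admissible pairs -/
def Ok (b d : ℤ) : Prop := (0 < b ∧ b < d) ∨ (b = 0 ∧ d = 1)

/-- the value of the number of vertical geodesics to the left of `x` -/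
noncomputable def Sx (b d : ℤ) (x : ℝ) : ℤ := if b = 0 then sgn x else 1 + sgn (d * x - b)

theorem Ok.pos {b d : ℤ} (h : Ok b d) : 0 < d := by
  rcases h with h | h <;> omega

theorem St_Sx {b d : ℤ} (h : Ok b d) {x : ℝ} (hx : 0 ≤ x) (hx1 : x < 1) :
    St b d 0 x = Sx b d x := by
  unfold Sx
  rcases h with ⟨h1, h2⟩ | ⟨h1, h2⟩
  · rw [if_neg h1.ne', St_zero h1 h2 hx hx1]
  · rw [if_pos h1, h1, h2, St_zero_one hx hx1]

theorem St_one {b d : ℤ} (h : Ok b d) : St b d 0 1 = 2 := by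
  rcases h with ⟨h1, h2⟩ | ⟨h1, h2⟩
  · unfold St
    have hd : (0 : ℝ) < d := by exact_mod_cast (h1.trans h2)
    have hb' : (0 : ℝ) < b := by exact_mod_cast h1
    have hbd' : (b : ℝ) < d := by exact_mod_cast h2
    rw [finsum_eq_single _ 0]
    · simp only [mul_zero, add_zero, zero_sub, mul_one]
      rw [sgn_neg' (b : ℝ), sgn_pos hb', sgn_pos (by linarith)]; ring
    · intro m hm
      rcases lt_or_gt_of_ne hm with h | h
      · have h3 : ((b + d * m : ℤ) : ℝ) < 0 := by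
          have : b + d * m < 0 := by nlinarith
          exact_mod_cast this
        rw [sgn_pos, sgn_pos, sub_self]
        · linarith
        · nlinarith
      · have h3 : (d : ℝ) < ((b + d * m : ℤ) : ℝ) := by
          have : d < b + d * m := by nlinarith
          exact_mod_cast this
        rw [sgn_neg, sgn_neg, sub_self]
        · linarith
        · nlinarith
  · rw [h1, h2]
    unfold St
    have : ∀ m : ℤ, (sgn (((1 : ℤ) : ℝ) * 1 - ((0 + 1 * m : ℤ) : ℝ)) -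
        sgn (((1 : ℤ) : ℝ) * 0 - ((0 + 1 * m : ℤ) : ℝ))) =
        (if m = 0 then 1 else 0) + (if m = 1 then 1 else 0) := by
      intro m
      have h3 : ((1 : ℤ) : ℝ) * 1 - ((0 + 1 * m : ℤ) : ℝ) = ((1 - m : ℤ) : ℝ) := by push_cast; ring
      have h4 : ((1 : ℤ) : ℝ) * 0 - ((0 + 1 * m : ℤ) : ℝ) = ((- m : ℤ) : ℝ) := by push_cast; ring
      rw [h3, h4, sgn_int, sgn_int]
      rcases lt_trichotomy m 0 with hm | hm | hm
      · rw [Int.sign_eq_one_of_pos (by omega), Int.sign_eq_one_of_pos (by omega),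
          if_neg (by omega), if_neg (by omega)]; ring
      · subst hm; simp
      · by_cases hm1 : m = 1
        · subst hm1; simp
        · rw [Int.sign_eq_neg_one_of_neg (by omega), Int.sign_eq_neg_one_of_neg (by omega),
          if_neg (by omega), if_neg (by omega)]; ring
    rw [finsum_congr this, finsum_add_distrib, finsum_eq_single _ 0, finsum_eq_single _ 1]
    · simp
    · intro m hm; simp [hm]
    · intro m hm; simp [hm]
    · exact (Set.finite_singleton (0 : ℤ)).subset (by intro m; simp)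
    · exact (Set.finite_singleton (1 : ℤ)).subset (by intro m; simp)

theorem tz_smul (k : ℤ) (z : ℍ) : ((tz k • z : ℍ) : ℂ) = z + k := by
  rw [G.coe_smul]; simp [tz]

theorem hom_tz {b d : ℤ} (h : Ok b d) (h17 : ¬ (17 : ℤ) ∣ d) : hom b d (tz 1) = 4 := by
  have hd := h.pos
  have hd' : (0 : ℝ) < d := by exact_mod_cast hd
  rw [hom_eq hd _ (pt 0 d hd')]
  have h1 : (tz 1 • pt 0 d hd').re = 1 := by
    have := congrArg Complex.re (tz_smul 1 (pt 0 d hd'))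
    simpa [pt] using this
  have h2 : (tz 1 • pt 0 d hd').im = d := by
    have := congrArg Complex.im (tz_smul 1 (pt 0 d hd'))
    simpa [pt] using this
  rw [psi_high hd h17 (by rw [pt_im]; linarith) (by rw [h2]; linarith), h1, pt_re, St_one h]
  norm_num

theorem WH_WH (z : ℍ) : WH (WH z) = z := by
  ext1
  have hz : (z : ℂ) ≠ 0 := UpperHalfPlane.ne_zero z
  rw [coe_WH, coe_WH]; field_simp

theorem vz_smul (k : ℤ) (z : ℍ) : vz k • z = WH (tz (-k) • WH z) := by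
  ext1
  have hz : (z : ℂ) ≠ 0 := UpperHalfPlane.ne_zero z
  have h2 := G.den_ne (vz k) z
  simp only [vz] at h2
  push_cast at h2
  rw [G.coe_smul, coe_WH, tz_smul, coe_WH]
  simp only [vz]
  push_cast
  have h3 : (17 : ℂ) * (-1 / (17 * (z : ℂ)) + -(k : ℂ)) = -((17 * (k : ℂ) * z + 1) / z) := by
    field_simp; ring
  rw [h3]
  field_simp
  ring

theorem tz_inv : (tz 1)⁻¹ = tz (-1) := by
  apply G.ext'
  rw [G.inv_val]
  ext <;> simp [tz, M4.adj]

theorem hom_vz {b b' d : ℤ} (hd : 0 < d) (h : Ok b' d) (h17 : ¬ (17 : ℤ) ∣ d)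
    (hbb : d ∣ 17 * b' * b + 1) : hom b d (vz 1) = 4 := by
  rw [hom_eq hd _ (WH I), vz_smul, WH_WH, psi_W hbb, ← hom_eq hd, ← tz_inv, hom_inv hd, hom_tz h h17]
  norm_num

/-- the fixed point of the Fricke involution -/
noncomputable def z0 : ℍ := pt 0 (1 / Real.sqrt 17) (by positivity)

theorem WH_z0 : WH z0 = z0 := by
  ext1
  rw [coe_WH]
  have h17 : (0 : ℝ) < 17 := by norm_num
  have h1 : (z0 : ℂ) = ((1 / Real.sqrt 17 : ℝ) : ℂ) * Complex.I := by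
    apply Complex.ext
    · rw [Complex.re_ofReal_mul, Complex.I_re, mul_zero]; rfl
    · rw [Complex.im_ofReal_mul, Complex.I_im, mul_one]; rfl
  rw [h1]
  have h2 : Real.sqrt 17 * Real.sqrt 17 = 17 := Real.mul_self_sqrt h17.le
  have h3 : (17 : ℂ) = ((Real.sqrt 17 : ℝ) : ℂ) * ((Real.sqrt 17 : ℝ) : ℂ) := by
    rw [← Complex.ofReal_mul, h2]; norm_num
  have h4 : ((Real.sqrt 17 : ℝ) : ℂ) ≠ 0 := by
    exact_mod_cast (Real.sqrt_pos.mpr h17).ne'
  have hI := Complex.I_ne_zero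
  rw [h3]
  push_cast
  field_simp
  rw [Complex.I_sq]

/-- the constant attached to the family -/
noncomputable def T0 (b d : ℤ) : ℤ := Psi b d z0 (pt 0 (|(d : ℝ)| + 1) (by positivity))

theorem psi_z0 {b d : ℤ} (hd : 0 < d) (h17 : ¬ (17 : ℤ) ∣ d) {x y : ℝ} (hy : 0 < y)
    (hy2 : (d : ℝ) / 2 < y) : Psi b d z0 (pt x y hy) = T0 b d + 2 * St b d 0 x := by
  have hd' : (0 : ℝ) < d := by exact_mod_cast hd
  have hab : |(d : ℝ)| = d := abs_of_pos hd'
  rw [← psi_add hd z0 (pt 0 (|(d : ℝ)| + 1) (by positivity)),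
    psi_high (z := pt 0 (|(d : ℝ)| + 1) (by positivity)) (w := pt x y hy) hd h17
      (by rw [pt_im, hab]; linarith) (by rw [pt_im]; linarith)]
  rfl

/-- **the key identity** -/
theorem key_identity {b b' d : ℤ} (h : Ok b d) (h' : Ok b' d) (h17 : ¬ (17 : ℤ) ∣ d)
    (hbb : d ∣ 17 * b' * b + 1) (γ : G) (hc0 : 0 ≤ γ.1.Y) (hc1 : γ.1.Y < γ.1.v)
    (hr0 : 0 ≤ γ.1.w) (hr1 : γ.1.w < γ.1.v) (hed : IsCoprime d γ.1.v) :
    Icr γ.1.Y γ.1.v b d = - hom b d γ + T0 b d + T0 b' d + 2 * Sx b d ((γ.1.Y : ℝ) / γ.1.v)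
      + 2 * Sx b' d ((γ.1.w : ℝ) / γ.1.v) := by
  have hd := h.pos
  have hd' : (0 : ℝ) < d := by exact_mod_cast hd
  have he : 0 < γ.1.v := by omega
  have he' : (0 : ℝ) < γ.1.v := by exact_mod_cast he
  have hc1' : (γ.1.Y : ℝ) / γ.1.v < 1 := by
    rw [div_lt_one he']; exact_mod_cast hc1
  have hc0' : 0 ≤ (γ.1.Y : ℝ) / γ.1.v := by
    have : (0 : ℝ) ≤ γ.1.Y := by exact_mod_cast hc0
    positivity
  have hr1' : (γ.1.w : ℝ) / γ.1.v < 1 := by
    rw [div_lt_one he']; exact_mod_cast hr1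
  have hr0' : 0 ≤ (γ.1.w : ℝ) / γ.1.v := by
    have : (0 : ℝ) ≤ γ.1.w := by exact_mod_cast hr0
    positivity
  -- choose the height
  set η : ℝ := (d : ℝ) with hη
  set ε : ℝ := 1 / (17 * (γ.1.v : ℝ) ^ 2 * η) with hε
  have hη0 : 0 < η := hd'
  have hε0 : 0 < ε := by positivity
  have hlow : (γ.1.v : ℝ) ^ 2 * d * ε < 2 := by
    rw [hε, hη]
    rw [mul_one_div, div_lt_iff₀ (by positivity)]
    nlinarith [mul_pos (pow_pos he' 2) hd', mul_pos hd' hd']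
  have hv := psi_vert (c := γ.1.Y) (b := b) he hd hed hε0 hη0 hlow (by rw [hη]; linarith)
  rw [← hv]
  -- the low point is the image of a high point
  have hpt : pt ((γ.1.Y : ℝ) / γ.1.v) ε hε0 = γ • WH (pt ((γ.1.w : ℝ) / γ.1.v) η hη0) := by
    ext1
    have hne := G.den_ne γ (WH (pt ((γ.1.w : ℝ) / γ.1.v) η hη0))
    have hz : ((pt ((γ.1.w : ℝ) / γ.1.v) η hη0 : ℍ) : ℂ) ≠ 0 := UpperHalfPlane.ne_zero _
    rw [G.coe_smul, coe_WH]
    rw [coe_WH] at hne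
    have hdet : (γ.1.X : ℂ) * γ.1.v - 17 * γ.1.w * γ.1.Y = 1 := by exact_mod_cast γ.det_eq
    have e1 : ((pt ((γ.1.w : ℝ) / γ.1.v) η hη0 : ℍ) : ℂ) =
        ((γ.1.w : ℂ) + (γ.1.v : ℂ) * (η : ℂ) * Complex.I) / (γ.1.v : ℂ) := by
      have hv0 : (γ.1.v : ℂ) ≠ 0 := by exact_mod_cast he.ne'
      have : ((pt ((γ.1.w : ℝ) / γ.1.v) η hη0 : ℍ) : ℂ) =
          (((γ.1.w : ℝ) / γ.1.v : ℝ) : ℂ) + ((η : ℝ) : ℂ) * Complex.I := by
        apply Complex.ext <;> simp [pt]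
      rw [this]; push_cast; field_simp
    have e2 : ((pt ((γ.1.Y : ℝ) / γ.1.v) ε hε0 : ℍ) : ℂ) =
        ((γ.1.Y : ℂ)) / (γ.1.v : ℂ) + (ε : ℂ) * Complex.I := by
      apply Complex.ext <;> simp [pt]
    rw [e2]
    have hv0 : (γ.1.v : ℂ) ≠ 0 := by exact_mod_cast he.ne'
    have hη1 : (η : ℂ) ≠ 0 := by exact_mod_cast hη0.ne'
    have hε1 : (ε : ℂ) = 1 / (17 * (γ.1.v : ℂ) ^ 2 * (η : ℂ)) := by
      rw [hε]; push_cast; rfl
    set Z : ℂ := ((pt ((γ.1.w : ℝ) / γ.1.v) η hη0 : ℍ) : ℂ) with hZ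
    have e3 : (γ.1.v : ℂ) * Z - γ.1.w = (γ.1.v : ℂ) * (η : ℂ) * Complex.I := by
      rw [e1]; field_simp; ring
    have e4 : (17 : ℂ) * (γ.1.w : ℂ) * (-1 / (17 * Z)) + γ.1.v =
        ((γ.1.v : ℂ) * (η : ℂ) * Complex.I) / Z := by
      rw [← e3]; field_simp; ring
    have e5 : (γ.1.X : ℂ) * (-1 / (17 * Z)) + γ.1.Y = (17 * γ.1.Y * Z - γ.1.X) / (17 * Z) := by
      field_simp; ring
    rw [e4, e5, hε1]
    have hI := Complex.I_ne_zero
    have hI2 := Complex.I_sq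
    rw [div_div_div_eq, div_add' _ _ _ hv0, div_eq_div_iff hv0 (by
      refine mul_ne_zero (mul_ne_zero (by norm_num) hz) ?_
      exact mul_ne_zero (mul_ne_zero hv0 hη1) hI)]
    field_simp
    -- remaining polynomial identity
    have e6 : (γ.1.v : ℂ) * Z = γ.1.w + (γ.1.v : ℂ) * (η : ℂ) * Complex.I := by
      rw [← e3]; ring
    linear_combination hI2 - 17 * (γ.1.Y : ℂ) * e6 + hdet
  have hW : Psi b d (γ • WH (pt ((γ.1.w : ℝ) / γ.1.v) η hη0)) (γ • z0) =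
      T0 b' d + 2 * St b' d 0 ((γ.1.w : ℝ) / γ.1.v) := by
    rw [psi_smul]
    conv_lhs => rw [← WH_z0]
    rw [psi_W hbb, psi_swap hd, neg_neg, psi_z0 hd h17 hη0 (by rw [hη]; linarith)]
  have h1 := psi_add (b := b) hd (γ • WH (pt ((γ.1.w : ℝ) / γ.1.v) η hη0)) (γ • z0)
    (pt ((γ.1.Y : ℝ) / γ.1.v) η hη0)
  have h2 := psi_add (b := b) hd (γ • z0) z0 (pt ((γ.1.Y : ℝ) / γ.1.v) η hη0)
  have h3 : Psi b d (γ • z0) z0 = - hom b d γ := by
    rw [psi_swap hd, ← hom_eq hd]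
  have h4 := psi_z0 (b := b) hd h17 (x := (γ.1.Y : ℝ) / γ.1.v) hη0 (by rw [hη]; linarith)
  rw [St_Sx h hc0' hc1'] at h4
  rw [St_Sx h' hr0' hr1'] at hW
  rw [hpt, ← h1, ← h2, hW, h3, h4]
  ring

end Vale.Agent.P014.H74
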