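import Vale.Agent.P014.H74.A2c

/-!
# Module A, part 3: parabolic homomorphisms of `Γ₀(17)` form a space of rank one in each parity
-/

namespace Vale.Agent.P014.H74

/-- parabolic homomorphisms -/
structure Par (ρ : G → ℝ) : Prop where
  mul : ∀ A B, ρ (A * B) = ρ A + ρ B
  T : ρ (tz 1) = 0
  V : ρ (vz 1) = 0

open Classical in
/-- the modular symbol attached to a homomorphism -/
noncomputable def sv (ρ : G → ℝ) (a c : ℤ) : ℝ :=
  if h : ∃ γ : G, γ.1.X = a ∧ 17 * γ.1.w = c then ρ (Classical.choose h)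
  else if h : ∃ γ : G, γ.1.Y = a ∧ γ.1.v = c then ρ (Classical.choose h) else 0

/-- `-1` -/
def ng : G := ⟨⟨-1, 0, 0, -1⟩, by simp [M4.det]⟩

namespace Par

variable {ρ : G → ℝ}

theorem one (h : Par ρ) : ρ 1 = 0 := by
  have := h.mul 1 1
  rw [one_mul] at this; linarith

theorem inv (h : Par ρ) (A : G) : ρ A⁻¹ = - ρ A := by
  have := h.mul A A⁻¹
  rw [mul_inv_cancel, h.one] at this; linarith

theorem ng (h : Par ρ) : ρ ng = 0 := by
  have := h.mul H74.ng H74.ng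
  have e : H74.ng * H74.ng = 1 := by
    apply G.ext'; rw [G.mul_val, G.one_val]; ext <;> simp [H74.ng]
  rw [e, h.one] at this; linarith

theorem tz (h : Par ρ) (k : ℤ) : ρ (tz k) = 0 := by
  have hadd : ∀ k l, H74.tz (k + l) = H74.tz k * H74.tz l := by
    intro k l; apply G.ext'; rw [G.mul_val]; ext <;> simp [H74.tz, add_comm]
  let f : ℤ →+ ℝ := AddMonoidHom.mk' (fun k => ρ (H74.tz k)) (fun k l => by
    rw [hadd, h.mul])
  have h1 : f 1 = 0 := h.T
  have h2 : f k = 0 := by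
    have : f k = k • f 1 := by rw [← map_zsmul]; simp
    rw [this, h1, smul_zero]
  exact h2

theorem vz (h : Par ρ) (k : ℤ) : ρ (vz k) = 0 := by
  have hadd : ∀ k l, H74.vz (k + l) = H74.vz k * H74.vz l := by
    intro k l; apply G.ext'; rw [G.mul_val]; ext <;> simp [H74.vz]
  let f : ℤ →+ ℝ := AddMonoidHom.mk' (fun k => ρ (H74.vz k)) (fun k l => by
    rw [hadd, h.mul])
  have h1 : f 1 = 0 := h.V
  have h2 : f k = 0 := by
    have : f k = k • f 1 := by rw [← map_zsmul]; simp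
    rw [this, h1, smul_zero]
  exact h2

theorem eq_of_col1 (h : Par ρ) {γ δ : G} (h1 : γ.1.X = δ.1.X) (h2 : γ.1.w = δ.1.w) :
    ρ γ = ρ δ := by
  have hd := δ.det_eq
  have hg := γ.det_eq
  have e : γ = δ * H74.tz (δ.1.v * γ.1.Y - δ.1.Y * γ.1.v) := by
    apply G.ext'
    rw [G.mul_val]
    ext
    · simp only [M4.mul_X, H74.tz]; linarith
    · simp only [M4.mul_Y, H74.tz]
      linear_combination (-γ.1.Y) * hd + δ.1.Y * hg - δ.1.Y * γ.1.v * h1 + 17 * δ.1.Y * γ.1.Y * h2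
    · simp only [M4.mul_w, H74.tz]; linarith
    · simp only [M4.mul_v, H74.tz]
      linear_combination (-γ.1.v) * hd + δ.1.v * hg - δ.1.v * γ.1.v * h1 + 17 * δ.1.v * γ.1.Y * h2
  rw [e, h.mul, h.tz, add_zero]

theorem eq_of_col2 (h : Par ρ) {γ δ : G} (h1 : γ.1.Y = δ.1.Y) (h2 : γ.1.v = δ.1.v) :
    ρ γ = ρ δ := by
  have hd := δ.det_eq
  have hg := γ.det_eq
  have e : γ = δ * H74.vz (δ.1.X * γ.1.w - δ.1.w * γ.1.X) := by
    apply G.ext'
    rw [G.mul_val]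
    ext
    · simp only [M4.mul_X, H74.vz]
      linear_combination (-γ.1.X) * hd + δ.1.X * hg - δ.1.X * γ.1.X * h2 + 17 * δ.1.X * γ.1.w * h1
    · simp only [M4.mul_Y, H74.vz]; linarith
    · simp only [M4.mul_w, H74.vz]
      linear_combination (-γ.1.w) * hd + δ.1.w * hg - δ.1.w * γ.1.X * h2 + 17 * δ.1.w * γ.1.w * h1
    · simp only [M4.mul_v, H74.vz]; linarith
  rw [e, h.mul, h.vz, add_zero]

theorem sv1 (h : Par ρ) (γ : G) : sv ρ γ.1.X (17 * γ.1.w) = ρ γ := by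
  have hex : ∃ δ : G, δ.1.X = γ.1.X ∧ 17 * δ.1.w = 17 * γ.1.w := ⟨γ, rfl, rfl⟩
  unfold sv
  rw [dif_pos hex]
  obtain ⟨h1, h2⟩ := Classical.choose_spec hex
  exact h.eq_of_col1 h1 (by linarith)

theorem sv2 (h : Par ρ) (γ : G) : sv ρ γ.1.Y γ.1.v = ρ γ := by
  have hex : ∃ δ : G, δ.1.Y = γ.1.Y ∧ δ.1.v = γ.1.v := ⟨γ, rfl, rfl⟩
  have hnex : ¬ ∃ δ : G, δ.1.X = γ.1.Y ∧ 17 * δ.1.w = γ.1.v := by
    rintro ⟨δ, -, h2⟩
    have := γ.det_eq
    rw [← h2] at this
    have h17 : (17 : ℤ) ∣ 1 := ⟨γ.1.X * δ.1.w - γ.1.w * γ.1.Y, by linarith⟩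
    norm_num at h17
  unfold sv
  rw [dif_neg hnex, dif_pos hex]
  obtain ⟨h1, h2⟩ := Classical.choose_spec hex
  exact h.eq_of_col2 h1 h2

end Par

/-- every primitive vector is a column of an element of the group -/
theorem exists_col {a c : ℤ} (h : IsCoprime a c) :
    (∃ γ : G, γ.1.X = a ∧ 17 * γ.1.w = c) ∨ (∃ γ : G, γ.1.Y = a ∧ γ.1.v = c) := by
  by_cases h17 : (17 : ℤ) ∣ c
  · left
    obtain ⟨w, rfl⟩ := h17
    obtain ⟨u, v, huv⟩ := h
    exact ⟨⟨⟨a, -v, w, u⟩, by simp only [M4.det]; linarith⟩, rfl, rfl⟩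
  · right
    have h1 : IsCoprime c 17 := by
      have hp : Prime (17 : ℤ) := by norm_num
      exact ((Prime.coprime_iff_not_dvd hp).mpr h17).symm
    obtain ⟨u, v, huv⟩ := h1.mul_right h.symm
    exact ⟨⟨⟨u, a, -v, c⟩, by simp only [M4.det]; linarith⟩, rfl, rfl⟩

namespace Par

variable {ρ : G → ℝ}

theorem sv_smul (h : Par ρ) (γ : G) {a c : ℤ} (hac : IsCoprime a c) :
    sv ρ (γ.1.X * a + γ.1.Y * c) (17 * γ.1.w * a + γ.1.v * c) = ρ γ + sv ρ a c := by
  rcases exists_col hac with ⟨δ, h1, h2⟩ | ⟨δ, h1, h2⟩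
  · have e1 : γ.1.X * a + γ.1.Y * c = (γ * δ).1.X := by
      rw [G.mul_val, M4.mul_X, ← h1, ← h2]; ring
    have e2 : 17 * γ.1.w * a + γ.1.v * c = 17 * (γ * δ).1.w := by
      rw [G.mul_val, M4.mul_w, ← h1, ← h2]; ring
    rw [e1, e2, h.sv1, h.mul, ← h1, ← h2, h.sv1]
  · have e1 : γ.1.X * a + γ.1.Y * c = (γ * δ).1.Y := by
      rw [G.mul_val, M4.mul_Y, ← h1, ← h2]
    have e2 : 17 * γ.1.w * a + γ.1.v * c = (γ * δ).1.v := by
      rw [G.mul_val, M4.mul_v, ← h1, ← h2]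
    rw [e1, e2, h.sv2, h.mul, ← h1, ← h2, h.sv2]

theorem sv_neg (h : Par ρ) {a c : ℤ} (hac : IsCoprime a c) :
    sv ρ (-a) (-c) = sv ρ a c := by
  have := h.sv_smul H74.ng hac
  rw [h.ng, zero_add] at this
  rw [← this]
  congr 1 <;> simp [H74.ng]

theorem sv_conj (h : Par ρ) {ε : ℝ} (he : ∀ A, ρ (cG A) = ε * ρ A) {a c : ℤ}
    (hac : IsCoprime a c) : sv ρ (-a) c = ε * sv ρ a c := by
  rcases exists_col hac with ⟨δ, h1, h2⟩ | ⟨δ, h1, h2⟩
  · have e1 : sv ρ (-a) c = sv ρ (cG δ).1.X (17 * (cG δ).1.w) := by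
      have hc : IsCoprime (-a) c := hac.neg_left
      rw [← h.sv_neg hc, neg_neg]
      congr 1
      · exact h1.symm
      · rw [← h2]; simp [cG, cn]
    rw [e1, h.sv1, he, ← h1, ← h2, h.sv1]
  · have e1 : sv ρ (-a) c = sv ρ (cG δ).1.Y (cG δ).1.v := by
      congr 1
      · rw [← h1]; rfl
      · exact h2.symm
    rw [e1, h.sv2, he, ← h1, ← h2, h.sv2]

theorem sv_zero_one (h : Par ρ) : sv ρ 0 1 = 0 := by
  have := h.sv2 1
  rw [h.one] at this
  exact this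

theorem sv_one_zero (h : Par ρ) : sv ρ 1 0 = 0 := by
  have := h.sv1 1
  rw [h.one] at this
  exact this

end Par

theorem cop_left {a b c d : ℤ} (h : a * d - b * c = 1) : IsCoprime a c := ⟨d, -b, by linarith⟩
theorem cop_right {a b c d : ℤ} (h : a * d - b * c = 1) : IsCoprime b d := ⟨-c, a, by linarith⟩

/-- the Manin symbol -/
noncomputable def xi (ρ : G → ℝ) (a b c d : ℤ) : ℝ := sv ρ a c - sv ρ b d

/-- Manin symbols as a function on the projective line -/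
noncomputable def fM (ρ : G → ℝ) (x : ℤ) : ℝ := xi ρ 0 (-1) 1 x

namespace Par

variable {ρ : G → ℝ}

theorem xi_eq (h : Par ρ) {a b c d a' b' c' d' : ℤ} (h1 : a * d - b * c = 1)
    (h2 : a' * d' - b' * c' = 1) (h3 : (17 : ℤ) ∣ c * d' - d * c') :
    xi ρ a b c d = xi ρ a' b' c' d' := by
  obtain ⟨w, hw⟩ := h3
  let γ : G := ⟨⟨a * d' - b * c', -a * b' + b * a', w, -c * b' + d * a'⟩, by
    simp only [M4.det]
    have e : (a * d' - b * c') * (-c * b' + d * a') - 17 * w * (-a * b' + b * a') =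
      (a * d - b * c) * (a' * d' - b' * c') := by rw [← hw]; ring
    rw [e, h1, h2, one_mul]⟩
  have e1 := h.sv_smul γ (cop_left h2)
  have e2 := h.sv_smul γ (cop_right h2)
  have k1 : γ.1.X * a' + γ.1.Y * c' = a := by
    change (a * d' - b * c') * a' + (-a * b' + b * a') * c' = a
    linear_combination a * h2
  have k2 : 17 * γ.1.w * a' + γ.1.v * c' = c := by
    change 17 * w * a' + (-c * b' + d * a') * c' = c
    rw [← hw]; linear_combination c * h2
  have k3 : γ.1.X * b' + γ.1.Y * d' = b := by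
    change (a * d' - b * c') * b' + (-a * b' + b * a') * d' = b
    linear_combination b * h2
  have k4 : 17 * γ.1.w * b' + γ.1.v * d' = d := by
    change 17 * w * b' + (-c * b' + d * a') * d' = d
    rw [← hw]; linear_combination d * h2
  rw [k1, k2] at e1
  rw [k3, k4] at e2
  unfold xi
  rw [e1, e2]; ring

theorem xi_three (h : Par ρ) {a b c d : ℤ} (h1 : a * d - b * c = 1) :
    xi ρ a b c d + xi ρ (-b) (a + b) (-d) (c + d) + xi ρ (-(a + b)) a (-(c + d)) c = 0 := by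
  unfold xi
  rw [h.sv_neg (cop_right h1), h.sv_neg (a := a + b) (c := c + d) ⟨d - c * 0, -b, by linarith⟩]
  ring

theorem f_S (h : Par ρ) {x y : ℤ} (hxy : (17 : ℤ) ∣ x * y + 1) : fM ρ y = - fM ρ x := by
  have h1 : xi ρ (-1) 0 x (-1) = fM ρ y := by
    refine h.xi_eq (by ring) (by ring) ?_
    have e : x * y - -1 * 1 = x * y + 1 := by ring
    rwa [e]
  rw [← h1]
  unfold fM xi
  have := h.sv_neg (a := 0) (c := 1) ⟨0, 1, by ring⟩
  rw [neg_zero] at this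
  rw [this]; ring

theorem f_U (h : Par ρ) {x y z : ℤ} (hy : (17 : ℤ) ∣ x * y + x + 1) (hz : (17 : ℤ) ∣ z * (1 + x) + 1) :
    fM ρ x + fM ρ y + fM ρ z = 0 := by
  have h3 := h.xi_three (a := 0) (b := -1) (c := 1) (d := x) (by ring)
  have h1 : xi ρ (- -1) (0 + -1) (-x) (1 + x) = fM ρ y := by
    refine h.xi_eq (by ring) (by ring) ?_
    have e : -x * y - (1 + x) * 1 = -(x * y + x + 1) := by ring
    rw [e, dvd_neg]; exact hy
  have h2 : xi ρ (-(0 + -1)) 0 (-(1 + x)) 1 = fM ρ z := by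
    refine h.xi_eq (by ring) (by ring) ?_
    have e : -(1 + x) * z - 1 * 1 = -(z * (1 + x) + 1) := by ring
    rw [e, dvd_neg]; exact hz
  rw [h1, h2] at h3
  exact h3

theorem f_mod (h : Par ρ) {x y : ℤ} (hxy : (17 : ℤ) ∣ x - y) : fM ρ x = fM ρ y := by
  refine h.xi_eq (by ring) (by ring) ?_
  have e : 1 * y - x * 1 = -(x - y) := by ring
  rw [e, dvd_neg]; exact hxy

theorem f_neg (h : Par ρ) {ε : ℝ} (he : ∀ A, ρ (cG A) = ε * ρ A) (x : ℤ) :
    fM ρ (-x) = ε * fM ρ x := by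
  unfold fM xi
  have h1 := h.sv_conj he (a := -1) (c := x) ⟨-1, 0, by ring⟩
  have h2 := h.sv_neg (a := 1) (c := x) ⟨1, 0, by ring⟩
  rw [neg_neg] at h1
  rw [h.sv_zero_one, h2, h1]; ring

theorem f_zero (h : Par ρ) : fM ρ 0 = 0 := by
  unfold fM xi
  have h2 := h.sv_neg (a := 1) (c := 0) ⟨1, 0, by ring⟩
  rw [neg_zero] at h2
  rw [h.sv_zero_one, h2, h.sv_one_zero]; ring

theorem f_all (h : Par ρ) {ε : ℝ} (hε : ε = 1 ∨ ε = -1) (he : ∀ A, ρ (cG A) = ε * ρ A)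
    (h3 : fM ρ 3 = 0) (x : ℤ) : fM ρ x = 0 := by
  have hn := h.f_neg he
  have key : ∀ y : ℤ, 0 ≤ y → y < 17 → fM ρ y = 0 := by
    have a0 := h.f_zero
    have s1 := h.f_S (x := 1) (y := 16) (by norm_num)
    have s2 := h.f_S (x := 2) (y := 8) (by norm_num)
    have s3 := h.f_S (x := 3) (y := 11) (by norm_num)
    have s4 := h.f_S (x := 4) (y := 4) (by norm_num)
    have s5 := h.f_S (x := 5) (y := 10) (by norm_num)
    have s6 := h.f_S (x := 6) (y := 14) (by norm_num)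
    have s7 := h.f_S (x := 7) (y := 12) (by norm_num)
    have s9 := h.f_S (x := 9) (y := 15) (by norm_num)
    have s13 := h.f_S (x := 13) (y := 13) (by norm_num)
    have u1 := h.f_U (x := 1) (y := 15) (z := 8) (by norm_num) (by norm_num)
    have u2 := h.f_U (x := 2) (y := 7) (z := 11) (by norm_num) (by norm_num)
    have u3 := h.f_U (x := 3) (y := 10) (z := 4) (by norm_num) (by norm_num)
    have n1 : fM ρ 16 = ε * fM ρ 1 := by rw [← hn]; exact h.f_mod (by norm_num)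
    have n2 : fM ρ 15 = ε * fM ρ 2 := by rw [← hn]; exact h.f_mod (by norm_num)
    have n3 : fM ρ 14 = ε * fM ρ 3 := by rw [← hn]; exact h.f_mod (by norm_num)
    have n4 : fM ρ 13 = ε * fM ρ 4 := by rw [← hn]; exact h.f_mod (by norm_num)
    have n5 : fM ρ 12 = ε * fM ρ 5 := by rw [← hn]; exact h.f_mod (by norm_num)
    have n6 : fM ρ 11 = ε * fM ρ 6 := by rw [← hn]; exact h.f_mod (by norm_num)
    have n7 : fM ρ 10 = ε * fM ρ 7 := by rw [← hn]; exact h.f_mod (by norm_num)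
    have n8 : fM ρ 9 = ε * fM ρ 8 := by rw [← hn]; exact h.f_mod (by norm_num)
    have u16 := h.f_U (x := 15) (y := 8) (z := 1) (by norm_num) (by norm_num)
    intro y hy0 hy1
    rcases hε with h | h <;> subst h <;>
    · interval_cases y <;> linarith
  rw [h.f_mod (y := x % 17) (Int.dvd_self_sub_emod)]
  exact key _ (Int.emod_nonneg _ (by norm_num)) (Int.emod_lt_of_pos _ (by norm_num))

theorem xi_all (h : Par ρ) {ε : ℝ} (hε : ε = 1 ∨ ε = -1) (he : ∀ A, ρ (cG A) = ε * ρ A)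
    (h3 : fM ρ 3 = 0) {a b c d : ℤ} (h1 : a * d - b * c = 1) : xi ρ a b c d = 0 := by
  by_cases h17 : (17 : ℤ) ∣ c
  · rw [h.xi_eq (a' := 1) (b' := 0) (c' := 0) (d' := 1) h1 (by ring) (by simpa using h17)]
    unfold xi
    rw [h.sv_zero_one, h.sv_one_zero, sub_self]
  · have hp : Prime (17 : ℤ) := by norm_num
    obtain ⟨u, v, huv⟩ := ((Prime.coprime_iff_not_dvd hp).mpr h17).symm
    rw [h.xi_eq (a' := 0) (b' := -1) (c' := 1) (d' := u * d) h1 (by ring)
      ⟨-v * d, by linear_combination d * huv⟩]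
    exact h.f_all hε he h3 _

theorem sv_all (h : Par ρ) {ε : ℝ} (hε : ε = 1 ∨ ε = -1) (he : ∀ A, ρ (cG A) = ε * ρ A)
    (h3 : fM ρ 3 = 0) (n : ℕ) : ∀ a c : ℤ, c.natAbs = n → IsCoprime a c → sv ρ a c = 0 := by
  induction n using Nat.strong_induction_on with
  | _ n ih =>
    intro a c hc hac
    by_cases hc0 : c = 0
    · subst hc0
      rw [isCoprime_zero_right, Int.isUnit_iff] at hac
      rcases hac with rfl | rfl
      · exact h.sv_one_zero
      · have := h.sv_neg (a := 1) (c := 0) ⟨1, 0, by ring⟩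
        rw [neg_zero] at this
        rw [this, h.sv_one_zero]
    · obtain ⟨u, v, huv⟩ := hac
      have hd : u % c = u - c * (u / c) := by
        have := Int.emod_add_mul_ediv u c; linarith
      have h1 : a * (u % c) - (-(v + a * (u / c))) * c = 1 := by
        rw [hd]; linear_combination huv
      have h2 := h.xi_all hε he h3 h1
      unfold xi at h2
      have h4 := ih (u % c).natAbs (by
        have h5 := Int.emod_nonneg u hc0
        have h6 := Int.emod_lt_abs u hc0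
        rw [← Int.natCast_natAbs] at h6
        omega) (-(v + a * (u / c))) (u % c) rfl (cop_right h1)
      linarith

theorem eq_zero (h : Par ρ) {ε : ℝ} (hε : ε = 1 ∨ ε = -1) (he : ∀ A, ρ (cG A) = ε * ρ A)
    (h3 : fM ρ 3 = 0) (A : G) : ρ A = 0 := by
  rw [← h.sv2 A]
  refine h.sv_all hε he h3 _ _ _ rfl ?_
  have := A.det_eq
  exact cop_right (a := A.1.X) (c := 17 * A.1.w) (by linarith)

theorem comb {ρ₁ ρ₂ : G → ℝ} (h1 : Par ρ₁) (h2 : Par ρ₂) (a b : ℝ) :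
    Par (fun A => a * ρ₁ A + b * ρ₂ A) where
  mul A B := by rw [h1.mul, h2.mul]; ring
  T := by rw [h1.T, h2.T]; ring
  V := by rw [h1.V, h2.V]; ring

theorem sv_comb {ρ₁ ρ₂ : G → ℝ} (h1 : Par ρ₁) (h2 : Par ρ₂) (a b : ℝ) {x y : ℤ}
    (hxy : IsCoprime x y) :
    sv (fun A => a * ρ₁ A + b * ρ₂ A) x y = a * sv ρ₁ x y + b * sv ρ₂ x y := by
  have h := comb h1 h2 a b
  rcases exists_col hxy with ⟨δ, k1, k2⟩ | ⟨δ, k1, k2⟩
  · rw [← k1, ← k2, h.sv1, h1.sv1, h2.sv1]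
  · rw [← k1, ← k2, h.sv2, h1.sv2, h2.sv2]

/-- **Lemma H**: two parabolic homomorphisms of the same parity are proportional -/
theorem prop {ρ₁ ρ₂ : G → ℝ} (h1 : Par ρ₁) (h2 : Par ρ₂) {ε : ℝ} (hε : ε = 1 ∨ ε = -1)
    (e1 : ∀ A, ρ₁ (cG A) = ε * ρ₁ A) (e2 : ∀ A, ρ₂ (cG A) = ε * ρ₂ A) (A B : G) :
    ρ₁ A * ρ₂ B = ρ₂ A * ρ₁ B := by
  set α := fM ρ₁ 3 with hα
  set β := fM ρ₂ 3 with hβ
  have h := comb h1 h2 β (-α)
  have hf : fM (fun A => β * ρ₁ A + -α * ρ₂ A) 3 = 0 := by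
    unfold fM xi
    rw [sv_comb h1 h2 _ _ ⟨0, 1, by ring⟩, sv_comb h1 h2 _ _ ⟨-1, 0, by ring⟩, hα, hβ]
    unfold fM xi
    ring
  have hz := h.eq_zero hε (by intro A; rw [e1, e2]; ring) hf
  have z1 : ∀ A, β * ρ₁ A = α * ρ₂ A := by
    intro A; have := hz A; linarith
  by_cases hα0 : α = 0
  · have : ∀ A, ρ₁ A = 0 := h1.eq_zero hε e1 hα0
    rw [this, this]; ring
  · have k1 := z1 A
    have k2 := z1 B
    apply mul_left_cancel₀ hα0
    linear_combination ρ₁ A * (-k2) + ρ₁ B * k1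

end Par

end Vale.Agent.P014.H74
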