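import Vale.Agent.P014.H74.A3

/-!
# Module A, part 4: sums over residue classes
-/

set_option linter.unusedSectionVars false
set_option linter.style.haveILetI false

namespace Vale.Agent.P014.H74

open Finset

section Units

variable {d : ℕ} [NeZero d]

/-- the least representative -/
def bz (x : (ZMod d)ˣ) : ℤ := ((x : ZMod d).val : ℤ)

/-- the Jacobi symbol of a residue class -/
def chi (x : (ZMod d)ˣ) : ℤ := jacobiSym (bz x) d

theorem bz_cast (x : (ZMod d)ˣ) : ((bz x : ℤ) : ZMod d) = x := by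
  unfold bz; simp

theorem bz_nonneg (x : (ZMod d)ˣ) : 0 ≤ bz x := by unfold bz; positivity

theorem bz_lt (x : (ZMod d)ˣ) : bz x < d := by
  unfold bz; exact_mod_cast ZMod.val_lt _

theorem bz_coprime (x : (ZMod d)ˣ) : IsCoprime (bz x) (d : ℤ) := by
  unfold bz
  exact Nat.isCoprime_iff_coprime.mpr (ZMod.val_coe_unit_coprime x)

theorem bz_ok (x : (ZMod d)ˣ) : Ok (bz x) d := by
  have h0 := bz_nonneg x
  have h1 := bz_lt x
  have h2 := bz_coprime x
  rcases h0.lt_or_eq with h | h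
  · exact Or.inl ⟨h, h1⟩
  · right
    rw [← h, isCoprime_zero_left, Int.isUnit_iff] at h2
    exact ⟨h.symm, by omega⟩

theorem chi_of_cast (x : (ZMod d)ˣ) (a : ℤ) (h : (a : ZMod d) = x) : chi x = jacobiSym a d := by
  unfold chi
  apply jacobiSym.mod_left'
  have : ((bz x : ℤ) : ZMod d) = (a : ZMod d) := by rw [bz_cast, h]
  exact (ZMod.intCast_eq_intCast_iff _ _ _).mp this

theorem chi_mul (x y : (ZMod d)ˣ) : chi (x * y) = chi x * chi y := by
  rw [chi_of_cast (x * y) (bz x * bz y) (by push_cast; rw [bz_cast, bz_cast]), jacobiSym.mul_left]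
  rfl

theorem chi_one : chi (1 : (ZMod d)ˣ) = 1 := by
  rw [chi_of_cast 1 1 (by simp), jacobiSym.one_left]

theorem chi_neg (x : (ZMod d)ˣ) : chi (-x) = jacobiSym (-1) d * chi x := by
  rw [chi_of_cast (-x) (-1 * bz x) (by push_cast; rw [bz_cast]; ring), jacobiSym.mul_left]
  rfl

theorem chi_sq (x : (ZMod d)ˣ) : chi x * chi x = 1 := by
  have h : chi x = 1 ∨ chi x = -1 := by
    unfold chi
    rcases jacobiSym.trichotomy (bz x) d with h | h | h
    · exfalso
      rw [jacobiSym.eq_zero_iff] at h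
      exact h.2 (Int.isCoprime_iff_gcd_eq_one.mp (bz_coprime x))
    · exact Or.inl h
    · exact Or.inr h
  rcases h with h | h <;> rw [h] <;> norm_num

theorem chi_inv (x : (ZMod d)ˣ) : chi x⁻¹ = chi x := by
  have h1 : chi x⁻¹ * chi x = 1 := by rw [← chi_mul, inv_mul_cancel, chi_one]
  have h2 := chi_sq x
  calc chi x⁻¹ = chi x⁻¹ * (chi x * chi x) := by rw [h2, mul_one]
    _ = (chi x⁻¹ * chi x) * chi x := by ring
    _ = chi x := by rw [h1, one_mul]

/-- `17` as a unit -/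
def s17 (h : Nat.Coprime 17 d) : (ZMod d)ˣ := ZMod.unitOfCoprime 17 h

theorem chi_s17 (h : Nat.Coprime 17 d) : chi (s17 h) = jacobiSym 17 d :=
  chi_of_cast _ 17 (by simp [s17])

/-- the map `x ↦ - 1 / (17 x)` -/
def pr (h : Nat.Coprime 17 d) : (ZMod d)ˣ ≃ (ZMod d)ˣ :=
  (Equiv.inv _).trans (Equiv.mulLeft (-(s17 h)⁻¹))

theorem pr_apply (h : Nat.Coprime 17 d) (x : (ZMod d)ˣ) : pr h x = -(s17 h)⁻¹ * x⁻¹ := rfl

theorem chi_pr (h : Nat.Coprime 17 d) (x : (ZMod d)ˣ) :
    chi (pr h x) = jacobiSym (-17) d * chi x := by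
  rw [pr_apply, chi_mul, chi_neg, chi_inv, chi_inv, chi_s17, ← jacobiSym.mul_left]
  norm_num

theorem pr_dvd (h : Nat.Coprime 17 d) (x : (ZMod d)ˣ) :
    (d : ℤ) ∣ 17 * bz (pr h x) * bz x + 1 := by
  rw [← ZMod.intCast_zmod_eq_zero_iff_dvd]
  push_cast
  rw [bz_cast, bz_cast, pr_apply]
  have h1 : ((s17 h : (ZMod d)ˣ) : ZMod d) = 17 := by simp [s17]
  rw [← h1]
  have h2 : ((s17 h : (ZMod d)ˣ) : ZMod d) * ((-(s17 h)⁻¹ * x⁻¹ : (ZMod d)ˣ) : ZMod d) * (x : ZMod d)
    = ((s17 h * (-(s17 h)⁻¹ * x⁻¹) * x : (ZMod d)ˣ) : ZMod d) := by push_cast; ring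
  rw [h2]
  have h3 : s17 h * (-(s17 h)⁻¹ * x⁻¹) * x = -1 := by
    rw [neg_mul, mul_neg, neg_mul, mul_inv_cancel_left, inv_mul_cancel]
  rw [h3]; simp

/-- the matrix with second column `(x, d)` -/
def gam (h : Nat.Coprime 17 d) (x : (ZMod d)ˣ) : G :=
  ⟨⟨(17 * bz (pr h x) * bz x + 1) / d, bz x, bz (pr h x), d⟩, by
    simp only [M4.det]
    rw [Int.ediv_mul_cancel (pr_dvd h x)]; ring⟩

theorem sum_units (F : ℤ → ℤ) :
    ∑ b ∈ Finset.range d, jacobiSym (b : ℤ) d * F b = ∑ x : (ZMod d)ˣ, chi x * F (bz x) := by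
  symm
  apply Finset.sum_bij_ne_zero (fun (x : (ZMod d)ˣ) _ _ => (x : ZMod d).val)
  · intro x _ _
    exact Finset.mem_range.mpr (ZMod.val_lt _)
  · intro x _ _ y _ _ h
    exact Units.ext (ZMod.val_injective d h)
  · intro b hb hne
    have hb' := Finset.mem_range.mp hb
    have hco : Nat.Coprime b d := by
      by_contra hcon
      apply hne
      have : jacobiSym (b : ℤ) d = 0 := by
        rw [jacobiSym.eq_zero_iff_not_coprime, Int.gcd_natCast_natCast]; exact hcon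
      rw [this, zero_mul]
    have e1 : ((ZMod.unitOfCoprime b hco : (ZMod d)ˣ) : ZMod d).val = b := by
      rw [ZMod.coe_unitOfCoprime, ZMod.val_natCast_of_lt hb']
    refine ⟨ZMod.unitOfCoprime b hco, Finset.mem_univ _, ?_, e1⟩
    unfold chi bz
    rw [e1]; exact hne
  · intro x _ _
    rfl

theorem sum_unitsR (F : ℤ → ℝ) :
    ∑ b ∈ Finset.range d, ((jacobiSym (b : ℤ) d : ℤ) : ℝ) * F b =
      ∑ x : (ZMod d)ˣ, ((chi x : ℤ) : ℝ) * F (bz x) := by
  symm
  apply Finset.sum_bij_ne_zero (fun (x : (ZMod d)ˣ) _ _ => (x : ZMod d).val)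
  · intro x _ _
    exact Finset.mem_range.mpr (ZMod.val_lt _)
  · intro x _ _ y _ _ h
    exact Units.ext (ZMod.val_injective d h)
  · intro b hb hne
    have hb' := Finset.mem_range.mp hb
    have hco : Nat.Coprime b d := by
      by_contra hcon
      apply hne
      have : jacobiSym (b : ℤ) d = 0 := by
        rw [jacobiSym.eq_zero_iff_not_coprime, Int.gcd_natCast_natCast]; exact hcon
      rw [this, Int.cast_zero, zero_mul]
    have e1 : ((ZMod.unitOfCoprime b hco : (ZMod d)ˣ) : ZMod d).val = b := by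
      rw [ZMod.coe_unitOfCoprime, ZMod.val_natCast_of_lt hb']
    refine ⟨ZMod.unitOfCoprime b hco, Finset.mem_univ _, ?_, e1⟩
    unfold chi bz
    rw [e1]; exact hne
  · intro x _ _
    rfl

/-- an odd squarefree modulus larger than one has a class with symbol `-1` -/
theorem exists_neg {k : ℕ} (hk : Odd k) (hsq : Squarefree k) (h1 : k ≠ 1) :
    ∃ n : ℕ, jacobiSym (n : ℤ) k = -1 := by
  obtain ⟨p, hp, m, rfl⟩ := Nat.exists_prime_and_dvd h1
  haveI : Fact p.Prime := ⟨hp⟩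
  have hp2 : p ≠ 2 := by
    rintro rfl
    rcases hk with ⟨c, hc⟩
    omega
  have hco : Nat.Coprime p m := (Nat.squarefree_mul_iff.mp hsq).1
  have hm0 : m ≠ 0 := by rintro rfl; simp at hsq
  obtain ⟨g, hg⟩ := quadraticChar_exists_neg_one (F := ZMod p) (by rwa [ZMod.ringChar_zmod_n])
  obtain ⟨n, hn1, hn2⟩ := Nat.chineseRemainder hco g.val 1
  refine ⟨n, ?_⟩
  haveI : NeZero m := ⟨hm0⟩
  rw [jacobiSym.mul_right, ← jacobiSym.legendreSym.to_jacobiSym]
  have e1 : legendreSym p (n : ℤ) = -1 := by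
    rw [legendreSym]
    have h1 : ((n : ℤ) : ZMod p) = g := by
      have h2 := (ZMod.natCast_eq_natCast_iff n g.val p).2 hn1
      rw [Int.cast_natCast, h2]
      simp
    rw [h1, hg]
  have e2 : jacobiSym (n : ℤ) m = 1 := by
    have h1 : (n : ℤ) ≡ 1 [ZMOD m] := by
      have := Int.natCast_modEq_iff.2 hn2
      simpa using this
    rw [jacobiSym.mod_left' h1, jacobiSym.one_left]
  rw [e1, e2]; norm_num

theorem sum_chi (hk : Odd d) (hsq : Squarefree d) (h1 : d ≠ 1) : ∑ x : (ZMod d)ˣ, chi x = 0 := by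
  obtain ⟨n, hn⟩ := exists_neg hk hsq h1
  have hco : Nat.Coprime n d := by
    by_contra hcon
    have : jacobiSym (n : ℤ) d = 0 := by
      rw [jacobiSym.eq_zero_iff_not_coprime, Int.gcd_natCast_natCast]; exact hcon
    rw [this] at hn; norm_num at hn
  set u : (ZMod d)ˣ := ZMod.unitOfCoprime n hco
  have hu : chi u = -1 := by rw [← hn]; exact chi_of_cast _ _ (by simp [u])
  have h2 : ∑ x : (ZMod d)ˣ, chi x = ∑ x : (ZMod d)ˣ, chi (u * x) :=
    (Equiv.sum_comp (Equiv.mulLeft u) (fun x => chi x)).symm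
  simp only [chi_mul, hu, ← Finset.mul_sum] at h2
  linarith

end Units

/-! ### the key identity in terms of residue classes -/

/-- the part of the key identity which depends only on the family -/
noncomputable def KK {d : ℕ} [NeZero d] (hd : Nat.Coprime 17 d) (y : (ZMod d)ˣ) : ℤ :=
  T0 (bz y) d + T0 (bz (pr hd y)) d + 2 * (if bz y = 0 then 0 else 1) +
    2 * (if bz (pr hd y) = 0 then 0 else 1)

theorem Sx_int {b d c e : ℤ} (h : Ok b d) (he : 0 < e) :
    Sx b d ((c : ℝ) / e) = (if b = 0 then 0 else 1) + (d * c - b * e).sign := by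
  have he' : (0 : ℝ) < e := by exact_mod_cast he
  unfold Sx
  have e1 : ∀ t : ℤ, sgn ((t : ℝ) / e) = t.sign := by
    intro t
    have : sgn ((t : ℝ) / e) = sgn ((t : ℝ) * (e : ℝ)⁻¹) := by rw [div_eq_mul_inv]
    rw [this, sgn_mul, sgn_pos (inv_pos.mpr he'), mul_one, sgn_int]
  rcases h with ⟨h1, h2⟩ | ⟨h1, h2⟩
  · rw [if_neg h1.ne', if_neg h1.ne', ← e1]
    congr 2
    push_cast
    field_simp
  · rw [if_pos h1, if_pos h1, h1, h2, e1]; simp

theorem key2 {d e : ℕ} [NeZero d] [NeZero e] (hd : Nat.Coprime 17 d) (he : Nat.Coprime 17 e)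
    (hde : Nat.Coprime d e) (x : (ZMod e)ˣ) (y : (ZMod d)ˣ) :
    Icr (bz x) e (bz y) d = - hom (bz y) d (gam he x) + KK hd y
      + 2 * (d * bz x - bz y * e).sign + 2 * (d * bz (pr he x) - bz (pr hd y) * e).sign := by
  have he0 : (0 : ℤ) < e := by exact_mod_cast Nat.pos_of_ne_zero (NeZero.ne e)
  have h17 : ¬ (17 : ℤ) ∣ d := by
    intro h
    have h' : 17 ∣ d := by exact_mod_cast h
    have := Nat.Coprime.eq_one_of_dvd hd h'
    omega
  have := key_identity (bz_ok y) (bz_ok (pr hd y)) h17 (pr_dvd hd y) (gam he x)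
    (bz_nonneg x) (bz_lt x) (bz_nonneg _) (bz_lt _) (Nat.isCoprime_iff_coprime.mpr hde)
  change Icr (bz x) e (bz y) d = _ at this
  rw [this]
  change -hom (bz y) d (gam he x) + T0 (bz y) d + T0 (bz (pr hd y)) d +
    2 * Sx (bz y) d ((bz x : ℝ) / ((e : ℤ) : ℝ)) +
    2 * Sx (bz (pr hd y)) d ((bz (pr he x) : ℝ) / ((e : ℤ) : ℝ)) = _
  rw [Sx_int (bz_ok y) he0, Sx_int (bz_ok _) he0]
  unfold KK
  ring

end Vale.Agent.P014.H74
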