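import Vale.Agent.P014.H74.A4b
import Vale.Agent.P014.H74.Iface

/-!
# Module A, part 4c: the period relations in terms of crossing numbers
-/

set_option linter.unusedSectionVars false

namespace Vale.Agent.P014.H74

open Finset

theorem Icr_small {c e b d : ℤ} (h : e * d < 18) : Icr c e b d = 0 := by
  classical
  unfold Icr
  refine finsum_eq_zero_of_forall_eq_zero fun M => ?_
  rw [if_neg]
  rintro ⟨h1, -, -, -, -, h6, h7⟩
  have : M.X * M.v - 17 * M.w * M.Y = e * d := h1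
  nlinarith

theorem ell_mu_three (h : Nat.Coprime 17 3) :
    ∑ x : (ZMod 3)ˣ, chi x * muh (gam h x) = -8 := by
  have h := ell_mu (n := 3) (by decide) (by
    rw [Nat.squarefree_iff_prime_squarefree]
    intro p hp hp2
    have := hp.two_le
    have h3 := Nat.le_of_dvd (by norm_num) hp2
    nlinarith) (by norm_num) h (by
      rw [show (-17 : ℤ) = 1 + 3 * (-6) by norm_num]
      have : (1 + 3 * (-6) : ℤ) ≡ 1 [ZMOD (3 : ℕ)] := by decide
      rw [jacobiSym.mod_left' this, jacobiSym.one_left])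
  have hD : Dl 3 = 0 := by
    unfold Dl
    refine Finset.sum_eq_zero fun x _ => ?_
    rw [Icr_small (by norm_num), Icr_small (by norm_num)]; ring
  have hS : Shalf 3 = -2 := by
    unfold Shalf
    have h2 : jacobiSym (2 : ℤ) 3 = -1 := by
      have : (2 : ℤ) ≡ -1 [ZMOD (3 : ℕ)] := by decide
      rw [jacobiSym.mod_left' this, jacobiSym.at_neg_one (by decide)]
      decide
    have h0 : jacobiSym (0 : ℤ) 3 = 0 := jacobiSym.zero_left (by norm_num)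
    simp [Finset.sum_range_succ, h2, h0]
  rw [h, hD, hS]; norm_num

variable {n : ℕ} [NeZero n]

theorem ell_prop {ρ₁ ρ₂ : G → ℝ} (h1 : Par ρ₁) (h2 : Par ρ₂) {ε : ℝ} (hε : ε = 1 ∨ ε = -1)
    (e1 : ∀ A, ρ₁ (cG A) = ε * ρ₁ A) (e2 : ∀ A, ρ₂ (cG A) = ε * ρ₂ A) {m : ℕ} [NeZero m]
    (hn : Nat.Coprime 17 n) (hm : Nat.Coprime 17 m) :
    ell ρ₁ n * ell ρ₂ m = ell ρ₂ n * ell ρ₁ m := by
  rw [ell_units h1 hn, ell_units h2 hm, ell_units h2 hn, ell_units h1 hm, Finset.sum_mul_sum,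
    Finset.sum_mul_sum]
  refine Finset.sum_congr rfl fun x _ => Finset.sum_congr rfl fun y _ => ?_
  have := h1.prop h2 hε e1 e2 (gam hn x) (gam hm y)
  linear_combination ((chi x : ℤ) : ℝ) * ((chi y : ℤ) : ℝ) * this

theorem ell_prop' {ρ₁ ρ₂ : G → ℝ} (h1 : Par ρ₁) (h2 : Par ρ₂) {ε : ℝ} (hε : ε = 1 ∨ ε = -1)
    (e1 : ∀ A, ρ₁ (cG A) = ε * ρ₁ A) (e2 : ∀ A, ρ₂ (cG A) = ε * ρ₂ A)
    (hn : Nat.Coprime 17 n) (A : G) :
    ell ρ₁ n * ρ₂ A = ell ρ₂ n * ρ₁ A := by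
  rw [ell_units h1 hn, ell_units h2 hn, Finset.sum_mul, Finset.sum_mul]
  refine Finset.sum_congr rfl fun x _ => ?_
  have := h1.prop h2 hε e1 e2 (gam hn x) A
  linear_combination ((chi x : ℤ) : ℝ) * this

theorem ell_cast {ρ : G → ℤ} (h : Par (fun A => (ρ A : ℝ))) (hn : Nat.Coprime 17 n) {v : ℤ}
    (hv : ∑ x : (ZMod n)ˣ, chi x * ρ (gam hn x) = v) : ell (fun A => (ρ A : ℝ)) n = v := by
  rw [ell_units h hn, ← hv]; push_cast; rfl

theorem muh_cG' (A : G) : ((muh (cG A) : ℤ) : ℝ) = (-1) * ((muh A : ℤ) : ℝ) := by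
  rw [muh_cG]; push_cast; ring

/-- **T1, crossing number form** -/
theorem T1_cross (hk : Odd n) (hsq : Squarefree n) (h1 : n ≠ 1) (hd : Nat.Coprime 17 n)
    (h17 : jacobiSym (-17) n = 1) {ρ : G → ℝ} (hρ : Par ρ) (ho : ∀ A, ρ (cG A) = (-1) * ρ A) :
    8 * ell ρ n = ell ρ 3 * ((Dl n - 4 * Shalf n : ℤ) : ℝ) := by
  have h := ell_prop (n := n) (m := 3) hρ muh_par (ε := -1) (Or.inr rfl) ho muh_cG' hd (by norm_num)
  rw [ell_cast muh_par (by norm_num) (ell_mu_three (by norm_num)),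
    ell_cast muh_par hd (ell_mu hk hsq h1 hd h17)] at h
  push_cast at h ⊢
  linarith

/-- **T2, crossing number form** -/
theorem T2_cross {d e : ℕ} [NeZero d] [NeZero e] (hk : Odd e) (hsq : Squarefree e) (h1 : e ≠ 1)
    (he : Nat.Coprime 17 e) (hkd : Odd d) (hsqd : Squarefree d) (h1d : d ≠ 1)
    (hd : Nat.Coprime 17 d) (hde : Nat.Coprime d e) (h17 : jacobiSym (-17) e = 1)
    (h17d : jacobiSym (-17) d = 1) (hneg : jacobiSym (-1) d = -1)
    {ρe ρo : G → ℝ} (hρe : Par ρe) (hee : ∀ A, ρe (cG A) = 1 * ρe A)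
    (hρo : Par ρo) (hoo : ∀ A, ρo (cG A) = (-1) * ρo A) :
    8 * (ell ρe e * ell ρo d) = ρe gh * ell ρo 3 * ((4 * SS e d - N4 e d : ℤ) : ℝ) := by
  have hN := N4_eq hk hsq h1 he hd hde (by rw [h17, h17d]; norm_num)
  have hc : ∀ A, ((rc d (cG A) : ℤ) : ℝ) = 1 * ((rc d A : ℤ) : ℝ) := by
    intro A; rw [rc_cG, hneg]; push_cast; ring
  have p1 := ell_prop' (n := e) hρe (rc_par hkd hsqd h1d hd) (ε := 1) (Or.inl rfl) hee hc he gh
  have p2 := ell_prop (n := d) (m := 3) hρo muh_par (ε := -1) (Or.inr rfl) hoo muh_cG' hd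
    (by norm_num)
  rw [ell_cast muh_par (by norm_num) (ell_mu_three (by norm_num)),
    ell_cast muh_par hd (ell_mu_rc hkd hsqd h1d hd h17d)] at p2
  rw [ell_cast (rc_par hkd hsqd h1d hd) he rfl] at p1
  have hN' : ((N4 e d : ℤ) : ℝ) = - ((∑ x : (ZMod e)ˣ, chi x * rc d (gam he x) : ℤ) : ℝ)
      + 4 * ((SS e d : ℤ) : ℝ) := by
    rw [hN]; push_cast; ring
  rw [Int.cast_sub, Int.cast_mul, hN']
  push_cast at p1 p2 ⊢
  linear_combination ell ρo 3 * p1 - ell ρe e * p2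

end Vale.Agent.P014.H74
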