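import Vale.Agent.P014.H74.A4c

/-!
# Module A, part 4d: the elementary sums
-/

set_option linter.unusedSectionVars false
set_option linter.style.haveILetI false

namespace Vale.Agent.P014.H74

open Finset

theorem AH_units {n : ℕ} [NeZero n] : AH n = ∑ x : (ZMod n)ˣ, chi x * bz x := by
  unfold AH
  rw [← sum_units (fun b => b)]
  exact Finset.sum_congr rfl fun b _ => mul_comm _ _

/-- the half sum in terms of `AH` -/
theorem Shalf_AH {n : ℕ} (hk : Odd n) (hsq : Squarefree n) (h1 : n ≠ 1) :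
    (n : ℤ) * Shalf n = 2 * (2 - jacobiSym 2 n) * AH n := by
  have hn0 : n ≠ 0 := hsq.ne_zero
  haveI : NeZero n := ⟨hn0⟩
  have hnpos : (0 : ℤ) < n := by positivity
  have hco : Nat.Coprime 2 n := Nat.coprime_two_left.mpr hk
  set s2 : (ZMod n)ˣ := ZMod.unitOfCoprime 2 hco with hs2
  have hchi : chi s2 = jacobiSym 2 n := chi_of_cast _ 2 (by simp [s2])
  have key : ∀ x : (ZMod n)ˣ, (n : ℤ) * (2 * bz x - n).sign = 4 * bz x - n - 2 * bz (s2 * x) := by
    intro x
    have h0 := bz_nonneg x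
    have h2 := bz_lt x
    have h3 := bz_nonneg (s2 * x)
    have h4 := bz_lt (s2 * x)
    have h5 : (n : ℤ) ∣ bz (s2 * x) - 2 * bz x := by
      rw [← ZMod.intCast_zmod_eq_zero_iff_dvd]
      push_cast
      rw [bz_cast, bz_cast]
      simp [s2]
    obtain ⟨k, hk'⟩ := h5
    have h6 : 2 * bz x ≠ n := by
      intro h
      rcases hk with ⟨m, hm⟩
      have : (n : ℤ) = 2 * m + 1 := by exact_mod_cast hm
      omega
    rcases lt_or_gt_of_ne h6 with h | h
    · rw [Int.sign_eq_neg_one_of_neg (by omega)]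
      have hk0 : k = 0 := by nlinarith
      rw [hk0] at hk'; linarith
    · rw [Int.sign_eq_one_of_pos (by omega)]
      have hk0 : k = -1 := by
        have h7 : (n : ℤ) * k < 0 := by linarith
        have h8 : k < 0 := by nlinarith
        have h9 : -(2 * (n : ℤ)) < n * k := by linarith
        have h10 : -2 < k := by nlinarith
        omega
      rw [hk0] at hk'; linarith
  rw [shalf_units, Finset.mul_sum]
  have e1 : ∀ x : (ZMod n)ˣ, (n : ℤ) * (chi x * (2 * bz x - n).sign) =
      4 * (chi x * bz x) - n * chi x - 2 * (chi x * bz (s2 * x)) := by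
    intro x
    have := key x
    linear_combination chi x * this
  rw [Finset.sum_congr rfl (fun x _ => e1 x), Finset.sum_sub_distrib, Finset.sum_sub_distrib,
    ← Finset.mul_sum, ← Finset.mul_sum, ← Finset.mul_sum, sum_chi hk hsq h1, ← AH_units]
  have e2 : ∑ x : (ZMod n)ˣ, chi x * bz (s2 * x) = jacobiSym 2 n * AH n := by
    rw [AH_units, ← Equiv.sum_comp (Equiv.mulLeft s2) (fun x => chi x * bz x), Finset.mul_sum]
    refine Finset.sum_congr rfl fun x _ => ?_
    have h3 : chi s2 * chi s2 = 1 := chi_sq s2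
    change chi x * bz (s2 * x) = jacobiSym 2 n * (chi (s2 * x) * bz (s2 * x))
    rw [chi_mul, ← hchi]
    linear_combination (-(chi x * bz (s2 * x))) * h3
  rw [e2]; ring

section

variable {d e : ℕ} [NeZero d] [NeZero e]

instance : NeZero (e * d) := ⟨mul_ne_zero (NeZero.ne e) (NeZero.ne d)⟩

/-- the Chinese remainder theorem for units -/
noncomputable def EQ (h : Nat.Coprime e d) : (ZMod (e * d))ˣ ≃* (ZMod e)ˣ × (ZMod d)ˣ :=
  (Units.mapEquiv (ZMod.chineseRemainder h).toMulEquiv).trans MulEquiv.prodUnits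

theorem EQ_fst (h : Nat.Coprime e d) (z : (ZMod (e * d))ˣ) :
    ((bz z : ℤ) : ZMod e) = ((EQ h z).1 : ZMod e) := by
  have h1 : ((EQ h z).1 : ZMod e) = (ZMod.chineseRemainder h (z : ZMod (e * d))).1 := rfl
  rw [h1, ← bz_cast z, map_intCast]
  simp

theorem EQ_snd (h : Nat.Coprime e d) (z : (ZMod (e * d))ˣ) :
    ((bz z : ℤ) : ZMod d) = ((EQ h z).2 : ZMod d) := by
  have h1 : ((EQ h z).2 : ZMod d) = (ZMod.chineseRemainder h (z : ZMod (e * d))).2 := rfl
  rw [h1, ← bz_cast z, map_intCast]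
  simp

theorem chi_EQ (h : Nat.Coprime e d) (z : (ZMod (e * d))ˣ) :
    chi z = chi (EQ h z).1 * chi (EQ h z).2 := by
  rw [chi_of_cast (EQ h z).1 (bz z) (EQ_fst h z), chi_of_cast (EQ h z).2 (bz z) (EQ_snd h z)]
  unfold chi
  rw [jacobiSym.mul_right]

/-- `n SS = 2 AH` -/
theorem SS_AH (he4 : e % 4 = 1) (hd4 : d % 4 = 3) (hsqe : Squarefree e) (hsqd : Squarefree d)
    (h1e : e ≠ 1) (h : Nat.Coprime e d) :
    ((e * d : ℕ) : ℤ) * SS e d = 2 * AH (e * d) := by
  have hke : Odd e := Nat.odd_iff.mpr (by omega)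
  have hkd : Odd d := Nat.odd_iff.mpr (by omega)
  have h1d : d ≠ 1 := by omega
  have hepos : (0 : ℤ) < e := dpos
  have hdpos : (0 : ℤ) < d := dpos
  set sde : (ZMod e)ˣ := ZMod.unitOfCoprime d h.symm with hsde
  set sed : (ZMod d)ˣ := ZMod.unitOfCoprime e h with hsed
  have c1 : chi sde = jacobiSym d e := chi_of_cast _ d (by simp [sde])
  have c2 : chi sed = jacobiSym e d := chi_of_cast _ e (by simp [sed])
  have hrec : chi sde * chi sed = 1 := by
    rw [c1, c2, jacobiSym.quadratic_reciprocity_one_mod_four he4 hkd, ← c1]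
    exact chi_sq _
  have hneg : jacobiSym (-1) d = -1 := by
    rw [jacobiSym.at_neg_one hkd, ZMod.χ₄_nat_three_mod_four hd4]
  -- the class attached to the pair
  let Q : (ZMod e)ˣ × (ZMod d)ˣ ≃ (ZMod (e * d))ˣ :=
    ((Equiv.prodCongr (Equiv.mulLeft sde) (Equiv.mulLeft (-sed))).trans (EQ h).symm.toEquiv)
  have hQ : ∀ x y, EQ h (Q (x, y)) = (sde * x, -sed * y) := by
    intro x y
    change EQ h ((EQ h).symm (sde * x, -sed * y)) = _
    rw [MulEquiv.apply_symm_apply]
  have hchi : ∀ x y, chi (Q (x, y)) = - (chi x * chi y) := by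
    intro x y
    rw [chi_EQ h, hQ]
    dsimp only
    rw [chi_mul, chi_mul, chi_neg, hneg]
    linear_combination (- chi x * chi y) * hrec
  have key : ∀ x y, ((e * d : ℕ) : ℤ) * (d * bz x - bz y * e).sign =
      ((e * d : ℕ) : ℤ) - 2 * bz (Q (x, y)) + 2 * (d * bz x - bz y * e) := by
    intro x y
    have h3 := bz_nonneg (Q (x, y))
    have h4 := bz_lt (Q (x, y))
    have hx0 := bz_pos h1e x
    have hx1 := bz_lt x
    have hy0 := bz_pos h1d y
    have hy1 := bz_lt y
    push_cast at h4 ⊢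
    have d1 : (e : ℤ) ∣ bz (Q (x, y)) - (d * bz x - bz y * e) := by
      rw [← ZMod.intCast_zmod_eq_zero_iff_dvd]
      push_cast
      rw [EQ_fst h, hQ, bz_cast]
      simp [sde]
    have d2 : (d : ℤ) ∣ bz (Q (x, y)) - (d * bz x - bz y * e) := by
      rw [← ZMod.intCast_zmod_eq_zero_iff_dvd]
      push_cast
      rw [EQ_snd h, hQ, bz_cast]
      simp [sed]
      ring
    have d3 : (e : ℤ) * d ∣ bz (Q (x, y)) - (d * bz x - bz y * e) :=
      IsCoprime.mul_dvd (Nat.isCoprime_iff_coprime.mpr h) d1 d2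
    obtain ⟨k, hk'⟩ := d3
    have hne : (d : ℤ) * bz x - bz y * e ≠ 0 := by
      intro h0
      have h5 : (e : ℤ) ∣ d * bz x := ⟨bz y, by linarith⟩
      have h6 : (e : ℤ) ∣ bz x := (Nat.isCoprime_iff_coprime.mpr h).dvd_of_dvd_mul_left h5
      have := Int.le_of_dvd hx0 h6
      omega
    have b1 : (d : ℤ) * bz x < e * d := by nlinarith
    have b2 : bz y * e < (e : ℤ) * d := by nlinarith
    have b3 : 0 < (d : ℤ) * bz x := by positivity
    have b4 : 0 < bz y * (e : ℤ) := by positivity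
    have hn : (0 : ℤ) < e * d := by positivity
    rcases lt_or_gt_of_ne hne with h0 | h0
    · rw [Int.sign_eq_neg_one_of_neg h0]
      have hk0 : k = 1 := by
        have a1 : 0 < (e : ℤ) * d * k := by linarith
        have a2 : 0 < k := by
          by_contra hcon; push Not at hcon; nlinarith
        have a3 : (e : ℤ) * d * k < 2 * (e * d) := by linarith
        have a4 : k < 2 := by nlinarith
        omega
      rw [hk0] at hk'; linarith
    · rw [Int.sign_eq_one_of_pos h0]
      have hk0 : k = 0 := by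
        have a1 : -((e : ℤ) * d) < (e : ℤ) * d * k := by linarith
        have a2 : -1 < k := by nlinarith
        have a3 : (e : ℤ) * d * k < (e * d) := by linarith
        have a4 : k < 1 := by nlinarith
        omega
      rw [hk0] at hk'; linarith
  have hA : AH (e * d) = ∑ x : (ZMod e)ˣ, ∑ y : (ZMod d)ˣ, - (chi x * chi y) * bz (Q (x, y)) := by
    rw [AH_units, ← Equiv.sum_comp Q (fun z => chi z * bz z), Fintype.sum_prod_type]
    refine Finset.sum_congr rfl fun x _ => Finset.sum_congr rfl fun y _ => ?_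
    rw [hchi]
  have s1 := sum_chi (d := e) hke hsqe h1e
  have s2 := sum_chi (d := d) hkd hsqd h1d
  unfold SS
  rw [Finset.mul_sum]
  have e1 : ∀ x : (ZMod e)ˣ, ((e * d : ℕ) : ℤ) * ∑ y : (ZMod d)ˣ, chi x * chi y *
      (d * bz x - bz y * e).sign = (((e * d : ℕ) : ℤ) * chi x + 2 * d * (chi x * bz x)) *
      (∑ y : (ZMod d)ˣ, chi y) - chi x * (2 * e * ∑ y : (ZMod d)ˣ, chi y * bz y) +
      2 * ∑ y : (ZMod d)ˣ, - (chi x * chi y) * bz (Q (x, y)) := by
    intro x
    rw [Finset.mul_sum, Finset.mul_sum, Finset.mul_sum, Finset.mul_sum, Finset.mul_sum,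
      ← Finset.sum_sub_distrib, ← Finset.sum_add_distrib]
    refine Finset.sum_congr rfl fun y _ => ?_
    have := key x y
    linear_combination chi x * chi y * this
  have e5 : ∑ x : (ZMod e)ˣ, chi x * (2 * e * ∑ y : (ZMod d)ˣ, chi y * bz y) = 0 := by
    rw [← Finset.sum_mul, s1, zero_mul]
  rw [Finset.sum_congr rfl (fun x _ => e1 x), Finset.sum_add_distrib, Finset.sum_sub_distrib, s2,
    e5, ← Finset.mul_sum, ← hA]
  simp

end

end Vale.Agent.P014.H74
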