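import Vale.Agent.P014.H74.A4d

/-!
# Module A, part 5a: the sum over a residue class of a matrix modulo `d`
-/

set_option linter.unusedSectionVars false
set_option linter.style.haveILetI false

namespace Vale.Agent.P014.H74

open Finset

/-- the sum of the symbols of the solutions of `α + β x ≡ α' + β' x ≡ 0` modulo `d` -/
def PP (d : ℕ) (α β α' β' : ℤ) : ℤ :=
  ∑ x ∈ range d, jacobiSym (x : ℤ) d *
    (if (d : ℤ) ∣ α + β * x ∧ (d : ℤ) ∣ α' + β' * x then 1 else 0)

theorem PP_units {d : ℕ} [NeZero d] (α β α' β' : ℤ) : PP d α β α' β' =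
    ∑ x : (ZMod d)ˣ, chi x * (if (d : ℤ) ∣ α + β * bz x ∧ (d : ℤ) ∣ α' + β' * bz x then 1 else 0) :=
  sum_units (fun x => if (d : ℤ) ∣ α + β * x ∧ (d : ℤ) ∣ α' + β' * x then 1 else 0)

theorem PP_one (α β α' β' : ℤ) : PP 1 α β α' β' = 1 := by
  simp [PP]

theorem dvd_congr {d x y : ℤ} (α β : ℤ) (h : d ∣ x - y) : d ∣ α + β * x ↔ d ∣ α + β * y := by
  have e : α + β * x = α + β * y + β * (x - y) := by ring
  rw [e]
  exact dvd_add_left (Dvd.dvd.mul_left h _)

theorem PP_mul {a b : ℕ} (ha : a ≠ 0) (hb : b ≠ 0) (h : Nat.Coprime a b) (α β α' β' : ℤ) :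
    PP (a * b) α β α' β' = PP a α β α' β' * PP b α β α' β' := by
  haveI : NeZero a := ⟨ha⟩
  haveI : NeZero b := ⟨hb⟩
  rw [PP_units, PP_units, PP_units, Finset.sum_mul_sum, ← Equiv.sum_comp (EQ h).symm.toEquiv,
    Fintype.sum_prod_type]
  refine Finset.sum_congr rfl fun x _ => Finset.sum_congr rfl fun y _ => ?_
  set z : (ZMod (a * b))ˣ := (EQ h).symm (x, y) with hz
  change chi z * _ = _
  have hE : EQ h z = (x, y) := by rw [hz, MulEquiv.apply_symm_apply]
  have hx : (a : ℤ) ∣ bz z - bz x := by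
    rw [← ZMod.intCast_zmod_eq_zero_iff_dvd]
    push_cast
    rw [EQ_fst h, hE, bz_cast]; simp
  have hy : (b : ℤ) ∣ bz z - bz y := by
    rw [← ZMod.intCast_zmod_eq_zero_iff_dvd]
    push_cast
    rw [EQ_snd h, hE, bz_cast]; simp
  have hd : ∀ t : ℤ, ((a * b : ℕ) : ℤ) ∣ t ↔ (a : ℤ) ∣ t ∧ (b : ℤ) ∣ t := by
    intro t
    push_cast
    constructor
    · intro h'; exact ⟨(Dvd.intro _ rfl).trans h', (Dvd.intro_left _ rfl).trans h'⟩
    · intro h'; exact IsCoprime.mul_dvd (Nat.isCoprime_iff_coprime.mpr h) h'.1 h'.2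
  rw [chi_EQ h, hE]
  dsimp only
  simp only [hd]
  change chi x * chi y * (if ((a : ℤ) ∣ α + β * bz z ∧ (b : ℤ) ∣ α + β * bz z) ∧
    ((a : ℤ) ∣ α' + β' * bz z ∧ (b : ℤ) ∣ α' + β' * bz z) then 1 else 0) = _
  simp only [dvd_congr α β hx, dvd_congr α β hy, dvd_congr α' β' hx, dvd_congr α' β' hy]
  split_ifs with h1 h2 h3 h2 h3 <;> first | ring1 | (exfalso; tauto)

theorem PP_swap (d : ℕ) (α β α' β' : ℤ) : PP d α β α' β' = PP d α' β' α β := by
  unfold PP
  refine Finset.sum_congr rfl fun x _ => ?_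
  simp only [and_comm]

section prime

variable {q : ℕ} [Fact q.Prime]

theorem qprime : Prime (q : ℤ) := Nat.prime_iff_prime_int.mp Fact.out

theorem PP_aux {α β α' β' : ℤ} (hα : ¬ (q : ℤ) ∣ α) (hβ : ¬ (q : ℤ) ∣ β)
    (hdet : (q : ℤ) ∣ α * β' - α' * β) : PP q α β α' β' = jacobiSym (-(α * β)) q := by
  have hα0 : ((α : ℤ) : ZMod q) ≠ 0 := by
    rwa [Ne, ZMod.intCast_zmod_eq_zero_iff_dvd]
  have hβ0 : ((β : ℤ) : ZMod q) ≠ 0 := by
    rwa [Ne, ZMod.intCast_zmod_eq_zero_iff_dvd]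
  set x0 : (ZMod q)ˣ := Units.mk0 (-(α : ZMod q) / (β : ZMod q)) (div_ne_zero (neg_ne_zero.mpr hα0) hβ0)
    with hx0
  set ub : (ZMod q)ˣ := Units.mk0 (β : ZMod q) hβ0 with hub
  rw [PP_units]
  have hcond : ∀ x : (ZMod q)ˣ, ((q : ℤ) ∣ α + β * bz x ∧ (q : ℤ) ∣ α' + β' * bz x) ↔ x = x0 := by
    intro x
    have h1 : (q : ℤ) ∣ α + β * bz x ↔ x = x0 := by
      rw [← ZMod.intCast_zmod_eq_zero_iff_dvd]
      push_cast
      rw [bz_cast, Units.ext_iff, hx0, Units.val_mk0, eq_div_iff hβ0]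
      constructor
      · intro h; linear_combination h
      · intro h; linear_combination h
    constructor
    · intro h; exact h1.mp h.1
    · intro h
      have h2 := h1.mpr h
      refine ⟨h2, ?_⟩
      have h3 : (q : ℤ) ∣ β * (α' + β' * bz x) := by
        have e : β * (α' + β' * bz x) = β' * (α + β * bz x) - (α * β' - α' * β) := by ring
        rw [e]; exact dvd_sub (Dvd.dvd.mul_left h2 _) hdet
      exact (qprime.dvd_or_dvd h3).resolve_left hβ
  rw [Finset.sum_eq_single x0]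
  · rw [if_pos ((hcond x0).mpr rfl), mul_one]
    have h1 : chi x0 = chi (x0 * (ub * ub)) := by rw [chi_mul, chi_mul, chi_sq, mul_one]
    rw [h1]
    refine chi_of_cast _ _ ?_
    have e1 : (x0 : ZMod q) = -(α : ZMod q) / (β : ZMod q) := rfl
    have e2 : (ub : ZMod q) = (β : ZMod q) := rfl
    rw [Units.val_mul, Units.val_mul, e1, e2]
    push_cast
    field_simp
  · intro x _ hx
    rw [if_neg (fun h => hx ((hcond x).mp h)), mul_zero]
  · intro h; exact absurd (Finset.mem_univ _) h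

theorem PP_zero_left {α β α' β' : ℤ} (hα : ¬ (q : ℤ) ∣ α) (hβ : (q : ℤ) ∣ β) :
    PP q α β α' β' = 0 := by
  unfold PP
  refine Finset.sum_eq_zero fun x _ => ?_
  rw [if_neg, mul_zero]
  rintro ⟨h, -⟩
  exact hα ((dvd_add_left (Dvd.dvd.mul_right hβ _)).mp h)

theorem PP_zero_right {α β α' β' : ℤ} (hα : (q : ℤ) ∣ α) (hβ : ¬ (q : ℤ) ∣ β) :
    PP q α β α' β' = 0 := by
  rw [PP_units]
  refine Finset.sum_eq_zero fun x _ => ?_
  rw [if_neg, mul_zero]
  rintro ⟨h, -⟩
  have h1 := (dvd_add_right hα).mp h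
  have h2 := (qprime.dvd_or_dvd h1).resolve_left hβ
  have h3 := bz_coprime x
  exact qprime.not_isUnit (h3.symm.isUnit_of_dvd' dvd_rfl h2)

theorem jac_zero {a : ℤ} (h : (q : ℤ) ∣ a) : jacobiSym a q = 0 := by
  have h1 : a ≡ 0 [ZMOD q] := (Int.modEq_zero_iff_dvd).mpr h
  rw [jacobiSym.mod_left' h1]
  exact jacobiSym.zero_left (Nat.Prime.one_lt Fact.out)

theorem PP_prime {α β α' β' : ℤ} (hdet : (q : ℤ) ∣ α * β' - α' * β)
    (hne : ¬ ((q : ℤ) ∣ α ∧ (q : ℤ) ∣ β ∧ (q : ℤ) ∣ α' ∧ (q : ℤ) ∣ β')) :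
    2 * PP q α β α' β' = (if (q : ℤ) ∣ α * β' then 2 else 1) *
      (jacobiSym (-(α * β)) q + jacobiSym (-(α' * β')) q) := by
  have hdet' : (q : ℤ) ∣ α' * β - α * β' := by rw [← neg_sub, dvd_neg]; exact hdet
  have J0 : ∀ {a b : ℤ}, (q : ℤ) ∣ a ∨ (q : ℤ) ∣ b → jacobiSym (-(a * b)) q = 0 := by
    intro a b h
    apply jac_zero
    rw [dvd_neg]
    rcases h with h | h
    · exact Dvd.dvd.mul_right h _
    · exact Dvd.dvd.mul_left h _
  by_cases hα : (q : ℤ) ∣ α
  · by_cases hβ : (q : ℤ) ∣ β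
    · rw [if_pos (Dvd.dvd.mul_right hα _), J0 (Or.inl hα)]
      by_cases hα' : (q : ℤ) ∣ α'
      · have hβ' : ¬ (q : ℤ) ∣ β' := fun h => hne ⟨hα, hβ, hα', h⟩
        rw [PP_swap, PP_zero_right hα' hβ', J0 (Or.inl hα')]; ring
      · by_cases hβ' : (q : ℤ) ∣ β'
        · rw [PP_swap, PP_zero_left hα' hβ', J0 (Or.inr hβ')]; ring
        · rw [PP_swap, PP_aux hα' hβ' hdet']; ring
    · have hα' : (q : ℤ) ∣ α' := by
        have h1 : (q : ℤ) ∣ α' * β := by
          have := dvd_add hdet' (Dvd.dvd.mul_right hα β')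
          simpa using this
        exact (qprime.dvd_or_dvd h1).resolve_right hβ
      rw [PP_zero_right hα hβ, J0 (Or.inl hα), J0 (Or.inl hα')]; ring
  · by_cases hβ : (q : ℤ) ∣ β
    · have hβ' : (q : ℤ) ∣ β' := by
        have h1 : (q : ℤ) ∣ α * β' := by
          have := dvd_add hdet (Dvd.dvd.mul_left hβ α')
          simpa using this
        exact (qprime.dvd_or_dvd h1).resolve_left hα
      rw [PP_zero_left hα hβ, J0 (Or.inr hβ), J0 (Or.inr hβ')]; ring
    · by_cases hβ' : (q : ℤ) ∣ β'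
      · rw [if_pos (Dvd.dvd.mul_left hβ' _), PP_aux hα hβ hdet, J0 (a := α') (Or.inr hβ')]; ring
      · have hαβ : ¬ (q : ℤ) ∣ α * β' := fun h => (qprime.dvd_or_dvd h).elim hα hβ'
        have hα' : ¬ (q : ℤ) ∣ α' := by
          intro h
          apply hαβ
          have := dvd_add hdet (Dvd.dvd.mul_right h β)
          simpa using this
        rw [if_neg hαβ]
        have e1 := PP_aux hα hβ hdet
        have e2 := PP_aux hα' hβ' hdet'
        rw [PP_swap] at e2
        rw [← e1, ← e2]; ring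

end prime

/-- the divisor sum attached to the pair of symbols -/
def DS (d : ℕ) (a b : ℤ) : ℤ := ∑ U ∈ d.divisors, jacobiSym a U * jacobiSym b (d / U)

theorem sum_div_mul {m k : ℕ} (h : Nat.Coprime m k) (f : ℕ → ℤ) :
    ∑ U ∈ (m * k).divisors, f U = ∑ U ∈ m.divisors, ∑ V ∈ k.divisors, f (U * V) := by
  rw [Nat.divisors_mul, Finset.mul_def, Finset.sum_image, Finset.sum_product]
  exact h.mul_injOn_divisors

theorem DS_mul {m k : ℕ} (h : Nat.Coprime m k) (a b : ℤ) :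
    DS (m * k) a b = DS m a b * DS k a b := by
  unfold DS
  rw [sum_div_mul h, Finset.sum_mul_sum]
  refine Finset.sum_congr rfl fun U hU => Finset.sum_congr rfl fun V hV => ?_
  have hU' := Nat.mem_divisors.mp hU
  have hV' := Nat.mem_divisors.mp hV
  have hU0 : U ≠ 0 := ne_zero_of_dvd_ne_zero hU'.2 hU'.1
  have hV0 : V ≠ 0 := ne_zero_of_dvd_ne_zero hV'.2 hV'.1
  have h1 : m / U ≠ 0 := Nat.div_ne_zero_iff_of_dvd hU'.1 |>.mpr ⟨hU'.2, hU0⟩
  have h2 : k / V ≠ 0 := Nat.div_ne_zero_iff_of_dvd hV'.1 |>.mpr ⟨hV'.2, hV0⟩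
  rw [Nat.mul_div_mul_comm hU'.1 hV'.1, jacobiSym.mul_right' _ hU0 hV0,
    jacobiSym.mul_right' _ h1 h2]
  ring

theorem DS_prime {q : ℕ} (hq : q.Prime) (a b : ℤ) :
    DS q a b = jacobiSym a q + jacobiSym b q := by
  unfold DS
  rw [hq.divisors, Finset.sum_pair hq.one_lt.ne]
  rw [jacobiSym.one_right, Nat.div_one, Nat.div_self hq.pos, jacobiSym.one_right]
  ring

/-- the product formula for the sum over a residue class -/
theorem PP_formula (d : ℕ) (hk : Odd d) (hsq : Squarefree d) (α β α' β' : ℤ)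
    (hdet : (d : ℤ) ∣ α * β' - α' * β)
    (hne : ∀ q : ℕ, q.Prime → q ∣ d → ¬ ((q : ℤ) ∣ α ∧ (q : ℤ) ∣ β ∧ (q : ℤ) ∣ α' ∧ (q : ℤ) ∣ β')) :
    2 ^ d.primeFactors.card * PP d α β α' β' =
      2 ^ (d.primeFactors.filter (fun q : ℕ => (q : ℤ) ∣ α * β')).card *
        DS d (-(α * β)) (-(α' * β')) := by
  induction d using Nat.strong_induction_on with
  | _ d ih =>
    by_cases h1 : d = 1
    · subst h1
      simp [PP_one, DS]
    · obtain ⟨q, hq, m, rfl⟩ := Nat.exists_prime_and_dvd h1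
      haveI : Fact q.Prime := ⟨hq⟩
      have hco : Nat.Coprime q m := (Nat.squarefree_mul_iff.mp hsq).1
      have hm0 : m ≠ 0 := by rintro rfl; simp at hsq
      have hm : m < q * m := by
        have := hq.two_le
        have : 0 < m := Nat.pos_of_ne_zero hm0
        nlinarith
      have i1 := ih m hm (Nat.Odd.of_mul_right hk) (Nat.squarefree_mul_iff.mp hsq).2.2
        ((by push_cast; exact Dvd.intro_left _ rfl : (m : ℤ) ∣ ((q * m : ℕ) : ℤ)).trans hdet)
        (fun p hp hpm => hne p hp (Dvd.dvd.mul_left hpm q))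
      have i2 := PP_prime (q := q) (α := α) (β := β) (α' := α') (β' := β')
        ((by push_cast; exact Dvd.intro _ rfl : (q : ℤ) ∣ ((q * m : ℕ) : ℤ)).trans hdet)
        (hne q hq (Dvd.intro _ rfl))
      have hqm : q ∉ m.primeFactors := by
        intro h
        have h2 := (Nat.mem_primeFactors.mp h).2.1
        exact hq.one_lt.ne' (Nat.Coprime.eq_one_of_dvd hco h2)
      have hpf : (q * m).primeFactors = insert q m.primeFactors := by
        rw [Nat.primeFactors_mul hq.ne_zero hm0, hq.primeFactors]; rfl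
      rw [hpf, Finset.card_insert_of_notMem hqm, PP_mul hq.ne_zero hm0 hco, DS_mul hco,
        DS_prime hq, Finset.filter_insert]
      have e : 2 ^ (m.primeFactors.card + 1) * (PP q α β α' β' * PP m α β α' β') =
        (2 * PP q α β α' β') * (2 ^ m.primeFactors.card * PP m α β α' β') := by ring
      rw [e, i1, i2]
      by_cases hd : (q : ℤ) ∣ α * β'
      · rw [if_pos hd, if_pos hd, Finset.card_insert_of_notMem (by
          intro h; exact hqm (Finset.mem_filter.mp h).1)]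
        ring
      · rw [if_neg hd, if_neg hd]; ring

end Vale.Agent.P014.H74
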