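import Vale.Agent.P014.H74.A5a

/-!
# Module A, part 5b: the crossing numbers as divisor sums
-/

set_option linter.unusedSectionVars false
set_option linter.style.haveILetI false

namespace Vale.Agent.P014.H74

open Finset

/-- the crossing matrices of determinant `D` -/
def SM (D : ℤ) : Set M4 := {M | M.det = D ∧ 0 < M.X * M.v ∧ M.w * M.Y < 0}

theorem SM_finite (D : ℤ) : (SM D).Finite := by
  refine (M4.box_finite D.natAbs).subset ?_
  rintro M ⟨h1, h2, h3⟩
  have h1' : M.X * M.v - 17 * M.w * M.Y = D := h1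
  have hX : M.X ≠ 0 := by rintro h; rw [h] at h2; simp at h2
  have hv : M.v ≠ 0 := by rintro h; rw [h] at h2; simp at h2
  have hw : M.w ≠ 0 := by rintro h; rw [h] at h3; simp at h3
  have hY : M.Y ≠ 0 := by rintro h; rw [h] at h3; simp at h3
  have a1 := Int.one_le_abs hX
  have a2 := Int.one_le_abs hv
  have a3 := Int.one_le_abs hw
  have a4 := Int.one_le_abs hY
  have e1 : |M.X| * |M.v| = M.X * M.v := by rw [← abs_mul, abs_of_pos h2]
  have e2 : |M.w| * |M.Y| = -(M.w * M.Y) := by rw [← abs_mul, abs_of_neg h3]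
  have hD : |M.X| * |M.v| + 17 * (|M.w| * |M.Y|) = D := by rw [e1, e2]; linarith
  have hDn : (D.natAbs : ℤ) = D := by
    rw [Int.natCast_natAbs, abs_of_pos]
    nlinarith
  have b1 : 0 < |M.w| * |M.Y| := by positivity
  have b2 : 0 < |M.X| * |M.v| := by positivity
  refine ⟨?_, ?_, ?_, ?_⟩ <;> rw [hDn] <;> nlinarith

/-- the crossing matrices of determinant `D` as a finite set -/
noncomputable def SF (D : ℤ) : Finset M4 := (SM_finite D).toFinset

theorem mem_SF {D : ℤ} {M : M4} : M ∈ SF D ↔ M.det = D ∧ 0 < M.X * M.v ∧ M.w * M.Y < 0 := by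
  unfold SF; rw [Set.Finite.mem_toFinset]; rfl

/-- the crossing number as a finite sum -/
theorem Icr_sum (c e b d : ℤ) : Icr c e b d = ∑ M ∈ SF (e * d), -2 * (M.w * M.v).sign *
    ((if e ∣ M.X + (17 * M.w) * c ∧ e ∣ M.Y + M.v * c then 1 else 0) *
     (if d ∣ M.Y + (-M.X) * b ∧ d ∣ M.v + (-17 * M.w) * b then 1 else 0)) := by
  classical
  unfold Icr
  rw [finsum_eq_sum_of_support_subset (s := SF (e * d))]
  · refine Finset.sum_congr rfl fun M hM => ?_
    rw [mem_SF] at hM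
    have hiff : Cr c e b d M ↔ (e ∣ M.X + (17 * M.w) * c ∧ e ∣ M.Y + M.v * c) ∧
        (d ∣ M.Y + (-M.X) * b ∧ d ∣ M.v + (-17 * M.w) * b) := by
      unfold Cr
      rw [show M.X + 17 * c * M.w = M.X + (17 * M.w) * c by ring,
        show M.Y + c * M.v = M.Y + M.v * c by ring,
        show M.Y - b * M.X = M.Y + (-M.X) * b by ring,
        show M.v - 17 * b * M.w = M.v + (-17 * M.w) * b by ring]
      tauto
    simp only [hiff]
    split_ifs <;> first | ring1 | (exfalso; tauto)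
  · intro M hM
    rw [Function.mem_support] at hM
    have hC : Cr c e b d M := by
      by_contra h; exact hM (if_neg h)
    rw [Finset.mem_coe, mem_SF]
    exact ⟨hC.1, hC.2.2.2.2.2.1, hC.2.2.2.2.2.2⟩

/-- the weight of a matrix -/
def Wt (d1 d2 : ℕ) (M : M4) : ℤ :=
  PP d1 M.X (17 * M.w) M.Y M.v * PP d2 M.Y (-M.X) M.v (-17 * M.w)

/-- the summand -/
def ff (d1 d2 : ℕ) (M : M4) : ℤ := -2 * (M.w * M.v).sign * Wt d1 d2 M

/-- the weighted sum over the crossing matrices of determinant `m n` -/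
noncomputable def ZZ (d1 d2 m : ℕ) : ℤ := ∑ M ∈ SF ((m * (d1 * d2) : ℕ) : ℤ), ff d1 d2 M

theorem N4_ZZ {e d : ℕ} [NeZero e] [NeZero d] : N4 e d = ZZ e d 1 := by
  unfold N4 ZZ
  have h1 : ∀ (x : (ZMod e)ˣ) (y : (ZMod d)ˣ), chi x * chi y * Icr (bz x) e (bz y) d =
      ∑ M ∈ SF (((1 * (e * d) : ℕ)) : ℤ), -2 * (M.w * M.v).sign *
      ((chi x * (if (e : ℤ) ∣ M.X + (17 * M.w) * bz x ∧ (e : ℤ) ∣ M.Y + M.v * bz x then 1 else 0)) *
      (chi y * (if (d : ℤ) ∣ M.Y + (-M.X) * bz y ∧ (d : ℤ) ∣ M.v + (-17 * M.w) * bz y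
        then 1 else 0))) := by
    intro x y
    rw [Icr_sum, Finset.mul_sum]
    push_cast
    rw [one_mul]
    refine Finset.sum_congr rfl fun M _ => ?_
    ring
  simp only [h1]
  have h2 : ∀ x : (ZMod e)ˣ, ∑ y : (ZMod d)ˣ, ∑ M ∈ SF (((1 * (e * d) : ℕ)) : ℤ),
      -2 * (M.w * M.v).sign *
      ((chi x * (if (e : ℤ) ∣ M.X + (17 * M.w) * bz x ∧ (e : ℤ) ∣ M.Y + M.v * bz x then 1 else 0)) *
      (chi y * (if (d : ℤ) ∣ M.Y + (-M.X) * bz y ∧ (d : ℤ) ∣ M.v + (-17 * M.w) * bz y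
        then 1 else 0))) = ∑ M ∈ SF (((1 * (e * d) : ℕ)) : ℤ), -2 * (M.w * M.v).sign *
      ((chi x * (if (e : ℤ) ∣ M.X + (17 * M.w) * bz x ∧ (e : ℤ) ∣ M.Y + M.v * bz x then 1 else 0)) *
      PP d M.Y (-M.X) M.v (-17 * M.w)) := by
    intro x
    rw [Finset.sum_comm]
    refine Finset.sum_congr rfl fun M _ => ?_
    rw [← Finset.mul_sum, ← Finset.mul_sum, PP_units]
  simp only [h2]
  rw [Finset.sum_comm]
  refine Finset.sum_congr rfl fun M _ => ?_
  unfold ff Wt
  rw [← Finset.mul_sum, ← Finset.sum_mul, PP_units (d := e)]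

/-! ### symmetries -/

theorem PP_neg (d : ℕ) (α β α' β' : ℤ) : PP d (-α) (-β) (-α') (-β') = PP d α β α' β' := by
  unfold PP
  refine Finset.sum_congr rfl fun x _ => ?_
  rw [show -α + -β * (x : ℤ) = -(α + β * x) by ring, show -α' + -β' * (x : ℤ) = -(α' + β' * x) by ring]
  simp only [dvd_neg]

theorem PP_cj (d : ℕ) [NeZero d] (α β α' β' : ℤ) :
    PP d α (-β) (-α') β' = jacobiSym (-1) d * PP d α β α' β' := by
  rw [PP_units, PP_units, ← Equiv.sum_comp (Equiv.neg _), Finset.mul_sum]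
  refine Finset.sum_congr rfl fun x _ => ?_
  change chi (-x) * (if (d : ℤ) ∣ α + -β * bz (-x) ∧ (d : ℤ) ∣ -α' + β' * bz (-x) then 1 else 0) = _
  have h := bz_neg x
  simp only [dvd_congr α (-β) h, dvd_congr (-α') β' h]
  rw [chi_neg, show α + -β * (-bz x) = α + β * bz x by ring,
    show -α' + β' * (-bz x) = -(α' + β' * bz x) by ring]
  simp only [dvd_neg]
  ring

/-- the negative -/
def nM (M : M4) : M4 := ⟨-M.X, -M.Y, -M.w, -M.v⟩

theorem ff_nM (d1 d2 : ℕ) (M : M4) : ff d1 d2 (nM M) = ff d1 d2 M := by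
  unfold ff Wt nM
  dsimp only
  have e1 := PP_neg d1 M.X (17 * M.w) M.Y M.v
  have e2 := PP_neg d2 M.Y (-M.X) M.v (-17 * M.w)
  rw [show -(17 * M.w) = 17 * -M.w by ring] at e1
  rw [show -(-17 * M.w) = -17 * -M.w by ring] at e2
  rw [e1, e2, neg_mul_neg]

theorem ff_cn {d1 d2 : ℕ} [NeZero d1] [NeZero d2]
    (h : jacobiSym (-1) d1 * jacobiSym (-1) d2 = -1) (M : M4) : ff d1 d2 (cn M) = ff d1 d2 M := by
  unfold ff Wt cn
  dsimp only
  have e1 := PP_cj d1 M.X (17 * M.w) M.Y M.v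
  have e2 := PP_cj d2 M.Y (-M.X) M.v (-17 * M.w)
  have e3 := PP_neg d2 M.Y (- -M.X) (-M.v) (-17 * M.w)
  rw [show -(17 * M.w) = 17 * -M.w by ring] at e1
  rw [show -(-17 * M.w) = -17 * -M.w by ring, neg_neg, neg_neg] at e3
  rw [neg_neg] at e2
  rw [neg_neg, e2] at e3
  have e4 : (-M.w * M.v).sign = - (M.w * M.v).sign := by rw [neg_mul, Int.sign_neg]
  rw [e1, e3, e4]
  linear_combination (2 * (M.w * M.v).sign * PP d1 M.X (17 * M.w) M.Y M.v *
    PP d2 M.Y (-M.X) M.v (-17 * M.w)) * h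

theorem nM_mem {D : ℤ} {M : M4} (h : M ∈ SF D) : nM M ∈ SF D := by
  rw [mem_SF] at h ⊢
  obtain ⟨h1, h2, h3⟩ := h
  unfold M4.det at h1
  refine ⟨?_, ?_, ?_⟩
  · simp only [nM, M4.det]; linarith
  · simp only [nM]; linarith
  · simp only [nM]; linarith

theorem cn_mem {D : ℤ} {M : M4} (h : M ∈ SF D) : cn M ∈ SF D := by
  rw [mem_SF] at h ⊢
  obtain ⟨h1, h2, h3⟩ := h
  unfold M4.det at h1
  refine ⟨?_, ?_, ?_⟩
  · simp only [cn, M4.det]; linarith
  · simp only [cn]; linarith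
  · simp only [cn]; linarith

theorem nM_nM (M : M4) : nM (nM M) = M := by ext <;> simp [nM]

/-- reduction to positive entries -/
theorem sum_piece {D : ℤ} (f : M4 → ℤ) (h1 : ∀ M, f (nM M) = f M) (h2 : ∀ M, f (cn M) = f M) :
    ∑ M ∈ SF D, f M = 4 * ∑ M ∈ (SF D).filter (fun M => 0 < M.X ∧ M.w < 0), f M := by
  have hX : ∀ M ∈ SF D, M.X ≠ 0 := by
    intro M hM h; rw [mem_SF] at hM; have := hM.2.1; rw [h] at this; simp at this
  have hw : ∀ M ∈ SF D, M.w ≠ 0 := by
    intro M hM h; rw [mem_SF] at hM; have := hM.2.2; rw [h] at this; simp at this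
  have e1 : ∑ M ∈ SF D, f M = 2 * ∑ M ∈ (SF D).filter (fun M => 0 < M.X), f M := by
    rw [← Finset.sum_filter_add_sum_filter_not (SF D) (fun M => 0 < M.X), two_mul]
    congr 1
    refine Finset.sum_nbij' nM nM ?_ ?_ (fun M _ => nM_nM M) (fun M _ => nM_nM M)
      (fun M _ => (h1 M).symm)
    · intro M hM
      rw [Finset.mem_filter] at hM ⊢
      refine ⟨nM_mem hM.1, ?_⟩
      have := hX M hM.1
      simp only [nM]; omega
    · intro M hM
      rw [Finset.mem_filter] at hM ⊢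
      refine ⟨nM_mem hM.1, ?_⟩
      simp only [nM]; omega
  have e2 : ∑ M ∈ (SF D).filter (fun M => 0 < M.X), f M =
      2 * ∑ M ∈ (SF D).filter (fun M => 0 < M.X ∧ M.w < 0), f M := by
    rw [← Finset.sum_filter_add_sum_filter_not ((SF D).filter (fun M => 0 < M.X)) (fun M => M.w < 0),
      two_mul, Finset.filter_filter]
    congr 1
    refine Finset.sum_nbij' cn cn ?_ ?_ (fun M _ => cn_cn M) (fun M _ => cn_cn M)
      (fun M _ => (h2 M).symm)
    · intro M hM
      rw [Finset.mem_filter, Finset.mem_filter] at hM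
      rw [Finset.mem_filter]
      refine ⟨cn_mem hM.1.1, ?_⟩
      have := hw M hM.1.1
      simp only [cn]
      refine ⟨hM.1.2, ?_⟩
      omega
    · intro M hM
      rw [Finset.mem_filter] at hM
      rw [Finset.mem_filter, Finset.mem_filter]
      refine ⟨⟨cn_mem hM.1, hM.2.1⟩, ?_⟩
      simp only [cn]
      omega
  rw [e1, e2]; ring

/-- the parametrisation by two divisors -/
theorem sum_param {D : ℕ} (f : M4 → ℤ) :
    ∑ M ∈ (SF D).filter (fun M => 0 < M.X ∧ M.w < 0), f M =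
      ∑ k ∈ (Finset.Ico 1 D).filter (fun k => 17 * k < D),
        ∑ p ∈ (D - 17 * k).divisorsAntidiagonal, ∑ r ∈ k.divisorsAntidiagonal,
          f ⟨p.1, r.2, -r.1, p.2⟩ := by
  simp only [Finset.sum_sigma']
  refine Finset.sum_nbij' (fun M => ⟨(-M.w * M.Y).toNat, ⟨(M.X.toNat, M.v.toNat),
      ((-M.w).toNat, M.Y.toNat)⟩⟩) (fun s => ⟨s.2.1.1, s.2.2.2, -s.2.2.1, s.2.1.2⟩) ?_ ?_ ?_ ?_ ?_
  · intro M hM
    rw [Finset.mem_filter, mem_SF] at hM
    obtain ⟨⟨h1, h2, h3⟩, hX, hw⟩ := hM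
    have h1' : M.X * M.v - 17 * M.w * M.Y = D := h1
    have hv : 0 < M.v := by
      by_contra hcon; push Not at hcon; nlinarith
    have hY : 0 < M.Y := by
      by_contra hcon; push Not at hcon; nlinarith
    obtain ⟨X, hX'⟩ := Int.eq_ofNat_of_zero_le hX.le
    obtain ⟨v, hv'⟩ := Int.eq_ofNat_of_zero_le hv.le
    obtain ⟨Y, hY'⟩ := Int.eq_ofNat_of_zero_le hY.le
    obtain ⟨w, hw'⟩ := Int.eq_ofNat_of_zero_le (show 0 ≤ -M.w by omega)
    have hw'' : M.w = -(w : ℤ) := by omega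
    rw [hX', hv', hw'', hY'] at h1'
    have h4 : X * v + 17 * (w * Y) = D := by
      have : (X : ℤ) * v + 17 * (w * Y) = D := by linarith
      exact_mod_cast this
    have hXpos : 0 < X := by rw [hX'] at hX; exact_mod_cast hX
    have hvpos : 0 < v := by rw [hv'] at hv; exact_mod_cast hv
    have hYpos : 0 < Y := by rw [hY'] at hY; exact_mod_cast hY
    have hwpos : 0 < w := by omega
    have hk : (-M.w * M.Y).toNat = w * Y := by
      rw [hw'', hY', neg_neg]
      exact_mod_cast Int.toNat_natCast (w * Y)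
    have hwY : 0 < w * Y := Nat.mul_pos hwpos hYpos
    have hXv : 0 < X * v := Nat.mul_pos hXpos hvpos
    simp only [Finset.mem_sigma, Finset.mem_filter, Finset.mem_Ico, Nat.mem_divisorsAntidiagonal]
    rw [hk, hX', hv', hY', hw', Int.toNat_natCast, Int.toNat_natCast, Int.toNat_natCast,
      Int.toNat_natCast]
    refine ⟨⟨⟨by omega, by omega⟩, by omega⟩, ⟨by omega, by omega⟩, rfl, by omega⟩
  · rintro ⟨k, ⟨X, v⟩, ⟨w, Y⟩⟩ hs
    simp only [Finset.mem_sigma, Finset.mem_filter, Finset.mem_Ico,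
      Nat.mem_divisorsAntidiagonal] at hs
    obtain ⟨⟨⟨hk1, hk2⟩, hk3⟩, ⟨h1, h2⟩, h3, h4⟩ := hs
    rw [Finset.mem_filter, mem_SF]
    have hX : 0 < X := Nat.pos_of_ne_zero (by rintro rfl; simp at h1; omega)
    have hv : 0 < v := Nat.pos_of_ne_zero (by rintro rfl; simp at h1; omega)
    have hw : 0 < w := Nat.pos_of_ne_zero (by rintro rfl; simp at h3; omega)
    have hY : 0 < Y := Nat.pos_of_ne_zero (by rintro rfl; simp at h3; omega)
    have hwY : 0 < w * Y := Nat.mul_pos hw hY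
    have hXv : 0 < X * v := Nat.mul_pos hX hv
    have h5 : X * v + 17 * (w * Y) = D := by omega
    have h5' : (X : ℤ) * v + 17 * (w * Y) = D := by exact_mod_cast h5
    refine ⟨⟨?_, ?_, ?_⟩, ?_, ?_⟩
    · simp only [M4.det]; linarith
    · dsimp only; exact_mod_cast hXv
    · dsimp only
      have : (0 : ℤ) < w * Y := by exact_mod_cast hwY
      linarith
    · dsimp only; exact_mod_cast hX
    · dsimp only; omega
  · intro M hM
    rw [Finset.mem_filter, mem_SF] at hM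
    obtain ⟨⟨h1, h2, h3⟩, hX, hw⟩ := hM
    have hv : 0 < M.v := by
      by_contra hcon; push Not at hcon; nlinarith
    have hY : 0 < M.Y := by
      by_contra hcon; push Not at hcon; nlinarith
    ext
    · exact Int.toNat_of_nonneg hX.le
    · exact Int.toNat_of_nonneg hY.le
    · change -(((-M.w).toNat : ℕ) : ℤ) = M.w
      rw [Int.toNat_of_nonneg (by omega)]; ring
    · exact Int.toNat_of_nonneg hv.le
  · rintro ⟨k, ⟨X, v⟩, ⟨w, Y⟩⟩ hs
    simp only [Finset.mem_sigma, Finset.mem_filter, Finset.mem_Ico,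
      Nat.mem_divisorsAntidiagonal] at hs
    obtain ⟨⟨⟨hk1, hk2⟩, hk3⟩, ⟨h1, h2⟩, h3, h4⟩ := hs
    have hk : (- -(w : ℤ) * (Y : ℤ)).toNat = k := by
      rw [neg_neg, ← h3]; exact_mod_cast Int.toNat_natCast (w * Y)
    simp only [neg_neg, Int.toNat_natCast] at hk ⊢
    rw [hk]
  · intro M hM
    rw [Finset.mem_filter, mem_SF] at hM
    obtain ⟨⟨h1, h2, h3⟩, hX, hw⟩ := hM
    have hv : 0 < M.v := by
      by_contra hcon; push Not at hcon; nlinarith
    have hY : 0 < M.Y := by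
      by_contra hcon; push Not at hcon; nlinarith
    congr 1
    ext
    · exact (Int.toNat_of_nonneg hX.le).symm
    · exact (Int.toNat_of_nonneg hY.le).symm
    · change M.w = -(((-M.w).toNat : ℕ) : ℤ)
      rw [Int.toNat_of_nonneg (by omega)]; ring
    · exact (Int.toNat_of_nonneg hv.le).symm

end Vale.Agent.P014.H74
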