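import Vale.Agent.P014.H74.A5b

/-!
# Module A, part 5c: `2^t Z = 8 SA`
-/

set_option linter.unusedSectionVars false
set_option linter.style.haveILetI false

namespace Vale.Agent.P014.H74

open Finset

theorem two_pow_Wt {d1 d2 m : ℕ} (hm : m = 1 ∨ m = 2) (hk : Odd (d1 * d2))
    (hsq : Squarefree (d1 * d2)) (h17 : Nat.Coprime 17 (d1 * d2)) {X Y W V : ℕ}
    (hD : X * V + 17 * (W * Y) = m * (d1 * d2)) :
    2 ^ (d1 * d2).primeFactors.card * Wt d1 d2 ⟨X, Y, -(W : ℤ), V⟩ =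
      2 ^ ((d1 * d2).primeFactors.filter (fun q => q ∣ W * Y)).card *
        (DS d1 (17 * X * W) (-(Y * V)) * DS d2 (X * Y) (-(17 * W * V))) := by
  have hco : Nat.Coprime d1 d2 := (Nat.squarefree_mul_iff.mp hsq).1
  have hsq1 : Squarefree d1 := (Nat.squarefree_mul_iff.mp hsq).2.1
  have hsq2 : Squarefree d2 := (Nat.squarefree_mul_iff.mp hsq).2.2
  have hk1 : Odd d1 := Nat.Odd.of_mul_left hk
  have hk2 : Odd d2 := Nat.Odd.of_mul_right hk
  have hDz : (X : ℤ) * V + 17 * (W * Y) = m * (d1 * d2) := by exact_mod_cast hD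
  -- no prime of n divides everything
  have hno : ∀ q : ℕ, q.Prime → q ∣ d1 * d2 → ¬ ((q : ℤ) ∣ X ∧ (q : ℤ) ∣ W ∧ (q : ℤ) ∣ Y ∧ (q : ℤ) ∣ V) := by
    rintro q hq hqn ⟨h1, h2, h3, h4⟩
    have g1 : q ∣ X := by exact_mod_cast h1
    have g2 : q ∣ W := by exact_mod_cast h2
    have g3 : q ∣ Y := by exact_mod_cast h3
    have g4 : q ∣ V := by exact_mod_cast h4
    have g5 : q * q ∣ m * (d1 * d2) := by
      rw [← hD]
      exact dvd_add (mul_dvd_mul g1 g4) (Dvd.dvd.mul_left (mul_dvd_mul g2 g3) _)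
    have hq2 : q ≠ 2 := by
      rintro rfl
      rcases hk with ⟨c, hc⟩
      omega
    have g6 : Nat.Coprime (q * q) m := by
      rcases hm with rfl | rfl
      · simp
      · exact Nat.coprime_two_right.mpr ((hq.odd_of_ne_two hq2).mul (hq.odd_of_ne_two hq2))
    have g7 : q * q ∣ d1 * d2 := g6.dvd_of_dvd_mul_left g5
    exact hq.one_lt.ne' (Nat.isUnit_iff.mp (hsq q g7))
  have hq17 : ∀ q : ℕ, q.Prime → q ∣ d1 * d2 → ¬ q ∣ 17 := by
    intro q hq hqn h
    have : q ∣ 1 := by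
      rw [← h17]; exact Nat.dvd_gcd h hqn
    exact hq.one_lt.ne' (Nat.dvd_one.mp this)
  have f1 := PP_formula d1 hk1 hsq1 X (17 * -(W : ℤ)) Y V
    (by
      have e : (X : ℤ) * V - Y * (17 * -(W : ℤ)) = d1 * (m * d2) := by linear_combination hDz
      rw [e]; exact Dvd.intro _ rfl)
    (by
      rintro q hq hqd ⟨h1, h2, h3, h4⟩
      refine hno q hq (Dvd.dvd.mul_right hqd _) ⟨h1, ?_, h3, h4⟩
      rw [mul_neg, dvd_neg] at h2
      have h2' : q ∣ 17 * W := by exact_mod_cast h2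
      have := (hq.dvd_mul.mp h2').resolve_left (hq17 q hq (Dvd.dvd.mul_right hqd _))
      exact_mod_cast this)
  have f2 := PP_formula d2 hk2 hsq2 Y (-(X : ℤ)) V (-17 * -(W : ℤ))
    (by
      have e : (Y : ℤ) * (-17 * -(W : ℤ)) - V * (-(X : ℤ)) = d2 * (m * d1) := by
        linear_combination hDz
      rw [e]; exact Dvd.intro _ rfl)
    (by
      rintro q hq hqd ⟨h1, h2, h3, h4⟩
      refine hno q hq (Dvd.dvd.mul_left hqd _) ⟨?_, ?_, h1, h3⟩
      · rwa [dvd_neg] at h2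
      rw [show (-17 : ℤ) * -(W : ℤ) = 17 * W by ring] at h4
      have h2' : q ∣ 17 * W := by exact_mod_cast h4
      have := (hq.dvd_mul.mp h2').resolve_left (hq17 q hq (Dvd.dvd.mul_left hqd _))
      exact_mod_cast this)
  -- the primes dividing k
  have c1 : ∀ q ∈ d1.primeFactors, ((q : ℤ) ∣ (X : ℤ) * V ↔ q ∣ W * Y) := by
    intro q hq
    have hqp := Nat.prime_of_mem_primeFactors hq
    have hqd := Nat.dvd_of_mem_primeFactors hq
    have h3 : q ∣ X * V + 17 * (W * Y) := by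
      rw [hD]; exact Dvd.dvd.mul_left (Dvd.dvd.mul_right hqd _) _
    have h4 : (q : ℤ) ∣ (X : ℤ) * V ↔ q ∣ X * V := by exact_mod_cast Int.natCast_dvd_natCast
    rw [h4]
    constructor
    · intro h
      have h5 := (Nat.dvd_add_right h).mp h3
      exact (hqp.dvd_mul.mp h5).resolve_left (hq17 q hqp (Dvd.dvd.mul_right hqd _))
    · intro h
      exact (Nat.dvd_add_left (Dvd.dvd.mul_left h _)).mp h3
  have c2 : ∀ q ∈ d2.primeFactors, ((q : ℤ) ∣ (Y : ℤ) * (-17 * -(W : ℤ)) ↔ q ∣ W * Y) := by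
    intro q hq
    have hqp := Nat.prime_of_mem_primeFactors hq
    have hqd := Nat.dvd_of_mem_primeFactors hq
    have e : (Y : ℤ) * (-17 * -(W : ℤ)) = ((17 * (W * Y) : ℕ) : ℤ) := by push_cast; ring
    rw [e, Int.natCast_dvd_natCast]
    constructor
    · intro h
      exact (hqp.dvd_mul.mp h).resolve_left (hq17 q hqp (Dvd.dvd.mul_left hqd _))
    · intro h
      exact Dvd.dvd.mul_left h _
  rw [Finset.filter_congr c1] at f1
  rw [Finset.filter_congr c2] at f2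
  have hdis : Disjoint d1.primeFactors d2.primeFactors := hco.disjoint_primeFactors
  rw [hco.primeFactors_mul, Finset.filter_union, Finset.card_union_of_disjoint hdis,
    Finset.card_union_of_disjoint (Finset.disjoint_filter_filter hdis), pow_add, pow_add]
  unfold Wt
  dsimp only
  have e : 2 ^ d1.primeFactors.card * 2 ^ d2.primeFactors.card *
      (PP d1 X (17 * -(W : ℤ)) Y V * PP d2 Y (-(X : ℤ)) V (-17 * -(W : ℤ))) =
      (2 ^ d1.primeFactors.card * PP d1 X (17 * -(W : ℤ)) Y V) *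
      (2 ^ d2.primeFactors.card * PP d2 Y (-(X : ℤ)) V (-17 * -(W : ℤ))) := by ring
  rw [e, f1, f2]
  rw [show -((X : ℤ) * (17 * -(W : ℤ))) = 17 * X * W by ring,
    show -((Y : ℤ) * -(X : ℤ)) = X * Y by ring,
    show -((V : ℤ) * (-17 * -(W : ℤ))) = -(17 * W * V) by ring]
  ring

theorem sd_left {d1 d2 U V : ℕ} (hco : Nat.Coprime d1 d2) (hU : U ∣ d1) (hV : V ∣ d2)
    (hU0 : 0 < U) : sd (U * V) d1 = (d1 / U) * V := by
  unfold sd
  have hV1 : Nat.Coprime V d1 := (Nat.Coprime.coprime_dvd_right hV hco).symm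
  have hg : (U * V).gcd d1 = U := by
    rw [Nat.Coprime.gcd_mul_right_cancel U hV1]
    exact Nat.gcd_eq_left hU
  obtain ⟨c, rfl⟩ := hU
  rw [Nat.lcm, hg, Nat.mul_div_cancel_left _ hU0,
    show U * V * (U * c) = U * (U * (c * V)) by ring, Nat.mul_div_cancel_left _ hU0,
    Nat.mul_div_cancel_left _ hU0]

theorem sd_right {d1 d2 U V : ℕ} (hco : Nat.Coprime d1 d2) (hU : U ∣ d1) (hV : V ∣ d2)
    (hV0 : 0 < V) : sd (U * V) d2 = U * (d2 / V) := by
  rw [mul_comm U V, sd_left hco.symm hV hU hV0, mul_comm]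

/-- the comparison of the symbols -/
theorem symbols {d1 d2 U V : ℕ} (hd1 : 0 < d1) (hd2 : 0 < d2)
    (hU : U ∣ d1) (hV : V ∣ d2)
    (j : jacobiSym 17 d1 * jacobiSym (-17) d2 = 1)
    (x v w y : ℤ) :
    jacobiSym (-17) ((d1 / U) * V) * (jacobiSym x (U * V) * jacobiSym v ((d1 / U) * (d2 / V))) *
      (jacobiSym w (U * (d2 / V)) * jacobiSym y ((d1 / U) * V)) =
    (jacobiSym (17 * x * w) U * jacobiSym (-(y * v)) (d1 / U)) *
      (jacobiSym (x * y) V * jacobiSym (-(17 * w * v)) (d2 / V)) := by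
  obtain ⟨c, rfl⟩ := hU
  obtain ⟨e, rfl⟩ := hV
  have hU0 : U ≠ 0 := by rintro rfl; simp at hd1
  have hc0 : c ≠ 0 := by rintro rfl; simp at hd1
  have hV0 : V ≠ 0 := by rintro rfl; simp at hd2
  have he0 : e ≠ 0 := by rintro rfl; simp at hd2
  rw [Nat.mul_div_cancel_left _ (Nat.pos_of_ne_zero hU0),
    Nat.mul_div_cancel_left _ (Nat.pos_of_ne_zero hV0)]
  rw [jacobiSym.mul_right' _ hU0 hc0, jacobiSym.mul_right' _ hV0 he0] at j
  rw [jacobiSym.mul_right' _ hc0 hV0, jacobiSym.mul_right' _ hU0 hV0, jacobiSym.mul_right' _ hc0 he0,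
    jacobiSym.mul_right' _ hU0 he0, jacobiSym.mul_right' _ hc0 hV0]
  have m1 : jacobiSym (17 * x * w) U = jacobiSym 17 U * jacobiSym x U * jacobiSym w U := by
    rw [jacobiSym.mul_left, jacobiSym.mul_left]
  have m2 : jacobiSym (-(y * v)) c = jacobiSym (-1) c * jacobiSym y c * jacobiSym v c := by
    rw [show -(y * v) = -1 * y * v by ring, jacobiSym.mul_left, jacobiSym.mul_left]
  have m3 : jacobiSym (x * y) V = jacobiSym x V * jacobiSym y V := jacobiSym.mul_left _ _ _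
  have m4 : jacobiSym (-(17 * w * v)) e = jacobiSym (-17) e * jacobiSym w e * jacobiSym v e := by
    rw [show -(17 * w * v) = -17 * w * v by ring, jacobiSym.mul_left, jacobiSym.mul_left]
  have m5 : jacobiSym (-17) c = jacobiSym (-1) c * jacobiSym 17 c := by
    rw [← jacobiSym.mul_left]; norm_num
  -- squares
  have sq : ∀ a b : ℤ, a * b = 1 → a = b := by
    intro a b h
    rcases Int.eq_one_or_neg_one_of_mul_eq_one h with h1 | h1
    · rw [h1] at h ⊢; linarith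
    · rw [h1] at h ⊢; linarith
  have k1 : jacobiSym 17 U * jacobiSym (-17) e = jacobiSym 17 c * jacobiSym (-17) V := by
    apply sq
    linear_combination j
  rw [m1, m2, m3, m4, m5]
  linear_combination (-(jacobiSym (-1) c * jacobiSym x U * jacobiSym x V * jacobiSym v c *
    jacobiSym v e * jacobiSym w U * jacobiSym w e * jacobiSym y c * jacobiSym y V)) * k1

theorem SU_eq {d1 d2 : ℕ} (hd1 : 0 < d1) (hd2 : 0 < d2) (hco : Nat.Coprime d1 d2)
    (j : jacobiSym 17 d1 * jacobiSym (-17) d2 = 1) (x k : ℕ) :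
    SU d1 d2 x k = ∑ p ∈ x.divisorsAntidiagonal, ∑ r ∈ k.divisorsAntidiagonal,
      DS d1 (17 * p.1 * r.1) (-(r.2 * p.2)) * DS d2 (p.1 * r.2) (-(17 * r.1 * p.2)) := by
  have e1 : ∀ (p r : ℕ × ℕ), DS d1 (17 * p.1 * r.1) (-(r.2 * p.2)) *
      DS d2 (p.1 * r.2) (-(17 * r.1 * p.2)) = ∑ U ∈ d1.divisors, ∑ V ∈ d2.divisors,
      jacobiSym (-17) ((d1 / U) * V) * (jacobiSym p.1 (U * V) *
        jacobiSym p.2 ((d1 / U) * (d2 / V))) *
      (jacobiSym r.1 (U * (d2 / V)) * jacobiSym r.2 ((d1 / U) * V)) := by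
    intro p r
    unfold DS
    rw [Finset.sum_mul_sum]
    refine Finset.sum_congr rfl fun U hU => Finset.sum_congr rfl fun V hV => ?_
    exact (symbols hd1 hd2 (Nat.dvd_of_mem_divisors hU) (Nat.dvd_of_mem_divisors hV) j
      p.1 p.2 r.1 r.2).symm
  simp only [e1]
  unfold SU
  rw [sum_div_mul hco]
  have e2 : ∀ U ∈ d1.divisors, ∀ V ∈ d2.divisors,
      jacobiSym (-17) (sd (U * V) d1) * R (U * V) (d1 * d2 / (U * V)) x *
        R (sd (U * V) d2) (sd (U * V) d1) k =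
      ∑ p ∈ x.divisorsAntidiagonal, ∑ r ∈ k.divisorsAntidiagonal,
      jacobiSym (-17) ((d1 / U) * V) * (jacobiSym p.1 (U * V) *
        jacobiSym p.2 ((d1 / U) * (d2 / V))) *
      (jacobiSym r.1 (U * (d2 / V)) * jacobiSym r.2 ((d1 / U) * V)) := by
    intro U hU V hV
    have hU' := Nat.mem_divisors.mp hU
    have hV' := Nat.mem_divisors.mp hV
    have hU0 : 0 < U := Nat.pos_of_ne_zero (ne_zero_of_dvd_ne_zero hU'.2 hU'.1)
    have hV0 : 0 < V := Nat.pos_of_ne_zero (ne_zero_of_dvd_ne_zero hV'.2 hV'.1)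
    rw [sd_left hco hU'.1 hV'.1 hU0, sd_right hco hU'.1 hV'.1 hV0,
      Nat.mul_div_mul_comm hU'.1 hV'.1]
    unfold R
    rw [mul_assoc, Finset.sum_mul_sum, Finset.mul_sum]
    refine Finset.sum_congr rfl fun p _ => ?_
    rw [Finset.mul_sum]
    refine Finset.sum_congr rfl fun r _ => ?_
    ring
  rw [Finset.sum_congr rfl (fun U hU => Finset.sum_congr rfl (fun V hV => e2 U hU V hV))]
  -- exchange the sums
  have e3 : ∀ U ∈ d1.divisors, (∑ V ∈ d2.divisors, ∑ p ∈ x.divisorsAntidiagonal,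
      ∑ r ∈ k.divisorsAntidiagonal,
      jacobiSym (-17) ((d1 / U) * V) * (jacobiSym p.1 (U * V) *
        jacobiSym p.2 ((d1 / U) * (d2 / V))) *
      (jacobiSym r.1 (U * (d2 / V)) * jacobiSym r.2 ((d1 / U) * V))) =
      ∑ p ∈ x.divisorsAntidiagonal, ∑ r ∈ k.divisorsAntidiagonal, ∑ V ∈ d2.divisors,
      jacobiSym (-17) ((d1 / U) * V) * (jacobiSym p.1 (U * V) *
        jacobiSym p.2 ((d1 / U) * (d2 / V))) *
      (jacobiSym r.1 (U * (d2 / V)) * jacobiSym r.2 ((d1 / U) * V)) := by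
    intro U _
    rw [Finset.sum_comm]
    refine Finset.sum_congr rfl fun p _ => ?_
    rw [Finset.sum_comm]
  rw [Finset.sum_congr rfl e3, Finset.sum_comm]
  refine Finset.sum_congr rfl fun p _ => ?_
  rw [Finset.sum_comm]

/-- **T3**: `2^t Z(d1, d2, m) = 8 SA(d1, d2, m)` -/
theorem ZZ_SA {d1 d2 m : ℕ} (hm : m = 1 ∨ m = 2) (hk : Odd (d1 * d2))
    (hsq : Squarefree (d1 * d2)) (h17 : Nat.Coprime 17 (d1 * d2))
    (j : jacobiSym 17 d1 * jacobiSym (-17) d2 = 1)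
    (hneg : jacobiSym (-1) d1 * jacobiSym (-1) d2 = -1) :
    2 ^ (d1 * d2).primeFactors.card * ZZ d1 d2 m = 8 * SA d1 d2 m := by
  have hd1 : 0 < d1 := Nat.pos_of_ne_zero (by rintro rfl; simp at hsq)
  have hd2 : 0 < d2 := Nat.pos_of_ne_zero (by rintro rfl; simp at hsq)
  haveI : NeZero d1 := ⟨hd1.ne'⟩
  haveI : NeZero d2 := ⟨hd2.ne'⟩
  have hco : Nat.Coprime d1 d2 := (Nat.squarefree_mul_iff.mp hsq).1
  unfold ZZ SA
  rw [sum_piece _ (ff_nM d1 d2) (ff_cn hneg), sum_param, Finset.mul_sum, Finset.mul_sum,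
    Finset.mul_sum]
  refine Finset.sum_congr rfl fun k hk' => ?_
  rw [Finset.mem_filter, Finset.mem_Ico] at hk'
  rw [SU_eq hd1 hd2 hco j,
    Finset.mul_sum, Finset.mul_sum, Finset.mul_sum, Finset.mul_sum]
  refine Finset.sum_congr rfl fun p hp => ?_
  rw [Finset.mul_sum, Finset.mul_sum, Finset.mul_sum, Finset.mul_sum]
  refine Finset.sum_congr rfl fun r hr => ?_
  rw [Nat.mem_divisorsAntidiagonal] at hp hr
  have hr1 : 0 < r.1 := Nat.pos_of_ne_zero (by intro h; rw [h] at hr; simp at hr; omega)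
  have hp2 : 0 < p.2 := Nat.pos_of_ne_zero (by intro h; rw [h] at hp; simp at hp; omega)
  have hD : p.1 * p.2 + 17 * (r.1 * r.2) = m * (d1 * d2) := by
    rw [hp.1, hr.1]; omega
  have h := two_pow_Wt hm hk hsq h17 hD
  rw [hr.1] at h
  have hf : ff d1 d2 ⟨(p.1 : ℤ), (r.2 : ℤ), -(r.1 : ℤ), (p.2 : ℤ)⟩ =
      2 * Wt d1 d2 ⟨(p.1 : ℤ), (r.2 : ℤ), -(r.1 : ℤ), (p.2 : ℤ)⟩ := by
    unfold ff
    dsimp only
    have : (-(r.1 : ℤ) * (p.2 : ℤ)).sign = -1 := by
      apply Int.sign_eq_neg_one_of_neg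
      have h1 : (0 : ℤ) < r.1 := by exact_mod_cast hr1
      have h2 : (0 : ℤ) < p.2 := by exact_mod_cast hp2
      nlinarith [mul_pos h1 h2]
    rw [this]; ring
  rw [hf]
  linear_combination 8 * h

end Vale.Agent.P014.H74
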