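import Vale.Agent.P014.H74.A5c

/-!
# Module A, part 5d: the final period relations
-/

set_option linter.unusedSectionVars false
set_option linter.style.haveILetI false

namespace Vale.Agent.P014.H74

open Finset

theorem PP_scale_left {d : ℕ} (hd : Nat.Coprime 2 d) (α β α' β' : ℤ) :
    PP d (2 * α) (2 * β) α' β' = PP d α β α' β' := by
  unfold PP
  refine Finset.sum_congr rfl fun x _ => ?_
  have h : (d : ℤ) ∣ 2 * α + 2 * β * x ↔ (d : ℤ) ∣ α + β * x := by
    rw [show 2 * α + 2 * β * (x : ℤ) = 2 * (α + β * x) by ring]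
    have hc : IsCoprime (d : ℤ) 2 := (Nat.isCoprime_iff_coprime (m := d) (n := 2)).mpr hd.symm
    exact ⟨fun h => hc.dvd_of_dvd_mul_left h, fun h => Dvd.dvd.mul_left h 2⟩
  simp only [h]

theorem PP_scale_right {d : ℕ} (hd : Nat.Coprime 2 d) (α β α' β' : ℤ) :
    PP d α β (2 * α') (2 * β') = PP d α β α' β' := by
  rw [PP_swap, PP_scale_left hd, PP_swap]

/-- the three classes of the matrices of determinant `2 n` modulo `2` -/
theorem ZZ_two {n : ℕ} [NeZero n] (hk : Odd n) : ZZ 1 n 2 = 2 * ZZ 1 n 1 +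
    ∑ y : (ZMod n)ˣ, chi y * Icr 1 2 (bz y) n := by
  have h2 : Nat.Coprime 2 n := Nat.coprime_two_left.mpr hk
  obtain ⟨c, hc⟩ := hk
  have hcz : (n : ℤ) = 2 * c + 1 := by exact_mod_cast hc
  -- the third class
  have e3 : ∑ y : (ZMod n)ˣ, chi y * Icr 1 2 (bz y) n =
      ∑ M ∈ (SF (((2 * (1 * n) : ℕ)) : ℤ)).filter (fun M => (2 : ℤ) ∣ M.X + M.w ∧ (2 : ℤ) ∣ M.Y + M.v),
        ff 1 n M := by
    have h1 : ∀ y : (ZMod n)ˣ, chi y * Icr 1 2 (bz y) n =
      ∑ M ∈ SF (((2 * (1 * n) : ℕ)) : ℤ), (if (2 : ℤ) ∣ M.X + M.w ∧ (2 : ℤ) ∣ M.Y + M.v then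
      -2 * (M.w * M.v).sign *
      (chi y * (if (n : ℤ) ∣ M.Y + (-M.X) * bz y ∧ (n : ℤ) ∣ M.v + (-17 * M.w) * bz y
        then 1 else 0)) else 0) := by
      intro y
      rw [Icr_sum, Finset.mul_sum]
      push_cast
      rw [one_mul]
      refine Finset.sum_congr rfl fun M _ => ?_
      have a1 : (2 : ℤ) ∣ M.X + 17 * M.w * 1 ↔ (2 : ℤ) ∣ M.X + M.w := by
        rw [show M.X + 17 * M.w * 1 = (M.X + M.w) + 2 * (8 * M.w) by ring]
        exact dvd_add_left (Dvd.intro _ rfl)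
      have a2 : (2 : ℤ) ∣ M.Y + M.v * 1 ↔ (2 : ℤ) ∣ M.Y + M.v := by rw [mul_one]
      simp only [a1, a2]
      split_ifs <;> ring
    simp only [h1]
    rw [Finset.sum_comm, Finset.sum_filter]
    refine Finset.sum_congr rfl fun M _ => ?_
    split_ifs
    · unfold ff Wt
      rw [← Finset.mul_sum, PP_units (d := n), PP_one, one_mul]
    · simp
  -- the first class
  have e1 : ∑ M ∈ (SF (((2 * (1 * n) : ℕ)) : ℤ)).filter (fun M => (2 : ℤ) ∣ M.X ∧ (2 : ℤ) ∣ M.Y),
        ff 1 n M = ZZ 1 n 1 := by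
    unfold ZZ
    refine Finset.sum_nbij' (fun M => ⟨M.X / 2, M.Y / 2, M.w, M.v⟩)
      (fun M => ⟨2 * M.X, 2 * M.Y, M.w, M.v⟩) ?_ ?_ ?_ ?_ ?_
    · intro M hM
      rw [Finset.mem_filter, mem_SF] at hM
      obtain ⟨⟨g1, g2, g3⟩, ⟨x, hx⟩, ⟨y, hy⟩⟩ := hM
      rw [mem_SF]
      have q1 : M.X / 2 = x := by omega
      have q2 : M.Y / 2 = y := by omega
      unfold M4.det at g1 ⊢
      dsimp only
      rw [q1, q2]
      rw [hx, hy] at g1
      rw [hx] at g2
      rw [hy] at g3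
      push_cast at g1 ⊢
      refine ⟨by linarith, by linarith, by linarith⟩
    · intro M hM
      rw [mem_SF] at hM
      obtain ⟨g1, g2, g3⟩ := hM
      rw [Finset.mem_filter, mem_SF]
      unfold M4.det at g1 ⊢
      dsimp only
      push_cast at g1 ⊢
      exact ⟨⟨by linarith, by linarith, by linarith⟩, Dvd.intro _ rfl, Dvd.intro _ rfl⟩
    · intro M hM
      rw [Finset.mem_filter] at hM
      obtain ⟨-, ⟨x, hx⟩, ⟨y, hy⟩⟩ := hM
      ext
      · dsimp only; omega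
      · dsimp only; omega
      · rfl
      · rfl
    · intro M _
      ext
      · dsimp only; omega
      · dsimp only; omega
      · rfl
      · rfl
    · intro M hM
      rw [Finset.mem_filter] at hM
      obtain ⟨-, ⟨x, hx⟩, ⟨y, hy⟩⟩ := hM
      have q1 : M.X / 2 = x := by omega
      have q2 : M.Y / 2 = y := by omega
      unfold ff Wt
      dsimp only
      rw [q1, q2, hx, hy, PP_one, PP_one, show -(2 * x) = 2 * (-x) by ring, PP_scale_left h2]
  -- the second class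
  have e2 : ∑ M ∈ (SF (((2 * (1 * n) : ℕ)) : ℤ)).filter (fun M => (2 : ℤ) ∣ M.w ∧ (2 : ℤ) ∣ M.v),
        ff 1 n M = ZZ 1 n 1 := by
    unfold ZZ
    refine Finset.sum_nbij' (fun M => ⟨M.X, M.Y, M.w / 2, M.v / 2⟩)
      (fun M => ⟨M.X, M.Y, 2 * M.w, 2 * M.v⟩) ?_ ?_ ?_ ?_ ?_
    · intro M hM
      rw [Finset.mem_filter, mem_SF] at hM
      obtain ⟨⟨g1, g2, g3⟩, ⟨x, hx⟩, ⟨y, hy⟩⟩ := hM
      rw [mem_SF]
      have q1 : M.w / 2 = x := by omega
      have q2 : M.v / 2 = y := by omega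
      unfold M4.det at g1 ⊢
      dsimp only
      rw [q1, q2]
      rw [hx, hy] at g1
      rw [hy] at g2
      rw [hx] at g3
      push_cast at g1 ⊢
      refine ⟨by linarith, by linarith, by linarith⟩
    · intro M hM
      rw [mem_SF] at hM
      obtain ⟨g1, g2, g3⟩ := hM
      rw [Finset.mem_filter, mem_SF]
      unfold M4.det at g1 ⊢
      dsimp only
      push_cast at g1 ⊢
      exact ⟨⟨by linarith, by linarith, by linarith⟩, Dvd.intro _ rfl, Dvd.intro _ rfl⟩
    · intro M hM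
      rw [Finset.mem_filter] at hM
      obtain ⟨-, ⟨x, hx⟩, ⟨y, hy⟩⟩ := hM
      ext
      · rfl
      · rfl
      · dsimp only; omega
      · dsimp only; omega
    · intro M _
      ext
      · rfl
      · rfl
      · dsimp only; omega
      · dsimp only; omega
    · intro M hM
      rw [Finset.mem_filter] at hM
      obtain ⟨-, ⟨x, hx⟩, ⟨y, hy⟩⟩ := hM
      have q1 : M.w / 2 = x := by omega
      have q2 : M.v / 2 = y := by omega
      unfold ff Wt
      dsimp only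
      rw [q1, q2, hx, hy, PP_one, PP_one, show -17 * (2 * x) = 2 * (-17 * x) by ring,
        PP_scale_right h2]
      have : (2 * x * (2 * y)).sign = (x * y).sign := by
        rw [show 2 * x * (2 * y) = 4 * (x * y) by ring, Int.sign_mul,
          Int.sign_eq_one_of_pos (by norm_num : (0 : ℤ) < 4), one_mul]
      rw [this]
  -- the decomposition
  have hsplit : ∀ M ∈ SF (((2 * (1 * n) : ℕ)) : ℤ), ff 1 n M =
      (if (2 : ℤ) ∣ M.X ∧ (2 : ℤ) ∣ M.Y then ff 1 n M else 0) +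
      (if (2 : ℤ) ∣ M.w ∧ (2 : ℤ) ∣ M.v then ff 1 n M else 0) +
      (if (2 : ℤ) ∣ M.X + M.w ∧ (2 : ℤ) ∣ M.Y + M.v then ff 1 n M else 0) := by
    intro M hM
    rw [mem_SF] at hM
    have hdet : M.X * M.v - 17 * M.w * M.Y = 2 * n := by
      have := hM.1; unfold M4.det at this; rw [this]; push_cast; ring
    rcases Int.even_or_odd' M.X with ⟨x, hx | hx⟩ <;> rcases Int.even_or_odd' M.Y with ⟨y, hy | hy⟩ <;>
    rcases Int.even_or_odd' M.w with ⟨w, hw | hw⟩ <;> rcases Int.even_or_odd' M.v with ⟨v, hv | hv⟩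
    all_goals
      rw [hx, hy, hw, hv] at hdet
      first
        | (exfalso; ring_nf at hdet; omega)
        | (clear hdet; split_ifs <;> first | ring1 | (exfalso; omega))
  have hZ : ZZ 1 n 2 = ∑ M ∈ SF (((2 * (1 * n) : ℕ)) : ℤ), ff 1 n M := rfl
  rw [hZ, Finset.sum_congr rfl hsplit, Finset.sum_add_distrib, Finset.sum_add_distrib,
    ← Finset.sum_filter, ← Finset.sum_filter, ← Finset.sum_filter, e1, e2, ← e3]
  ring

end Vale.Agent.P014.H74
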