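import Vale.Agent.P014.H74.A5d

/-!
# Module A, part 6: the final period relations
-/

set_option linter.unusedSectionVars false
set_option linter.style.haveILetI false

namespace Vale.Agent.P014.H74

open Finset

theorem bz_one (x : (ZMod 1)ˣ) : bz x = 0 := by
  rcases bz_ok x with h | h
  · have := h.1; have := h.2; omega
  · exact h.1

theorem N4_one {n : ℕ} [NeZero n] : N4 1 n = ∑ y : (ZMod n)ˣ, chi y * Icr 0 1 (bz y) n := by
  unfold N4
  rw [Fintype.sum_unique]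
  refine Finset.sum_congr rfl fun y _ => ?_
  rw [bz_one]
  have : chi (default : (ZMod 1)ˣ) = 1 := by
    unfold chi; rw [jacobiSym.one_right]
  rw [this, one_mul]
  norm_num

theorem Dl_ZZ {n : ℕ} [NeZero n] (hk : Odd n) : Dl n = 3 * ZZ 1 n 1 - ZZ 1 n 2 := by
  rw [ZZ_two hk, ← N4_ZZ, N4_one]
  unfold Dl
  have : ∀ x : (ZMod n)ˣ, chi x * (Icr (bz x) n 1 2 - Icr (bz x) n 0 1) =
      chi x * Icr 0 1 (bz x) n - chi x * Icr 1 2 (bz x) n := by
    intro x; rw [Icr_swap (bz x) n 1 2, Icr_swap (bz x) n 0 1]; ring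
  rw [Finset.sum_congr rfl (fun x _ => this x), Finset.sum_sub_distrib]
  ring

theorem J17_eq {n : ℕ} (hk : Odd n) : jacobiSym 17 n = jacobiSym n 17 := by
  have := jacobiSym.quadratic_reciprocity_one_mod_four (a := 17) (b := n) (by norm_num) hk
  exact_mod_cast this

theorem Jneg_three {n : ℕ} (h : n % 4 = 3) : jacobiSym (-1) n = -1 := by
  rw [jacobiSym.at_neg_one (Nat.odd_iff.mpr (by omega)), ZMod.χ₄_nat_three_mod_four h]

theorem Jneg_one {n : ℕ} (h : n % 4 = 1) : jacobiSym (-1) n = 1 := by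
  rw [jacobiSym.at_neg_one (Nat.odd_iff.mpr (by omega)), ZMod.χ₄_nat_one_mod_four h]

theorem Jneg17 (n : ℕ) : jacobiSym (-17) n = jacobiSym (-1) n * jacobiSym 17 n := by
  rw [← jacobiSym.mul_left]; norm_num

theorem coprime_of_J {n : ℕ} (h : jacobiSym n 17 ≠ 0) : Nat.Coprime 17 n := by
  by_contra hcon
  apply h
  rw [jacobiSym.eq_zero_iff_not_coprime, Int.gcd_natCast_natCast]
  intro h2
  exact hcon (Nat.Coprime.symm h2)

/-- **T1**: the relation for the twist by `-n` -/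
theorem T1 {n : ℕ} (h4 : n % 4 = 3) (hsq : Squarefree n) (h17 : jacobiSym n 17 = -1)
    {ρ : G → ℝ} (hρ : Par ρ) (ho : ∀ A, ρ (cG A) = (-1) * ρ A) :
    (n : ℝ) * 2 ^ n.primeFactors.card * ell ρ n = ell ρ 3 *
      ((n * (3 * SA 1 n 1 - SA 1 n 2) -
        2 ^ n.primeFactors.card * (2 - jacobiSym 2 n) * AH n : ℤ) : ℝ) := by
  have hk : Odd n := Nat.odd_iff.mpr (by omega)
  have h1 : n ≠ 1 := by omega
  haveI : NeZero n := ⟨hsq.ne_zero⟩
  have hco : Nat.Coprime 17 n := coprime_of_J (by rw [h17]; norm_num)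
  have hneg := Jneg_three h4
  have j17 : jacobiSym (-17) n = 1 := by rw [Jneg17, hneg, J17_eq hk, h17]; norm_num
  have c := T1_cross hk hsq h1 hco j17 hρ ho
  have s := Shalf_AH hk hsq h1
  have hk' : Odd (1 * n) := by rwa [one_mul]
  have hsq' : Squarefree (1 * n) := by rwa [one_mul]
  have hco' : Nat.Coprime 17 (1 * n) := by rwa [one_mul]
  have z1 := ZZ_SA (m := 1) (Or.inl rfl) hk' hsq' hco' (by rw [jacobiSym.one_right, j17]; norm_num)
    (by rw [hneg, jacobiSym.one_right]; norm_num)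
  have z2 := ZZ_SA (m := 2) (Or.inr rfl) hk' hsq' hco' (by rw [jacobiSym.one_right, j17]; norm_num)
    (by rw [hneg, jacobiSym.one_right]; norm_num)
  rw [one_mul] at z1 z2
  rw [Dl_ZZ hk] at c
  have hZ : (n : ℤ) * 2 ^ n.primeFactors.card * ((3 * ZZ 1 n 1 - ZZ 1 n 2) - 4 * Shalf n) =
      8 * (n * (3 * SA 1 n 1 - SA 1 n 2) -
      2 ^ n.primeFactors.card * (2 - jacobiSym 2 n) * AH n) := by
    linear_combination (n : ℤ) * (3 * z1 - z2) - 4 * 2 ^ n.primeFactors.card * s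
  have hZ' : (n : ℝ) * 2 ^ n.primeFactors.card *
      (((3 * ZZ 1 n 1 - ZZ 1 n 2) - 4 * Shalf n : ℤ) : ℝ) =
      8 * ((n * (3 * SA 1 n 1 - SA 1 n 2) -
      2 ^ n.primeFactors.card * (2 - jacobiSym 2 n) * AH n : ℤ) : ℝ) := by
    exact_mod_cast hZ
  have : 8 * ((n : ℝ) * 2 ^ n.primeFactors.card * ell ρ n) =
      8 * (ell ρ 3 * ((n * (3 * SA 1 n 1 - SA 1 n 2) -
      2 ^ n.primeFactors.card * (2 - jacobiSym 2 n) * AH n : ℤ) : ℝ)) := by
    linear_combination ((n : ℝ) * 2 ^ n.primeFactors.card) * c + ell ρ 3 * hZ'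
  linarith

/-- **T2**: the relation for the decomposition `n = d1 d2` -/
theorem T2 {d1 d2 : ℕ} (h1 : d1 % 4 = 1) (h2 : d2 % 4 = 3) (hsq : Squarefree (d1 * d2))
    (hd1 : d1 ≠ 1) (j1 : jacobiSym d1 17 = 1) (j2 : jacobiSym d2 17 = -1)
    {ρe ρo : G → ℝ} (hρe : Par ρe) (hee : ∀ A, ρe (cG A) = 1 * ρe A)
    (hρo : Par ρo) (hoo : ∀ A, ρo (cG A) = (-1) * ρo A) :
    ((d1 * d2 : ℕ) : ℝ) * 2 ^ (d1 * d2).primeFactors.card * (ell ρe d1 * ell ρo d2) =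
      ρe gh * ell ρo 3 * ((2 ^ (d1 * d2).primeFactors.card * AH (d1 * d2) -
        ((d1 * d2 : ℕ) : ℤ) * SA d1 d2 1 : ℤ) : ℝ) := by
  have hk1 : Odd d1 := Nat.odd_iff.mpr (by omega)
  have hk2 : Odd d2 := Nat.odd_iff.mpr (by omega)
  have hd2 : d2 ≠ 1 := by omega
  have hco : Nat.Coprime d1 d2 := (Nat.squarefree_mul_iff.mp hsq).1
  have hsq1 : Squarefree d1 := (Nat.squarefree_mul_iff.mp hsq).2.1
  have hsq2 : Squarefree d2 := (Nat.squarefree_mul_iff.mp hsq).2.2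
  haveI : NeZero d1 := ⟨hsq1.ne_zero⟩
  haveI : NeZero d2 := ⟨hsq2.ne_zero⟩
  have hc1 : Nat.Coprime 17 d1 := coprime_of_J (by rw [j1]; norm_num)
  have hc2 : Nat.Coprime 17 d2 := coprime_of_J (by rw [j2]; norm_num)
  have n1 := Jneg_one h1
  have n2 := Jneg_three h2
  have k1 : jacobiSym 17 d1 = 1 := by rw [J17_eq hk1, j1]
  have k1' : jacobiSym (-17) d1 = 1 := by rw [Jneg17, n1, k1]; norm_num
  have k2 : jacobiSym (-17) d2 = 1 := by rw [Jneg17, n2, J17_eq hk2, j2]; norm_num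
  have c := T2_cross hk1 hsq1 hd1 hc1 hk2 hsq2 hd2 hc2 hco.symm k1' k2 n2 hρe hee hρo hoo
  have s := SS_AH h1 h2 hsq1 hsq2 hd1 hco
  have z := ZZ_SA (m := 1) (Or.inl rfl) (hk1.mul hk2) hsq (Nat.Coprime.mul_right hc1 hc2)
    (by rw [k1, k2]; norm_num)
    (by rw [n1, n2]; norm_num)
  rw [N4_ZZ] at c
  have hZ : ((d1 * d2 : ℕ) : ℤ) * 2 ^ (d1 * d2).primeFactors.card * (4 * SS d1 d2 - ZZ d1 d2 1) =
      8 * (2 ^ (d1 * d2).primeFactors.card * AH (d1 * d2) -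
        ((d1 * d2 : ℕ) : ℤ) * SA d1 d2 1) := by
    linear_combination 4 * 2 ^ (d1 * d2).primeFactors.card * s - ((d1 * d2 : ℕ) : ℤ) * z
  have hZ' : ((d1 * d2 : ℕ) : ℝ) * 2 ^ (d1 * d2).primeFactors.card *
      ((4 * SS d1 d2 - ZZ d1 d2 1 : ℤ) : ℝ) =
      8 * ((2 ^ (d1 * d2).primeFactors.card * AH (d1 * d2) -
        ((d1 * d2 : ℕ) : ℤ) * SA d1 d2 1 : ℤ) : ℝ) := by
    exact_mod_cast hZ
  have : 8 * (((d1 * d2 : ℕ) : ℝ) * 2 ^ (d1 * d2).primeFactors.card * (ell ρe d1 * ell ρo d2)) =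
      8 * (ρe gh * ell ρo 3 * ((2 ^ (d1 * d2).primeFactors.card * AH (d1 * d2) -
        ((d1 * d2 : ℕ) : ℤ) * SA d1 d2 1 : ℤ) : ℝ)) := by
    linear_combination (((d1 * d2 : ℕ) : ℝ) * 2 ^ (d1 * d2).primeFactors.card) * c +
      ρe gh * ell ρo 3 * hZ'
  linarith

end Vale.Agent.P014.H74
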