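import Vale.Agent.P014.H74.A6

/-!
# Module A, part 7: the case of vanishing
-/

set_option linter.unusedSectionVars false
set_option linter.style.haveILetI false

namespace Vale.Agent.P014.H74

open Finset UpperHalfPlane

/-- conjugation by the Fricke involution -/
def WG (A : G) : G := ⟨⟨A.1.v, -A.1.w, -A.1.Y, A.1.X⟩, by
  have := A.2
  unfold M4.det at this ⊢
  simp only; linarith⟩

theorem WH_smul (A : G) (z : ℍ) : WH (A • z) = WG A • WH z := by
  ext1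
  have hz : (z : ℂ) ≠ 0 := UpperHalfPlane.ne_zero z
  have h1 : ((A • z : ℍ) : ℂ) ≠ 0 := UpperHalfPlane.ne_zero _
  have h2 := G.den_ne A z
  have h3 := G.den_ne (WG A) (WH z)
  rw [G.coe_smul, coe_WH, coe_WH, G.coe_smul]
  rw [coe_WH] at h3
  rw [G.coe_smul] at h1
  have h4 : (A.1.X : ℂ) * z + A.1.Y ≠ 0 := fun h => h1 (by rw [h, zero_div])
  simp only [WG] at h3 ⊢
  push_cast at h3 ⊢
  have e1 : (17 : ℂ) * -(A.1.Y : ℂ) * (-1 / (17 * (z : ℂ))) + A.1.X =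
      ((A.1.X : ℂ) * z + A.1.Y) / z := by
    field_simp; ring
  have e2 : (A.1.v : ℂ) * (-1 / (17 * (z : ℂ))) + -(A.1.w : ℂ) =
      -((17 * (A.1.w : ℂ) * z + A.1.v) / (17 * z)) := by
    field_simp; ring
  rw [e1, e2]
  field_simp

theorem hom_WG {b b' d : ℤ} (hd : 0 < d) (h : d ∣ 17 * b * b' + 1) (A : G) :
    hom b' d (WG A) = - hom b d A := by
  rw [hom_eq hd _ (WH I), ← WH_smul, psi_W h, ← hom_eq hd]

section

variable {d : ℕ} [NeZero d]

theorem rc_WG (hd : Nat.Coprime 17 d) (A : G) : rc d (WG A) = - jacobiSym (-17) d * rc d A := by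
  unfold rc
  rw [← Equiv.sum_comp (pr hd), Finset.mul_sum]
  refine Finset.sum_congr rfl fun y _ => ?_
  have h : (d : ℤ) ∣ 17 * bz y * bz (pr hd y) + 1 := by
    have := pr_dvd hd y
    rwa [show 17 * bz y * bz (pr hd y) + 1 = 17 * bz (pr hd y) * bz y + 1 by ring]
  rw [hom_WG dpos h, chi_pr]; ring

end

theorem sq3 : Squarefree 3 := by
  rw [Nat.squarefree_iff_prime_squarefree]
  intro p hp hp2
  have := hp.two_le
  have h3 := Nat.le_of_dvd (by norm_num) hp2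
  nlinarith

theorem J3 : jacobiSym (-17) 3 = 1 := by
  rw [show (-17 : ℤ) = 1 + 3 * (-6) by norm_num]
  have : (1 + 3 * (-6) : ℤ) ≡ 1 [ZMOD (3 : ℕ)] := by decide
  rw [jacobiSym.mod_left' this, jacobiSym.one_left]

theorem rc3_gh : rc 3 gh = 8 := by
  have h1 := ell_mu_rc (n := 3) (by decide) sq3 (by norm_num) (by norm_num) J3
  rw [ell_mu_three] at h1
  linarith

/-- the homomorphism vanishes if the sign is wrong -/
theorem rc_zero {d : ℕ} [NeZero d] (hk : Odd d) (hsq : Squarefree d) (h1 : d ≠ 1)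
    (hd : Nat.Coprime 17 d) (hneg : jacobiSym (-1) d = -1) (h17 : jacobiSym (-17) d = -1) (A : G) :
    rc d A = 0 := by
  have h3 : ∀ A, ((rc 3 (cG A) : ℤ) : ℝ) = 1 * ((rc 3 A : ℤ) : ℝ) := by
    intro A; rw [rc_cG, Jneg_three (by norm_num)]; push_cast; ring
  have hc : ∀ A, ((rc d (cG A) : ℤ) : ℝ) = 1 * ((rc d A : ℤ) : ℝ) := by
    intro A; rw [rc_cG, hneg]; push_cast; ring
  have p := (rc_par hk hsq h1 hd).prop (rc_par (d := 3) (by decide) sq3 (by norm_num) (by norm_num))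
    (Or.inl rfl) hc h3
  have p1 := p A gh
  have p2 := p (WG A) gh
  have e1 : ((rc d (WG A) : ℤ) : ℝ) = ((rc d A : ℤ) : ℝ) := by
    rw [rc_WG hd, h17]; push_cast; ring
  have e2 : ((rc 3 (WG A) : ℤ) : ℝ) = - ((rc 3 A : ℤ) : ℝ) := by
    rw [rc_WG (by norm_num), J3]; push_cast; ring
  have e3 : ((rc 3 gh : ℤ) : ℝ) = 8 := by rw [rc3_gh]; norm_num
  rw [e1, e2, e3] at p2
  rw [e3] at p1
  have : ((rc d A : ℤ) : ℝ) = 0 := by linarith
  exact_mod_cast this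

/-- **T2, vanishing case** -/
theorem T2_zero {d1 d2 : ℕ} (h1 : d1 % 4 = 1) (h2 : d2 % 4 = 3) (hsq : Squarefree (d1 * d2))
    (hd1 : d1 ≠ 1) (j1 : jacobiSym d1 17 = -1) (j2 : jacobiSym d2 17 = 1) :
    ((d1 * d2 : ℕ) : ℤ) * SA d1 d2 1 = 2 ^ (d1 * d2).primeFactors.card * AH (d1 * d2) := by
  have hk1 : Odd d1 := Nat.odd_iff.mpr (by omega)
  have hk2 : Odd d2 := Nat.odd_iff.mpr (by omega)
  have hd2 : d2 ≠ 1 := by omega
  have hco : Nat.Coprime d1 d2 := (Nat.squarefree_mul_iff.mp hsq).1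
  have hsq1 : Squarefree d1 := (Nat.squarefree_mul_iff.mp hsq).2.1
  have hsq2 : Squarefree d2 := (Nat.squarefree_mul_iff.mp hsq).2.2
  haveI : NeZero d1 := ⟨hsq1.ne_zero⟩
  haveI : NeZero d2 := ⟨hsq2.ne_zero⟩
  have hc1 : Nat.Coprime 17 d1 := coprime_of_J (by rw [j1]; norm_num)
  have hc2 : Nat.Coprime 17 d2 := coprime_of_J (by rw [j2]; norm_num)
  have n1 := Jneg_one h1
  have n2 := Jneg_three h2
  have k1 : jacobiSym 17 d1 = -1 := by rw [J17_eq hk1, j1]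
  have k1' : jacobiSym (-17) d1 = -1 := by rw [Jneg17, n1, k1]; norm_num
  have k2 : jacobiSym (-17) d2 = -1 := by rw [Jneg17, n2, J17_eq hk2, j2]; norm_num
  have c := N4_eq hk1 hsq1 hd1 hc1 hc2 hco.symm (by rw [k1', k2]; norm_num)
  have c0 : ∑ x : (ZMod d1)ˣ, chi x * rc d2 (gam hc1 x) = 0 := by
    refine Finset.sum_eq_zero fun x _ => ?_
    rw [rc_zero hk2 hsq2 hd2 hc2 n2 k2, mul_zero]
  have s := SS_AH h1 h2 hsq1 hsq2 hd1 hco
  have z := ZZ_SA (m := 1) (Or.inl rfl) (hk1.mul hk2) hsq (Nat.Coprime.mul_right hc1 hc2)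
    (by rw [k1, k2]; norm_num) (by rw [n1, n2]; norm_num)
  rw [N4_ZZ, c0] at c
  have : 8 * (((d1 * d2 : ℕ) : ℤ) * SA d1 d2 1) =
      8 * (2 ^ (d1 * d2).primeFactors.card * AH (d1 * d2)) := by
    linear_combination (-((d1 * d2 : ℕ) : ℤ)) * z +
      ((d1 * d2 : ℕ) : ℤ) * 2 ^ (d1 * d2).primeFactors.card * c +
      4 * 2 ^ (d1 * d2).primeFactors.card * s
  linarith

end Vale.Agent.P014.H74
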