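import Vale.Agent.P014.H74.A7

/-!
# Conductor 3, part 1: crossing numbers without the coprimality condition
-/

set_option linter.unusedSectionVars false
set_option linter.style.haveILetI false

namespace Vale.Agent.P014.H74

open UpperHalfPlane

/-- the conditions for a crossing, in terms of the member of the family -/
def Cf (c e b d : ℤ) (N : M4) : Prop :=
  Fam b d N ∧ 0 < (phi c e N).X * (phi c e N).v ∧ (phi c e N).w * (phi c e N).Y < 0

open Classical in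
/-- the crossing number -/
noncomputable def Jcr (c e b d : ℤ) : ℤ :=
  ∑ᶠ N : M4, if Cf c e b d N then -2 * (N.w * N.v).sign else 0

/-- **crossing lemma** -/
theorem psi_vert' {c e b d : ℤ} (he : 0 < e) (hd : 0 < d)
    {ε Y0 : ℝ} (hε : 0 < ε) (hY0 : 0 < Y0) (h1 : (e : ℝ) ^ 2 * d * ε < 2) (h2 : (d : ℝ) < 2 * Y0) :
    Psi b d (pt ((c : ℝ) / e) ε hε) (pt ((c : ℝ) / e) Y0 hY0) = Jcr c e b d := by
  classical
  unfold Psi Jcr
  refine finsum_congr fun N => ?_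
  by_cases hN : Fam b d N
  · rw [if_pos hN, sg_phi he, sg_phi he]
    have he' : (0 : ℝ) < e := by exact_mod_cast he
    have hdet : (phi c e N).det = e * d := by rw [phi_det, hN.1]
    rw [cross_val (A := (phi c e N).X * (phi c e N).v) (B := (phi c e N).w * (phi c e N).Y)
      (s := e * d) (mul_pos he hd) (by rw [← hdet]; simp only [M4.det]; ring)
      (by simp only [phi]; ring) he' hε (by push_cast; nlinarith) (by push_cast; nlinarith) hY0]
    by_cases hc : 0 < (phi c e N).X * (phi c e N).v ∧ (phi c e N).w * (phi c e N).Y < 0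
    · rw [if_pos hc, if_pos ⟨hN, hc⟩]
    · rw [if_neg hc, if_neg (fun h => hc h.2)]
  · rw [if_neg hN, if_neg (fun h => hN h.1)]

/-- **the key identity** -/
theorem key_identity' {b b' d : ℤ} (h : Ok b d) (h' : Ok b' d) (h17 : ¬ (17 : ℤ) ∣ d)
    (hbb : d ∣ 17 * b' * b + 1) (γ : G) (hc0 : 0 ≤ γ.1.Y) (hc1 : γ.1.Y < γ.1.v)
    (hr0 : 0 ≤ γ.1.w) (hr1 : γ.1.w < γ.1.v) :
    Jcr γ.1.Y γ.1.v b d = - hom b d γ + T0 b d + T0 b' d + 2 * Sx b d ((γ.1.Y : ℝ) / γ.1.v)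
      + 2 * Sx b' d ((γ.1.w : ℝ) / γ.1.v) := by
  have hd := h.pos
  have hd' : (0 : ℝ) < d := by exact_mod_cast hd
  have he : 0 < γ.1.v := by omega
  have he' : (0 : ℝ) < γ.1.v := by exact_mod_cast he
  have hc1' : (γ.1.Y : ℝ) / γ.1.v < 1 := by
    rw [div_lt_one he']; exact_mod_cast hc1
  have hc0' : 0 ≤ (γ.1.Y : ℝ) / γ.1.v := by
    have : (0 : ℝ) ≤ γ.1.Y := by exact_mod_cast hc0
    positivity
  have hr1' : (γ.1.w : ℝ) / γ.1.v < 1 := by
    rw [div_lt_one he']; exact_mod_cast hr1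
  have hr0' : 0 ≤ (γ.1.w : ℝ) / γ.1.v := by
    have : (0 : ℝ) ≤ γ.1.w := by exact_mod_cast hr0
    positivity
  -- choose the height
  set η : ℝ := (d : ℝ) with hη
  set ε : ℝ := 1 / (17 * (γ.1.v : ℝ) ^ 2 * η) with hε
  have hη0 : 0 < η := hd'
  have hε0 : 0 < ε := by positivity
  have hlow : (γ.1.v : ℝ) ^ 2 * d * ε < 2 := by
    rw [hε, hη]
    rw [mul_one_div, div_lt_iff₀ (by positivity)]
    nlinarith [mul_pos (pow_pos he' 2) hd', mul_pos hd' hd']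
  have hv := psi_vert' (c := γ.1.Y) (b := b) he hd hε0 hη0 hlow (by rw [hη]; linarith)
  rw [← hv]
  -- the low point is the image of a high point
  have hpt : pt ((γ.1.Y : ℝ) / γ.1.v) ε hε0 = γ • WH (pt ((γ.1.w : ℝ) / γ.1.v) η hη0) := by
    ext1
    have hne := G.den_ne γ (WH (pt ((γ.1.w : ℝ) / γ.1.v) η hη0))
    have hz : ((pt ((γ.1.w : ℝ) / γ.1.v) η hη0 : ℍ) : ℂ) ≠ 0 := UpperHalfPlane.ne_zero _
    rw [G.coe_smul, coe_WH]
    rw [coe_WH] at hne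
    have hdet : (γ.1.X : ℂ) * γ.1.v - 17 * γ.1.w * γ.1.Y = 1 := by exact_mod_cast γ.det_eq
    have e1 : ((pt ((γ.1.w : ℝ) / γ.1.v) η hη0 : ℍ) : ℂ) =
        ((γ.1.w : ℂ) + (γ.1.v : ℂ) * (η : ℂ) * Complex.I) / (γ.1.v : ℂ) := by
      have hv0 : (γ.1.v : ℂ) ≠ 0 := by exact_mod_cast he.ne'
      have : ((pt ((γ.1.w : ℝ) / γ.1.v) η hη0 : ℍ) : ℂ) =
          (((γ.1.w : ℝ) / γ.1.v : ℝ) : ℂ) + ((η : ℝ) : ℂ) * Complex.I := by
        apply Complex.ext <;> simp [pt]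
      rw [this]; push_cast; field_simp
    have e2 : ((pt ((γ.1.Y : ℝ) / γ.1.v) ε hε0 : ℍ) : ℂ) =
        ((γ.1.Y : ℂ)) / (γ.1.v : ℂ) + (ε : ℂ) * Complex.I := by
      apply Complex.ext <;> simp [pt]
    rw [e2]
    have hv0 : (γ.1.v : ℂ) ≠ 0 := by exact_mod_cast he.ne'
    have hη1 : (η : ℂ) ≠ 0 := by exact_mod_cast hη0.ne'
    have hε1 : (ε : ℂ) = 1 / (17 * (γ.1.v : ℂ) ^ 2 * (η : ℂ)) := by
      rw [hε]; push_cast; rfl
    set Z : ℂ := ((pt ((γ.1.w : ℝ) / γ.1.v) η hη0 : ℍ) : ℂ) with hZ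
    have e3 : (γ.1.v : ℂ) * Z - γ.1.w = (γ.1.v : ℂ) * (η : ℂ) * Complex.I := by
      rw [e1]; field_simp; ring
    have e4 : (17 : ℂ) * (γ.1.w : ℂ) * (-1 / (17 * Z)) + γ.1.v =
        ((γ.1.v : ℂ) * (η : ℂ) * Complex.I) / Z := by
      rw [← e3]; field_simp; ring
    have e5 : (γ.1.X : ℂ) * (-1 / (17 * Z)) + γ.1.Y = (17 * γ.1.Y * Z - γ.1.X) / (17 * Z) := by
      field_simp; ring
    rw [e4, e5, hε1]
    have hI := Complex.I_ne_zero
    have hI2 := Complex.I_sq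
    rw [div_div_div_eq, div_add' _ _ _ hv0, div_eq_div_iff hv0 (by
      refine mul_ne_zero (mul_ne_zero (by norm_num) hz) ?_
      exact mul_ne_zero (mul_ne_zero hv0 hη1) hI)]
    field_simp
    -- remaining polynomial identity
    have e6 : (γ.1.v : ℂ) * Z = γ.1.w + (γ.1.v : ℂ) * (η : ℂ) * Complex.I := by
      rw [← e3]; ring
    linear_combination hI2 - 17 * (γ.1.Y : ℂ) * e6 + hdet
  have hW : Psi b d (γ • WH (pt ((γ.1.w : ℝ) / γ.1.v) η hη0)) (γ • z0) =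
      T0 b' d + 2 * St b' d 0 ((γ.1.w : ℝ) / γ.1.v) := by
    rw [psi_smul]
    conv_lhs => rw [← WH_z0]
    rw [psi_W hbb, psi_swap hd, neg_neg, psi_z0 hd h17 hη0 (by rw [hη]; linarith)]
  have h1 := psi_add (b := b) hd (γ • WH (pt ((γ.1.w : ℝ) / γ.1.v) η hη0)) (γ • z0)
    (pt ((γ.1.Y : ℝ) / γ.1.v) η hη0)
  have h2 := psi_add (b := b) hd (γ • z0) z0 (pt ((γ.1.Y : ℝ) / γ.1.v) η hη0)
  have h3 : Psi b d (γ • z0) z0 = - hom b d γ := by
    rw [psi_swap hd, ← hom_eq hd]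
  have h4 := psi_z0 (b := b) hd h17 (x := (γ.1.Y : ℝ) / γ.1.v) hη0 (by rw [hη]; linarith)
  rw [St_Sx h hc0' hc1'] at h4
  rw [St_Sx h' hr0' hr1'] at hW
  rw [hpt, ← h1, ← h2, hW, h3, h4]
  ring

theorem key2' {d e : ℕ} [NeZero d] [NeZero e] (hd : Nat.Coprime 17 d) (he : Nat.Coprime 17 e)
    (x : (ZMod e)ˣ) (y : (ZMod d)ˣ) :
    Jcr (bz x) e (bz y) d = - hom (bz y) d (gam he x) + KK hd y
      + 2 * (d * bz x - bz y * e).sign + 2 * (d * bz (pr he x) - bz (pr hd y) * e).sign := by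
  have he0 : (0 : ℤ) < e := by exact_mod_cast Nat.pos_of_ne_zero (NeZero.ne e)
  have h17 : ¬ (17 : ℤ) ∣ d := by
    intro h
    have h' : 17 ∣ d := by exact_mod_cast h
    have := Nat.Coprime.eq_one_of_dvd hd h'
    omega
  have := key_identity' (bz_ok y) (bz_ok (pr hd y)) h17 (pr_dvd hd y) (gam he x)
    (bz_nonneg x) (bz_lt x) (bz_nonneg _) (bz_lt _)
  change Jcr (bz x) e (bz y) d = _ at this
  rw [this]
  change -hom (bz y) d (gam he x) + T0 (bz y) d + T0 (bz (pr hd y)) d +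
    2 * Sx (bz y) d ((bz x : ℝ) / ((e : ℤ) : ℝ)) +
    2 * Sx (bz (pr hd y)) d ((bz (pr he x) : ℝ) / ((e : ℤ) : ℝ)) = _
  rw [Sx_int (bz_ok y) he0, Sx_int (bz_ok _) he0]
  unfold KK
  ring

/-- the twisted sum of the crossing numbers -/
noncomputable def N5 (e d : ℕ) [NeZero e] [NeZero d] : ℤ :=
  ∑ x : (ZMod e)ˣ, ∑ y : (ZMod d)ˣ, chi x * chi y * Jcr (bz x) e (bz y) d

variable {d e : ℕ} [NeZero d] [NeZero e]

theorem N5_eq (hk : Odd e) (hsq : Squarefree e) (h1 : e ≠ 1) (he : Nat.Coprime 17 e)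
    (hd : Nat.Coprime 17 d)
    (h17 : jacobiSym (-17) e * jacobiSym (-17) d = 1) :
    N5 e d = - (∑ x : (ZMod e)ˣ, chi x * rc d (gam he x)) + 4 * SS e d := by
  unfold N5 rc
  have hs := sum_chi (d := e) hk hsq h1
  have e3 : ∑ x : (ZMod e)ˣ, ∑ y : (ZMod d)ˣ, chi x * chi y *
      (d * bz (pr he x) - bz (pr hd y) * e).sign = SS e d := by
    unfold SS
    rw [← Equiv.sum_comp (pr he) (fun x => ∑ y : (ZMod d)ˣ, chi x * chi y *
      (d * bz x - bz y * e).sign)]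
    refine Finset.sum_congr rfl fun x _ => ?_
    rw [← Equiv.sum_comp (pr hd) (fun y => chi (pr he x) * chi y *
      (d * bz (pr he x) - bz y * e).sign)]
    refine Finset.sum_congr rfl fun y _ => ?_
    rw [chi_pr, chi_pr]
    linear_combination (-(chi x * chi y * (d * bz (pr he x) - bz (pr hd y) * e).sign)) * h17
  have e4 : ∀ x : (ZMod e)ˣ, ∑ y : (ZMod d)ˣ, chi x * chi y * Jcr (bz x) e (bz y) d =
      - (chi x * ∑ y : (ZMod d)ˣ, chi y * hom (bz y) d (gam he x)) +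
      chi x * (∑ y : (ZMod d)ˣ, chi y * KK hd y) +
      2 * (∑ y : (ZMod d)ˣ, chi x * chi y * (d * bz x - bz y * e).sign) +
      2 * (∑ y : (ZMod d)ˣ, chi x * chi y *
        (d * bz (pr he x) - bz (pr hd y) * e).sign) := by
    intro x
    rw [Finset.mul_sum, Finset.mul_sum, Finset.mul_sum, Finset.mul_sum, ← Finset.sum_neg_distrib,
      ← Finset.sum_add_distrib, ← Finset.sum_add_distrib, ← Finset.sum_add_distrib]
    refine Finset.sum_congr rfl fun y _ => ?_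
    rw [key2' hd he]; ring
  rw [Finset.sum_congr rfl (fun x _ => e4 x)]
  rw [Finset.sum_add_distrib, Finset.sum_add_distrib, Finset.sum_add_distrib,
    Finset.sum_neg_distrib, ← Finset.sum_mul, hs, ← Finset.mul_sum, ← Finset.mul_sum, e3]
  unfold SS
  ring

/-- **T2, crossing number form** -/
theorem T2_cross' (hk : Odd e) (hsq : Squarefree e) (h1 : e ≠ 1)
    (he : Nat.Coprime 17 e) (hkd : Odd d) (hsqd : Squarefree d) (h1d : d ≠ 1)
    (hd : Nat.Coprime 17 d) (h17 : jacobiSym (-17) e = 1)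
    (h17d : jacobiSym (-17) d = 1) (hneg : jacobiSym (-1) d = -1)
    {ρe ρo : G → ℝ} (hρe : Par ρe) (hee : ∀ A, ρe (cG A) = 1 * ρe A)
    (hρo : Par ρo) (hoo : ∀ A, ρo (cG A) = (-1) * ρo A) :
    8 * (ell ρe e * ell ρo d) = ρe gh * ell ρo 3 * ((4 * SS e d - N5 e d : ℤ) : ℝ) := by
  have hN := N5_eq hk hsq h1 he hd (by rw [h17, h17d]; norm_num)
  have hc : ∀ A, ((rc d (cG A) : ℤ) : ℝ) = 1 * ((rc d A : ℤ) : ℝ) := by
    intro A; rw [rc_cG, hneg]; push_cast; ring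
  have p1 := ell_prop' (n := e) hρe (rc_par hkd hsqd h1d hd) (ε := 1) (Or.inl rfl) hee hc he gh
  have p2 := ell_prop (n := d) (m := 3) hρo muh_par (ε := -1) (Or.inr rfl) hoo muh_cG' hd
    (by norm_num)
  rw [ell_cast muh_par (by norm_num) (ell_mu_three (by norm_num)),
    ell_cast muh_par hd (ell_mu_rc hkd hsqd h1d hd h17d)] at p2
  rw [ell_cast (rc_par hkd hsqd h1d hd) he rfl] at p1
  have hN' : ((N5 e d : ℤ) : ℝ) = - ((∑ x : (ZMod e)ˣ, chi x * rc d (gam he x) : ℤ) : ℝ)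
      + 4 * ((SS e d : ℤ) : ℝ) := by
    rw [hN]; push_cast; ring
  rw [Int.cast_sub, Int.cast_mul, hN']
  push_cast at p1 p2 ⊢
  linear_combination ell ρo 3 * p1 - ell ρe e * p2

end Vale.Agent.P014.H74
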