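import Vale.Agent.P014.H74.E1

/-!
# Conductor 3, part 2: the sum of the signs
-/

set_option linter.unusedSectionVars false
set_option linter.style.haveILetI false

namespace Vale.Agent.P014.H74

open Finset

theorem sum_units3 (f : (ZMod 3)ˣ → ℤ) : ∑ a, f a = f 1 + f (-1) := by
  have : (Finset.univ : Finset (ZMod 3)ˣ) = {1, -1} := by decide
  rw [this, Finset.sum_pair (by decide)]

theorem bz3_one : bz (1 : (ZMod 3)ˣ) = 1 := by
  unfold bz; rfl

theorem bz3_neg : bz (-1 : (ZMod 3)ˣ) = 2 := by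
  unfold bz; rfl

theorem chi3_neg : chi (-1 : (ZMod 3)ˣ) = -1 := by
  rw [chi_neg, chi_one, Jneg_three (by norm_num)]; norm_num

/-- the third of a class -/
theorem third {m : ℕ} [NeZero m] (h3 : Nat.Coprime 3 m) (hm : m % 3 = 1) (z : (ZMod m)ˣ) :
    3 * bz ((ZMod.unitOfCoprime 3 h3)⁻¹ * z) = bz z + m * ((-bz z) % 3) := by
  set u : (ZMod m)ˣ := ZMod.unitOfCoprime 3 h3 with hu
  set w : (ZMod m)ˣ := u⁻¹ * z with hw
  have hz : z = u * w := by rw [hw, mul_inv_cancel_left]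
  have h0 := bz_nonneg w
  have h1 := bz_lt w
  have h2 := bz_nonneg z
  have h4 := bz_lt z
  have hmz : (m : ℤ) % 3 = 1 := by exact_mod_cast hm
  have h5 : (m : ℤ) ∣ 3 * bz w - bz z := by
    rw [← ZMod.intCast_zmod_eq_zero_iff_dvd]
    push_cast
    rw [bz_cast, bz_cast, hz]
    simp [hu]
  obtain ⟨k, hk⟩ := h5
  have hmpos : (0 : ℤ) < m := dpos
  have k0 : 0 ≤ k := by
    by_contra hcon; push Not at hcon
    have : (m : ℤ) * k ≤ -m := by nlinarith
    omega
  have k3 : k < 3 := by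
    by_contra hcon; push Not at hcon
    have : 3 * (m : ℤ) ≤ m * k := by nlinarith
    omega
  have hkz : (-bz z) % 3 = k := by
    have e : -bz z = (m * k) - 3 * bz w := by linarith
    rw [e]
    have : ((m : ℤ) * k - 3 * bz w) % 3 = ((m : ℤ) * k) % 3 := by omega
    rw [this, Int.mul_emod, hmz]
    omega
  rw [hkz]; linarith

/-- the sign in terms of the residue -/
theorem sign_residue {m A B r k : ℤ} (hm : 0 < m) (hA : 0 < A) (hA' : A < m) (hB : 0 < B)
    (hB' : B < m) (r0 : 0 ≤ r) (r1 : r < m) (hr : r - (A - B) = m * k) (hne : A - B ≠ 0) :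
    m * (A - B).sign = m - 2 * r + 2 * (A - B) := by
  rcases lt_or_gt_of_ne hne with h0 | h0
  · rw [Int.sign_eq_neg_one_of_neg h0]
    have hk0 : k = 1 := by
      have a1 : 0 < m * k := by linarith
      have a2 : 0 < k := by
        by_contra hcon; push Not at hcon; nlinarith
      have a3 : m * k < 2 * m := by linarith
      have a4 : k < 2 := by nlinarith
      omega
    rw [hk0] at hr; linarith
  · rw [Int.sign_eq_one_of_pos h0]
    have hk0 : k = 0 := by
      have a1 : -m < m * k := by linarith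
      have a2 : -1 < k := by nlinarith
      have a3 : m * k < m := by linarith
      have a4 : k < 1 := by nlinarith
      omega
    rw [hk0] at hr; linarith

section

variable {V W : ℕ} [NeZero V] [NeZero W]

/-- `m SS(3 V, 3 W) = 8 AH(m)` -/
theorem SS3_AH (hV4 : V % 4 = 3) (hW4 : W % 4 = 1) (hsq : Squarefree (V * W))
    (h3 : Nat.Coprime 3 (V * W)) (hm : (V * W) % 3 = 1) :
    ((V * W : ℕ) : ℤ) * SS (3 * V) (3 * W) = 8 * AH (V * W) := by
  have hco : Nat.Coprime V W := (Nat.squarefree_mul_iff.mp hsq).1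
  have hsqV : Squarefree V := (Nat.squarefree_mul_iff.mp hsq).2.1
  have hsqW : Squarefree W := (Nat.squarefree_mul_iff.mp hsq).2.2
  have h3V : Nat.Coprime 3 V := Nat.Coprime.coprime_mul_right_right h3
  have h3W : Nat.Coprime 3 W := Nat.Coprime.coprime_mul_left_right h3
  have hkV : Odd V := Nat.odd_iff.mpr (by omega)
  have hkW : Odd W := Nat.odd_iff.mpr (by omega)
  have hkm : Odd (V * W) := hkV.mul hkW
  have hVpos : (0 : ℤ) < V := dpos
  have hWpos : (0 : ℤ) < W := dpos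
  have hm1 : V * W ≠ 1 := by
    intro h; have := Nat.eq_one_of_mul_eq_one_right h; omega
  have hmz : ((V : ℤ) * W) % 3 = 1 := by exact_mod_cast hm
  -- the two classes modulo 3 agree
  have hVW : (V : ℤ) % 3 = (W : ℤ) % 3 ∧ (V : ℤ) % 3 ≠ 0 := by
    have h1 : (V : ℤ) % 3 = 0 ∨ (V : ℤ) % 3 = 1 ∨ (V : ℤ) % 3 = 2 := by omega
    have h2 : (W : ℤ) % 3 = 0 ∨ (W : ℤ) % 3 = 1 ∨ (W : ℤ) % 3 = 2 := by omega
    rw [Int.mul_emod] at hmz
    rcases h1 with h1 | h1 | h1 <;> rcases h2 with h2 | h2 | h2 <;> rw [h1, h2] at hmz ⊢ <;>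
      revert hmz <;> decide
  obtain ⟨hVW1, hV0⟩ := hVW
  -- symbols
  have hJm : chi (ZMod.unitOfCoprime 3 h3 : (ZMod (V * W))ˣ) = -1 := by
    rw [chi_of_cast _ 3 (by simp)]
    have hm4 : (V * W) % 4 = 3 := by rw [Nat.mul_mod, hV4, hW4]
    have := jacobiSym.quadratic_reciprocity_three_mod_four (a := 3) (b := V * W) (by norm_num) hm4
    rw [show ((3 : ℤ)) = ((3 : ℕ) : ℤ) by norm_num, this]
    have h1 : ((V * W : ℕ) : ℤ) ≡ 1 [ZMOD (3 : ℕ)] := by
      unfold Int.ModEq; push_cast; rw [hmz]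
    rw [jacobiSym.mod_left' h1, jacobiSym.one_left]
  set sWV : (ZMod V)ˣ := ZMod.unitOfCoprime W hco.symm with hsWV
  set sVW : (ZMod W)ˣ := ZMod.unitOfCoprime V hco with hsVW
  have c1 : chi sWV = jacobiSym W V := chi_of_cast _ W (by simp [sWV])
  have c2 : chi sVW = jacobiSym V W := chi_of_cast _ V (by simp [sVW])
  have hrec : chi sWV * chi sVW = 1 := by
    rw [c1, c2, jacobiSym.quadratic_reciprocity_one_mod_four hW4 hkV, ← c2]
    exact chi_sq _
  have hnegW : jacobiSym (-1) W = 1 := Jneg_one hW4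
  let Q : (ZMod V)ˣ × (ZMod W)ˣ ≃ (ZMod (V * W))ˣ :=
    ((Equiv.prodCongr (Equiv.mulLeft sWV) (Equiv.mulLeft (-sVW))).trans (EQ hco).symm.toEquiv)
  have hQ : ∀ x y, EQ hco (Q (x, y)) = (sWV * x, -sVW * y) := by
    intro x y
    change EQ hco ((EQ hco).symm (sWV * x, -sVW * y)) = _
    rw [MulEquiv.apply_symm_apply]
  have hchi : ∀ x y, chi (Q (x, y)) = chi x * chi y := by
    intro x y
    rw [chi_EQ hco, hQ]
    dsimp only
    rw [chi_mul, chi_mul, chi_neg, hnegW]
    linear_combination (chi x * chi y) * hrec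
  -- the function r
  let r : (ZMod (3 * V))ˣ → (ZMod (3 * W))ˣ → ℤ := fun x y =>
    bz (Q ((EQ h3V x).2, (EQ h3W y).2)) + (V * W) *
      ((W * bz (EQ h3V x).1 - V * bz (EQ h3W y).1 - bz (Q ((EQ h3V x).2, (EQ h3W y).2))) % 3)
  have key : ∀ x y, 3 * ((V : ℤ) * W) * (((3 * W : ℕ) : ℤ) * bz x - bz y * ((3 * V : ℕ) : ℤ)).sign =
      3 * ((V : ℤ) * W) - 2 * r x y + 2 * (W * bz x - V * bz y) := by
    intro x y
    set z := Q ((EQ h3V x).2, (EQ h3W y).2) with hz
    have z0 := bz_nonneg z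
    have z1 := bz_lt z
    have hx1 := bz_lt x
    have hy1 := bz_lt y
    have hx0 : 0 < bz x := bz_pos (by omega) x
    have hy0 : 0 < bz y := bz_pos (by omega) y
    have hmm : (0 : ℤ) < (V : ℤ) * W := by positivity
    set t : ℤ := (W * bz (EQ h3V x).1 - V * bz (EQ h3W y).1 - bz z) % 3 with ht
    have hr : r x y = bz z + (V * W) * t := rfl
    have t0 : 0 ≤ t := Int.emod_nonneg _ (by norm_num)
    have t3 : t < 3 := Int.emod_lt_of_pos _ (by norm_num)
    push_cast at z1 hx1 hy1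
    -- congruences
    have ax : (3 : ℤ) ∣ bz x - bz (EQ h3V x).1 := by
      have : ((3 : ℕ) : ℤ) ∣ bz x - bz (EQ h3V x).1 := by
        rw [← ZMod.intCast_zmod_eq_zero_iff_dvd]
        push_cast
        rw [EQ_fst h3V, bz_cast, sub_self]
      exact_mod_cast this
    have ay : (3 : ℤ) ∣ bz y - bz (EQ h3W y).1 := by
      have : ((3 : ℕ) : ℤ) ∣ bz y - bz (EQ h3W y).1 := by
        rw [← ZMod.intCast_zmod_eq_zero_iff_dvd]
        push_cast
        rw [EQ_fst h3W, bz_cast, sub_self]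
      exact_mod_cast this
    have d3 : (3 : ℤ) ∣ r x y - (W * bz x - V * bz y) := by
      rw [hr]
      have e1 : bz z + (V * W : ℤ) * t - (W * bz x - V * bz y) =
          ((V * W : ℤ) - 1) * t + (t - (W * bz (EQ h3V x).1 - V * bz (EQ h3W y).1 - bz z)) -
          W * (bz x - bz (EQ h3V x).1) + V * (bz y - bz (EQ h3W y).1) := by ring
      rw [e1]
      have f1 : (3 : ℤ) ∣ (V * W : ℤ) - 1 := by omega
      have f2 : (3 : ℤ) ∣ t - (W * bz (EQ h3V x).1 - V * bz (EQ h3W y).1 - bz z) := by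
        rw [ht]; omega
      exact dvd_add (dvd_sub (dvd_add (Dvd.dvd.mul_right f1 _) f2) (Dvd.dvd.mul_left ax _))
        (Dvd.dvd.mul_left ay _)
    have dV : (V : ℤ) ∣ r x y - (W * bz x - V * bz y) := by
      rw [hr, ← ZMod.intCast_zmod_eq_zero_iff_dvd]
      have e := EQ_snd h3V x
      push_cast
      rw [EQ_fst hco, hz, hQ, e]
      simp [sWV]
    have dW : (W : ℤ) ∣ r x y - (W * bz x - V * bz y) := by
      rw [hr, ← ZMod.intCast_zmod_eq_zero_iff_dvd]
      have e := EQ_snd h3W y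
      push_cast
      rw [EQ_snd hco, hz, hQ, e]
      simp [sVW]
    have dm : (V : ℤ) * W ∣ r x y - (W * bz x - V * bz y) :=
      IsCoprime.mul_dvd (Nat.isCoprime_iff_coprime.mpr hco) dV dW
    have d3m : (3 : ℤ) * (V * W) ∣ r x y - (W * bz x - V * bz y) := by
      refine IsCoprime.mul_dvd ?_ d3 dm
      have := Nat.isCoprime_iff_coprime.mpr h3
      push_cast at this
      exact this
    obtain ⟨k, hk'⟩ := d3m
    have hne : (W : ℤ) * bz x - V * bz y ≠ 0 := by
      intro h0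
      have h5 : (V : ℤ) ∣ W * bz x := ⟨bz y, by linarith⟩
      have h6 : (V : ℤ) ∣ bz x := (Nat.isCoprime_iff_coprime.mpr hco).dvd_of_dvd_mul_left h5
      have h7 := bz_coprime x
      push_cast at h7
      have h8 : IsCoprime (bz x) (V : ℤ) := h7.of_mul_right_right
      have h9 : IsUnit (V : ℤ) := h8.symm.isUnit_of_dvd' dvd_rfl h6
      rw [Int.isUnit_iff] at h9
      omega
    have hs : (((3 * W : ℕ) : ℤ) * bz x - bz y * ((3 * V : ℕ) : ℤ)).sign =
        ((W : ℤ) * bz x - V * bz y).sign := by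
      rw [show ((3 * W : ℕ) : ℤ) * bz x - bz y * ((3 * V : ℕ) : ℤ) =
        3 * ((W : ℤ) * bz x - V * bz y) by push_cast; ring, Int.sign_mul,
        Int.sign_eq_one_of_pos (by norm_num : (0 : ℤ) < 3), one_mul]
    rw [hs]
    have r0 : 0 ≤ r x y := by rw [hr]; positivity
    have r1 : r x y < 3 * (V * W) := by
      rw [hr]
      have : (V * W : ℤ) * t ≤ (V * W) * 2 := by
        apply mul_le_mul_of_nonneg_left _ hmm.le
        omega
      linarith
    have b1 : (W : ℤ) * bz x < 3 * (V * W) := by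
      have := mul_lt_mul_of_pos_left hx1 hWpos
      linarith
    have b2 : (V : ℤ) * bz y < 3 * (V * W) := by
      have := mul_lt_mul_of_pos_left hy1 hVpos
      linarith
    exact sign_residue (by positivity) (by positivity) b1 (by positivity) b2 r0 r1 hk' hne
  have s1 : ∑ x : (ZMod (3 * V))ˣ, chi x = 0 :=
    sum_chi (by exact (by decide : Odd 3).mul hkV)
      (Nat.squarefree_mul_iff.mpr ⟨h3V, sq3, hsqV⟩) (by omega)
  have s2 : ∑ y : (ZMod (3 * W))ˣ, chi y = 0 :=
    sum_chi (by exact (by decide : Odd 3).mul hkW)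
      (Nat.squarefree_mul_iff.mpr ⟨h3W, sq3, hsqW⟩) (by omega)
  -- the sum of r
  have hsum : ∑ x : (ZMod (3 * V))ˣ, ∑ y : (ZMod (3 * W))ˣ, chi x * chi y * r x y =
      -12 * AH (V * W) := by
    have e1 : ∑ x : (ZMod (3 * V))ˣ, ∑ y : (ZMod (3 * W))ˣ, chi x * chi y * r x y =
        ∑ a : (ZMod 3)ˣ, ∑ x' : (ZMod V)ˣ, ∑ b : (ZMod 3)ˣ, ∑ y' : (ZMod W)ˣ,
          (chi a * chi x') * (chi b * chi y') * (bz (Q (x', y')) + (V * W) *
            ((W * bz a - V * bz b - bz (Q (x', y'))) % 3)) := by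
      rw [← Equiv.sum_comp (EQ h3V).symm.toEquiv, Fintype.sum_prod_type]
      refine Finset.sum_congr rfl fun a _ => Finset.sum_congr rfl fun x' _ => ?_
      rw [← Equiv.sum_comp (EQ h3W).symm.toEquiv, Fintype.sum_prod_type]
      refine Finset.sum_congr rfl fun b _ => Finset.sum_congr rfl fun y' _ => ?_
      have k1 : EQ h3V ((EQ h3V).symm.toEquiv (a, x')) = (a, x') :=
        MulEquiv.apply_symm_apply _ _
      have k2 : EQ h3W ((EQ h3W).symm.toEquiv (b, y')) = (b, y') :=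
        MulEquiv.apply_symm_apply _ _
      rw [chi_EQ h3V, chi_EQ h3W]
      simp only [r, k1, k2]
    rw [e1]
    have e2 : ∀ (x' : (ZMod V)ˣ) (y' : (ZMod W)ˣ),
        ∑ a : (ZMod 3)ˣ, ∑ b : (ZMod 3)ˣ, (chi a * chi x') * (chi b * chi y') *
          (bz (Q (x', y')) + (V * W) * ((W * bz a - V * bz b - bz (Q (x', y'))) % 3)) =
        chi (Q (x', y')) * (9 * bz ((ZMod.unitOfCoprime 3 h3)⁻¹ * Q (x', y')) -
          3 * bz (Q (x', y')) - 3 * (V * W)) := by
      intro x' y'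
      set z := Q (x', y') with hz
      have ht := third h3 hm z
      rw [sum_units3, sum_units3, sum_units3, hchi]
      simp only [bz3_one, bz3_neg, chi3_neg, chi_one]
      have hres : ((W * 1 - V * 1 - bz z) % 3 : ℤ) + (W * 2 - V * 2 - bz z) % 3 -
          (W * 1 - V * 2 - bz z) % 3 - (W * 2 - V * 1 - bz z) % 3 = 3 * ((-bz z) % 3) - 3 := by
        generalize bz z = u
        generalize (V : ℤ) = p at hVW1 hV0 ⊢
        generalize (W : ℤ) = q at hVW1 ⊢
        have c1 : p % 3 = 1 ∨ p % 3 = 2 := by omega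
        have c2 : u % 3 = 0 ∨ u % 3 = 1 ∨ u % 3 = 2 := by omega
        rcases c1 with c1 | c1 <;> rcases c2 with c2 | c2 | c2 <;> omega
      push_cast at ht
      linear_combination (chi x' * chi y' * (V * W)) * hres - 3 * (chi x' * chi y') * ht
    have e3 : ∑ a : (ZMod 3)ˣ, ∑ x' : (ZMod V)ˣ, ∑ b : (ZMod 3)ˣ, ∑ y' : (ZMod W)ˣ,
          (chi a * chi x') * (chi b * chi y') * (bz (Q (x', y')) + (V * W) *
            ((W * bz a - V * bz b - bz (Q (x', y'))) % 3)) =
        ∑ x' : (ZMod V)ˣ, ∑ y' : (ZMod W)ˣ, ∑ a : (ZMod 3)ˣ, ∑ b : (ZMod 3)ˣ,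
          (chi a * chi x') * (chi b * chi y') * (bz (Q (x', y')) + (V * W) *
            ((W * bz a - V * bz b - bz (Q (x', y'))) % 3)) := by
      rw [Finset.sum_comm]
      refine Finset.sum_congr rfl fun x' _ => ?_
      have : ∀ a : (ZMod 3)ˣ, ∑ b : (ZMod 3)ˣ, ∑ y' : (ZMod W)ˣ,
          (chi a * chi x') * (chi b * chi y') * (bz (Q (x', y')) + (V * W) *
            ((W * bz a - V * bz b - bz (Q (x', y'))) % 3)) =
          ∑ y' : (ZMod W)ˣ, ∑ b : (ZMod 3)ˣ,
          (chi a * chi x') * (chi b * chi y') * (bz (Q (x', y')) + (V * W) *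
            ((W * bz a - V * bz b - bz (Q (x', y'))) % 3)) := fun a => Finset.sum_comm
      rw [Finset.sum_congr rfl (fun a _ => this a), Finset.sum_comm]
    rw [e3]
    simp only [e2]
    have e4 : ∑ x' : (ZMod V)ˣ, ∑ y' : (ZMod W)ˣ, chi (Q (x', y')) *
        (9 * bz ((ZMod.unitOfCoprime 3 h3)⁻¹ * Q (x', y')) -
          3 * bz (Q (x', y')) - 3 * (V * W)) =
        ∑ z : (ZMod (V * W))ˣ, chi z * (9 * bz ((ZMod.unitOfCoprime 3 h3)⁻¹ * z) -
          3 * bz z - 3 * (V * W)) := by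
      rw [← Equiv.sum_comp Q, Fintype.sum_prod_type]
    rw [e4]
    have e5 : ∀ z : (ZMod (V * W))ˣ, chi z * (9 * bz ((ZMod.unitOfCoprime 3 h3)⁻¹ * z) -
          3 * bz z - 3 * (V * W)) = 9 * (chi z * bz ((ZMod.unitOfCoprime 3 h3)⁻¹ * z)) -
          3 * (chi z * bz z) - 3 * (V * W) * chi z := by intro z; ring
    simp only [e5]
    rw [Finset.sum_sub_distrib, Finset.sum_sub_distrib, ← Finset.mul_sum, ← Finset.mul_sum,
      ← Finset.mul_sum, sum_chi hkm hsq hm1, ← AH_units]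
    have e6 : ∑ z : (ZMod (V * W))ˣ, chi z * bz ((ZMod.unitOfCoprime 3 h3)⁻¹ * z) =
        - AH (V * W) := by
      rw [← Equiv.sum_comp (Equiv.mulLeft (ZMod.unitOfCoprime 3 h3)), AH_units,
        ← Finset.sum_neg_distrib]
      refine Finset.sum_congr rfl fun z _ => ?_
      change chi (ZMod.unitOfCoprime 3 h3 * z) *
        bz ((ZMod.unitOfCoprime 3 h3)⁻¹ * (ZMod.unitOfCoprime 3 h3 * z)) = _
      rw [chi_mul, hJm, inv_mul_cancel_left]; ring
    rw [e6]; ring
  have hfin : 3 * ((V : ℤ) * W) * SS (3 * V) (3 * W) = 24 * AH (V * W) := by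
    unfold SS
    rw [Finset.mul_sum]
    have e7 : ∀ x : (ZMod (3 * V))ˣ, 3 * ((V : ℤ) * W) * ∑ y : (ZMod (3 * W))ˣ, chi x * chi y *
        (((3 * W : ℕ) : ℤ) * bz x - bz y * ((3 * V : ℕ) : ℤ)).sign =
        (3 * (V * W) * chi x + 2 * W * (chi x * bz x)) * (∑ y : (ZMod (3 * W))ˣ, chi y) -
        chi x * (2 * V * ∑ y : (ZMod (3 * W))ˣ, chi y * bz y) -
        2 * ∑ y : (ZMod (3 * W))ˣ, chi x * chi y * r x y := by
      intro x
      rw [Finset.mul_sum, Finset.mul_sum, Finset.mul_sum, Finset.mul_sum, Finset.mul_sum,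
        ← Finset.sum_sub_distrib, ← Finset.sum_sub_distrib]
      refine Finset.sum_congr rfl fun y _ => ?_
      have := key x y
      linear_combination chi x * chi y * this
    have e8 : ∑ x : (ZMod (3 * V))ˣ, chi x * (2 * V * ∑ y : (ZMod (3 * W))ˣ, chi y * bz y) = 0 := by
      rw [← Finset.sum_mul, s1, zero_mul]
    rw [Finset.sum_congr rfl (fun x _ => e7 x), Finset.sum_sub_distrib, Finset.sum_sub_distrib, s2,
      ← Finset.sum_mul, ← Finset.mul_sum, e8, hsum]
    ring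
  push_cast
  linarith

end

end Vale.Agent.P014.H74
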