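import Vale.Agent.P014.H74.E2
import Vale.Agent.P014.H74.Iface2

/-!
# Conductor 3, part 3: the crossing numbers as sums over matrices of determinant `9 m`
-/

set_option linter.unusedSectionVars false
set_option linter.style.haveILetI false

namespace Vale.Agent.P014.H74

open Finset

/-- the crossing number as a finite sum -/
theorem Jcr_sum {c e b d : ℤ} (he : 0 < e) (hd : 0 < d) : Jcr c e b d = ∑ M ∈ SF (e * d), -2 * (M.w * M.v).sign *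
    (if e ∣ M.X + 17 * c * M.w ∧ e ∣ M.Y + c * M.v ∧ d ∣ M.v - 17 * b * M.w ∧
      e * d ∣ (M.Y + c * M.v) - b * (M.X + 17 * c * M.w) then 1 else 0) := by
  classical
  have hed : e * d ≠ 0 := (mul_pos he hd).ne'
  unfold Jcr
  set g : M4 → ℤ := fun M => if M ∈ SF (e * d) then -2 * (M.w * M.v).sign *
    (if e ∣ M.X + 17 * c * M.w ∧ e ∣ M.Y + c * M.v ∧ d ∣ M.v - 17 * b * M.w ∧
      e * d ∣ (M.Y + c * M.v) - b * (M.X + 17 * c * M.w) then 1 else 0) else 0 with hg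
  have h1 : ∑ᶠ M : M4, g M = ∑ M ∈ SF (e * d), -2 * (M.w * M.v).sign *
    (if e ∣ M.X + 17 * c * M.w ∧ e ∣ M.Y + c * M.v ∧ d ∣ M.v - 17 * b * M.w ∧
      e * d ∣ (M.Y + c * M.v) - b * (M.X + 17 * c * M.w) then 1 else 0) := by
    rw [finsum_eq_sum_of_support_subset (s := SF (e * d))]
    · exact Finset.sum_congr rfl fun M hM => if_pos hM
    · intro M hM
      by_contra hcon
      rw [Finset.mem_coe] at hcon
      exact hM (if_neg hcon)
  rw [← h1]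
  have e1 : ∑ᶠ M : M4, g M = ∑ᶠ M ∈ Set.range (phi c e), g M := by
    rw [← finsum_mem_univ g]
    refine finsum_mem_inter_support_eq' _ _ _ ?_
    intro M hM
    refine ⟨fun _ => ?_, fun _ => Set.mem_univ _⟩
    have hM' : e ∣ M.X + 17 * c * M.w ∧ e ∣ M.Y + c * M.v := by
      by_contra hcon
      apply hM
      rw [hg]
      dsimp only
      rw [if_neg (c := e ∣ M.X + 17 * c * M.w ∧ _) (fun h => hcon ⟨h.1, h.2.1⟩), mul_zero, ite_self]
    obtain ⟨⟨x, hx⟩, ⟨y, hy⟩⟩ := hM'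
    refine ⟨⟨x, y, M.w, M.v⟩, ?_⟩
    ext
    · simp only [phi]; linarith
    · simp only [phi]; linarith
    · rfl
    · rfl
  rw [e1, finsum_mem_range (phi_inj he.ne')]
  refine finsum_congr fun N => ?_
  have k1 : (phi c e N).X + 17 * c * (phi c e N).w = e * N.X := by simp only [phi]; ring
  have k2 : (phi c e N).Y + c * (phi c e N).v = e * N.Y := by simp only [phi]; ring
  have k3 : (phi c e N).v - 17 * b * (phi c e N).w = N.v - 17 * b * N.w := rfl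
  rw [hg]
  dsimp only
  rw [k1, k2, k3]
  have hdet := phi_det c e N
  by_cases hN : Cf c e b d N
  · obtain ⟨⟨f1, f2, f3⟩, f4, f5⟩ := hN
    have hm : phi c e N ∈ SF (e * d) := by
      rw [mem_SF]; exact ⟨by rw [hdet, f1], f4, f5⟩
    rw [if_pos ⟨⟨f1, f2, f3⟩, f4, f5⟩, if_pos hm, if_pos, mul_one]
    · rfl
    · refine ⟨Dvd.intro _ rfl, Dvd.intro _ rfl, f3, ?_⟩
      rw [show e * N.Y - b * (e * N.X) = e * (N.Y - b * N.X) by ring]
      exact mul_dvd_mul_left e f2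
  · rw [if_neg hN]
    by_cases hm : phi c e N ∈ SF (e * d)
    · rw [if_pos hm, if_neg, mul_zero]
      rintro ⟨-, -, g3, g4⟩
      apply hN
      rw [mem_SF, hdet] at hm
      refine ⟨⟨mul_left_cancel₀ he.ne' hm.1, ?_, g3⟩, hm.2.1, hm.2.2⟩
      rw [show e * N.Y - b * (e * N.X) = e * (N.Y - b * N.X) by ring] at g4
      exact (mul_dvd_mul_iff_left he.ne').mp g4
    · rw [if_neg hm]

/-- the condition at `3` -/
def T3 (M : M4) (c b : ℤ) : Prop :=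
  3 ∣ M.X + 17 * c * M.w ∧ 3 ∣ M.Y + c * M.v ∧ 3 ∣ M.v - 17 * b * M.w ∧
    9 ∣ (M.Y + c * M.v) - b * (M.X + 17 * c * M.w)

instance (M : M4) (c b : ℤ) : Decidable (T3 M c b) := by unfold T3; infer_instance

theorem T3_congr {M : M4} {c c' b b' : ℤ} (hc : 3 ∣ c - c') (hb : 3 ∣ b - b') :
    T3 M c b ↔ T3 M c' b' := by
  obtain ⟨k, hk⟩ := hc
  obtain ⟨l, hl⟩ := hb
  obtain rfl : c = c' + 3 * k := by linarith
  obtain rfl : b = b' + 3 * l := by linarith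
  unfold T3
  constructor
  · rintro ⟨⟨a1, h1⟩, ⟨a2, h2⟩, ⟨a3, h3⟩, ⟨a4, h4⟩⟩
    have e1 : M.X + 17 * c' * M.w = 3 * (a1 - 17 * k * M.w) := by linear_combination h1
    have e3 : M.v - 17 * b' * M.w = 3 * (a3 + 17 * l * M.w) := by linear_combination h3
    refine ⟨⟨_, e1⟩, ⟨a2 - k * M.v, by linear_combination h2⟩, ⟨_, e3⟩, ?_⟩
    refine ⟨a4 - k * a3 + l * a1 - 17 * k * l * M.w, ?_⟩
    linear_combination h4 - 3 * k * h3 + 3 * l * h1
  · rintro ⟨⟨a1, h1⟩, ⟨a2, h2⟩, ⟨a3, h3⟩, ⟨a4, h4⟩⟩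
    refine ⟨⟨a1 + 17 * k * M.w, by linear_combination h1⟩, ⟨a2 + k * M.v, by linear_combination h2⟩,
      ⟨a3 - 17 * l * M.w, by linear_combination h3⟩, ?_⟩
    refine ⟨a4 + k * a3 - l * a1 - 17 * k * l * M.w, ?_⟩
    linear_combination h4 + 3 * k * h3 - 3 * l * h1

/-- the weight at `3` -/
def kap3 (M : M4) : ℤ :=
  ∑ a : (ZMod 3)ˣ, ∑ b : (ZMod 3)ˣ, chi a * chi b * (if T3 M (bz a) (bz b) then 1 else 0)

theorem kap3_eq (M : M4) : kap3 M = (if T3 M 1 1 then 1 else 0) - (if T3 M 1 2 then 1 else 0) -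
    (if T3 M 2 1 then 1 else 0) + (if T3 M 2 2 then 1 else 0) := by
  unfold kap3
  rw [sum_units3, sum_units3, sum_units3]
  simp only [bz3_one, bz3_neg, chi3_neg, chi_one]
  ring

section

variable {V W : ℕ} [NeZero V] [NeZero W]

theorem N5_sum (hco : Nat.Coprime V W) (h3V : Nat.Coprime 3 V) (h3W : Nat.Coprime 3 W) :
    N5 (3 * V) (3 * W) = ∑ M ∈ SF (((9 * (V * W) : ℕ)) : ℤ), ff V W M * kap3 M := by
  have hVpos : (0 : ℤ) < V := dpos
  have hWpos : (0 : ℤ) < W := dpos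
  -- the splitting of the condition
  have hsplit : ∀ (M : M4) (x : (ZMod (3 * V))ˣ) (y : (ZMod (3 * W))ˣ),
      (((3 * V : ℕ) : ℤ) ∣ M.X + 17 * bz x * M.w ∧ ((3 * V : ℕ) : ℤ) ∣ M.Y + bz x * M.v ∧
        ((3 * W : ℕ) : ℤ) ∣ M.v - 17 * bz y * M.w ∧
        ((3 * V : ℕ) : ℤ) * ((3 * W : ℕ) : ℤ) ∣ (M.Y + bz x * M.v) - bz y * (M.X + 17 * bz x * M.w)) ↔
      (((V : ℤ) ∣ M.X + (17 * M.w) * bz (EQ h3V x).2 ∧ (V : ℤ) ∣ M.Y + M.v * bz (EQ h3V x).2) ∧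
       ((W : ℤ) ∣ M.Y + (-M.X) * bz (EQ h3W y).2 ∧ (W : ℤ) ∣ M.v + (-17 * M.w) * bz (EQ h3W y).2)) ∧
       T3 M (bz (EQ h3V x).1) (bz (EQ h3W y).1) := by
    intro M x y
    have aV : (V : ℤ) ∣ bz x - bz (EQ h3V x).2 := by
      rw [← ZMod.intCast_zmod_eq_zero_iff_dvd]
      push_cast
      rw [EQ_snd h3V, bz_cast, sub_self]
    have aW : (W : ℤ) ∣ bz y - bz (EQ h3W y).2 := by
      rw [← ZMod.intCast_zmod_eq_zero_iff_dvd]
      push_cast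
      rw [EQ_snd h3W, bz_cast, sub_self]
    have ax : (3 : ℤ) ∣ bz x - bz (EQ h3V x).1 := by
      have : ((3 : ℕ) : ℤ) ∣ bz x - bz (EQ h3V x).1 := by
        rw [← ZMod.intCast_zmod_eq_zero_iff_dvd]
        push_cast
        rw [EQ_fst h3V, bz_cast, sub_self]
      exact_mod_cast this
    have ay : (3 : ℤ) ∣ bz y - bz (EQ h3W y).1 := by
      have : ((3 : ℕ) : ℤ) ∣ bz y - bz (EQ h3W y).1 := by
        rw [← ZMod.intCast_zmod_eq_zero_iff_dvd]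
        push_cast
        rw [EQ_fst h3W, bz_cast, sub_self]
      exact_mod_cast this
    rw [← T3_congr ax ay, ← dvd_congr M.X (17 * M.w) aV, ← dvd_congr M.Y M.v aV,
      ← dvd_congr M.Y (-M.X) aW, ← dvd_congr M.v (-17 * M.w) aW]
    set c := bz x
    set b := bz y
    rw [show M.X + 17 * M.w * c = M.X + 17 * c * M.w by ring,
      show M.Y + M.v * c = M.Y + c * M.v by ring,
      show M.Y + -M.X * b = M.Y - b * M.X by ring,
      show M.v + -17 * M.w * b = M.v - 17 * b * M.w by ring]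
    have c3V : IsCoprime (3 : ℤ) V := by
      have := Nat.isCoprime_iff_coprime.mpr h3V; push_cast at this; exact this
    have c3W : IsCoprime (3 : ℤ) W := by
      have := Nat.isCoprime_iff_coprime.mpr h3W; push_cast at this; exact this
    have cVW : IsCoprime (V : ℤ) W := Nat.isCoprime_iff_coprime.mpr hco
    have c9 : IsCoprime (9 : ℤ) (V * W) := by
      have : IsCoprime (3 * 3 : ℤ) (V * W) := (c3V.mul_right c3W).mul_left (c3V.mul_right c3W)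
      simpa using this
    have hd3 : ∀ (n : ℕ) (t : ℤ), IsCoprime (3 : ℤ) n → (((3 * n : ℕ) : ℤ) ∣ t ↔ (3 : ℤ) ∣ t ∧ (n : ℤ) ∣ t) := by
      intro n t hc
      push_cast
      exact ⟨fun h => ⟨(Dvd.intro _ rfl).trans h, (Dvd.intro_left _ rfl).trans h⟩,
        fun h => hc.mul_dvd h.1 h.2⟩
    have h9 : ∀ t : ℤ, ((3 * V : ℕ) : ℤ) * ((3 * W : ℕ) : ℤ) ∣ t ↔ (9 : ℤ) ∣ t ∧ (V : ℤ) ∣ t ∧ (W : ℤ) ∣ t := by
      intro t
      have e : ((3 * V : ℕ) : ℤ) * ((3 * W : ℕ) : ℤ) = 9 * (V * W) := by push_cast; ring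
      rw [e]
      constructor
      · intro h
        refine ⟨(Dvd.intro _ rfl).trans h, ?_, ?_⟩
        · exact Dvd.dvd.trans (Dvd.intro (9 * (W : ℤ)) (by ring)) h
        · exact Dvd.dvd.trans (Dvd.intro (9 * (V : ℤ)) (by ring)) h
      · rintro ⟨h1, h2, h3⟩
        exact c9.mul_dvd h1 (cVW.mul_dvd h2 h3)
    rw [hd3 V _ c3V, hd3 V _ c3V, hd3 W _ c3W, h9]
    unfold T3
    constructor
    · rintro ⟨⟨g1, g2⟩, ⟨g3, g4⟩, ⟨g5, g6⟩, g7, g8, g9⟩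
      refine ⟨⟨⟨g2, g4⟩, ?_, g6⟩, g1, g3, g5, g7⟩
      have e : M.Y - b * M.X = (M.Y + c * M.v - b * (M.X + 17 * c * M.w)) - c * (M.v - 17 * b * M.w) := by
        ring
      rw [e]; exact dvd_sub g9 (Dvd.dvd.mul_left g6 _)
    · rintro ⟨⟨⟨g2, g4⟩, gY, g6⟩, g1, g3, g5, g7⟩
      refine ⟨⟨g1, g2⟩, ⟨g3, g4⟩, ⟨g5, g6⟩, g7, ?_, ?_⟩
      · exact dvd_sub g4 (Dvd.dvd.mul_left g2 _)
      · have e : (M.Y + c * M.v - b * (M.X + 17 * c * M.w)) = (M.Y - b * M.X) + c * (M.v - 17 * b * M.w) := by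
          ring
        rw [e]; exact dvd_add gY (Dvd.dvd.mul_left g6 _)
  unfold N5
  have he : (0 : ℤ) < ((3 * V : ℕ) : ℤ) := by push_cast; positivity
  have hd : (0 : ℤ) < ((3 * W : ℕ) : ℤ) := by push_cast; positivity
  have hD : ((3 * V : ℕ) : ℤ) * ((3 * W : ℕ) : ℤ) = ((9 * (V * W) : ℕ) : ℤ) := by push_cast; ring
  have h1 : ∀ (x : (ZMod (3 * V))ˣ) (y : (ZMod (3 * W))ˣ),
      chi x * chi y * Jcr (bz x) ((3 * V : ℕ) : ℤ) (bz y) ((3 * W : ℕ) : ℤ) =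
      ∑ M ∈ SF ((9 * (V * W) : ℕ) : ℤ), -2 * (M.w * M.v).sign *
      ((chi (EQ h3V x).1 * chi (EQ h3W y).1 *
        (if T3 M (bz (EQ h3V x).1) (bz (EQ h3W y).1) then 1 else 0)) *
      ((chi (EQ h3V x).2 * (if (V : ℤ) ∣ M.X + (17 * M.w) * bz (EQ h3V x).2 ∧
          (V : ℤ) ∣ M.Y + M.v * bz (EQ h3V x).2 then 1 else 0)) *
      (chi (EQ h3W y).2 * (if (W : ℤ) ∣ M.Y + (-M.X) * bz (EQ h3W y).2 ∧
          (W : ℤ) ∣ M.v + (-17 * M.w) * bz (EQ h3W y).2 then 1 else 0)))) := by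
    intro x y
    rw [Jcr_sum he hd, Finset.mul_sum, hD]
    refine Finset.sum_congr rfl fun M _ => ?_
    rw [← hD]
    simp only [hsplit M x y]
    rw [chi_EQ h3V, chi_EQ h3W]
    split_ifs <;> first | ring1 | (exfalso; tauto)
  simp only [h1]
  have h2 : ∀ (M : M4), ∑ x : (ZMod (3 * V))ˣ, ∑ y : (ZMod (3 * W))ˣ,
      -2 * (M.w * M.v).sign *
      ((chi (EQ h3V x).1 * chi (EQ h3W y).1 *
        (if T3 M (bz (EQ h3V x).1) (bz (EQ h3W y).1) then 1 else 0)) *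
      ((chi (EQ h3V x).2 * (if (V : ℤ) ∣ M.X + (17 * M.w) * bz (EQ h3V x).2 ∧
          (V : ℤ) ∣ M.Y + M.v * bz (EQ h3V x).2 then 1 else 0)) *
      (chi (EQ h3W y).2 * (if (W : ℤ) ∣ M.Y + (-M.X) * bz (EQ h3W y).2 ∧
          (W : ℤ) ∣ M.v + (-17 * M.w) * bz (EQ h3W y).2 then 1 else 0)))) =
      ff V W M * kap3 M := by
    intro M
    set F : (ZMod V)ˣ → ℤ := fun x => chi x * (if (V : ℤ) ∣ M.X + (17 * M.w) * bz x ∧
          (V : ℤ) ∣ M.Y + M.v * bz x then 1 else 0) with hF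
    set H : (ZMod W)ˣ → ℤ := fun y => chi y * (if (W : ℤ) ∣ M.Y + (-M.X) * bz y ∧
          (W : ℤ) ∣ M.v + (-17 * M.w) * bz y then 1 else 0) with hH
    have e1 : ∑ x : (ZMod (3 * V))ˣ, ∑ y : (ZMod (3 * W))ˣ,
      -2 * (M.w * M.v).sign *
      ((chi (EQ h3V x).1 * chi (EQ h3W y).1 *
        (if T3 M (bz (EQ h3V x).1) (bz (EQ h3W y).1) then 1 else 0)) *
      (F (EQ h3V x).2 * H (EQ h3W y).2)) =
        ∑ a : (ZMod 3)ˣ, ∑ x' : (ZMod V)ˣ, ∑ b : (ZMod 3)ˣ, ∑ y' : (ZMod W)ˣ,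
        -2 * (M.w * M.v).sign * ((chi a * chi b * (if T3 M (bz a) (bz b) then 1 else 0)) *
          (F x' * H y')) := by
      rw [← Equiv.sum_comp (EQ h3V).symm.toEquiv, Fintype.sum_prod_type]
      refine Finset.sum_congr rfl fun a _ => Finset.sum_congr rfl fun x' _ => ?_
      rw [← Equiv.sum_comp (EQ h3W).symm.toEquiv, Fintype.sum_prod_type]
      refine Finset.sum_congr rfl fun b _ => Finset.sum_congr rfl fun y' _ => ?_
      have k1 : EQ h3V ((EQ h3V).symm.toEquiv (a, x')) = (a, x') :=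
        MulEquiv.apply_symm_apply _ _
      have k2 : EQ h3W ((EQ h3W).symm.toEquiv (b, y')) = (b, y') :=
        MulEquiv.apply_symm_apply _ _
      simp only [k1, k2]
    rw [e1]
    have e2 : ff V W M = -2 * (M.w * M.v).sign * ((∑ x', F x') * (∑ y', H y')) := by
      unfold ff Wt
      rw [PP_units, PP_units]
    rw [e2]
    unfold kap3
    rw [Finset.sum_mul_sum]
    simp only [Finset.mul_sum, Finset.sum_mul]
    refine Finset.sum_congr rfl fun a _ => ?_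
    rw [Finset.sum_comm]
    refine Finset.sum_congr rfl fun b _ => ?_
    refine Finset.sum_congr rfl fun x' _ => ?_
    refine Finset.sum_congr rfl fun y' _ => ?_
    ring
  have h3 : ∑ x : (ZMod (3 * V))ˣ, ∑ y : (ZMod (3 * W))ˣ, ∑ M ∈ SF ((9 * (V * W) : ℕ) : ℤ),
      -2 * (M.w * M.v).sign *
      ((chi (EQ h3V x).1 * chi (EQ h3W y).1 *
        (if T3 M (bz (EQ h3V x).1) (bz (EQ h3W y).1) then 1 else 0)) *
      ((chi (EQ h3V x).2 * (if (V : ℤ) ∣ M.X + (17 * M.w) * bz (EQ h3V x).2 ∧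
          (V : ℤ) ∣ M.Y + M.v * bz (EQ h3V x).2 then 1 else 0)) *
      (chi (EQ h3W y).2 * (if (W : ℤ) ∣ M.Y + (-M.X) * bz (EQ h3W y).2 ∧
          (W : ℤ) ∣ M.v + (-17 * M.w) * bz (EQ h3W y).2 then 1 else 0)))) =
      ∑ M ∈ SF ((9 * (V * W) : ℕ) : ℤ), ∑ x : (ZMod (3 * V))ˣ, ∑ y : (ZMod (3 * W))ˣ,
      -2 * (M.w * M.v).sign *
      ((chi (EQ h3V x).1 * chi (EQ h3W y).1 *
        (if T3 M (bz (EQ h3V x).1) (bz (EQ h3W y).1) then 1 else 0)) *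
      ((chi (EQ h3V x).2 * (if (V : ℤ) ∣ M.X + (17 * M.w) * bz (EQ h3V x).2 ∧
          (V : ℤ) ∣ M.Y + M.v * bz (EQ h3V x).2 then 1 else 0)) *
      (chi (EQ h3W y).2 * (if (W : ℤ) ∣ M.Y + (-M.X) * bz (EQ h3W y).2 ∧
          (W : ℤ) ∣ M.v + (-17 * M.w) * bz (EQ h3W y).2 then 1 else 0)))) := by
    have : ∀ x : (ZMod (3 * V))ˣ, ∑ y : (ZMod (3 * W))ˣ, ∑ M ∈ SF ((9 * (V * W) : ℕ) : ℤ),
      -2 * (M.w * M.v).sign *
      ((chi (EQ h3V x).1 * chi (EQ h3W y).1 *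
        (if T3 M (bz (EQ h3V x).1) (bz (EQ h3W y).1) then 1 else 0)) *
      ((chi (EQ h3V x).2 * (if (V : ℤ) ∣ M.X + (17 * M.w) * bz (EQ h3V x).2 ∧
          (V : ℤ) ∣ M.Y + M.v * bz (EQ h3V x).2 then 1 else 0)) *
      (chi (EQ h3W y).2 * (if (W : ℤ) ∣ M.Y + (-M.X) * bz (EQ h3W y).2 ∧
          (W : ℤ) ∣ M.v + (-17 * M.w) * bz (EQ h3W y).2 then 1 else 0)))) =
      ∑ M ∈ SF ((9 * (V * W) : ℕ) : ℤ), ∑ y : (ZMod (3 * W))ˣ,
      -2 * (M.w * M.v).sign *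
      ((chi (EQ h3V x).1 * chi (EQ h3W y).1 *
        (if T3 M (bz (EQ h3V x).1) (bz (EQ h3W y).1) then 1 else 0)) *
      ((chi (EQ h3V x).2 * (if (V : ℤ) ∣ M.X + (17 * M.w) * bz (EQ h3V x).2 ∧
          (V : ℤ) ∣ M.Y + M.v * bz (EQ h3V x).2 then 1 else 0)) *
      (chi (EQ h3W y).2 * (if (W : ℤ) ∣ M.Y + (-M.X) * bz (EQ h3W y).2 ∧
          (W : ℤ) ∣ M.v + (-17 * M.w) * bz (EQ h3W y).2 then 1 else 0)))) := fun x => Finset.sum_comm
    rw [Finset.sum_congr rfl (fun x _ => this x), Finset.sum_comm]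
  rw [h3]
  exact Finset.sum_congr rfl fun M _ => h2 M

end

end Vale.Agent.P014.H74
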