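import Vale.Agent.P014.H74.E3

/-!
# Conductor 3, part 4: the local weight at `3`, weighted divisor sums
-/

set_option linter.unusedSectionVars false
set_option linter.style.haveILetI false

namespace Vale.Agent.P014.H74

open Finset

theorem T3_iff {M : M4} (hdet : (9 : ℤ) ∣ M.X * M.v - 17 * M.w * M.Y) (hw : ¬ (3 : ℤ) ∣ M.w)
    (c b : ℤ) : T3 M c b ↔ (3 : ℤ) ∣ M.X + 17 * c * M.w ∧ (3 : ℤ) ∣ M.v - 17 * b * M.w := by
  constructor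
  · rintro ⟨h1, -, h3, -⟩; exact ⟨h1, h3⟩
  · rintro ⟨⟨a, ha⟩, ⟨b', hb⟩⟩
    obtain ⟨t, ht⟩ := hdet
    have hp : Prime (3 : ℤ) := Int.prime_three
    have h3w : IsCoprime (3 : ℤ) (17 * M.w) := by
      rw [Prime.coprime_iff_not_dvd hp]
      intro h
      rcases hp.dvd_or_dvd h with h | h
      · norm_num at h
      · exact hw h
    have h9w : IsCoprime (9 : ℤ) (17 * M.w) := by
      have : IsCoprime (3 * 3 : ℤ) (17 * M.w) := h3w.mul_left h3w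
      simpa using this
    have e1 : 17 * M.w * (M.Y + c * M.v) = 3 * (a * M.v - 3 * t) := by
      linear_combination M.v * ha - ht
    have e2 : 17 * M.w * ((M.Y + c * M.v) - b * (M.X + 17 * c * M.w)) = 9 * (a * b' - t) := by
      linear_combination M.v * ha - ht - 17 * b * M.w * ha + 3 * a * hb
    refine ⟨⟨a, ha⟩, h3w.dvd_of_dvd_mul_left ⟨_, e1⟩, ⟨b', hb⟩, h9w.dvd_of_dvd_mul_left ⟨_, e2⟩⟩

/-- the weight at `3` of the matrices which are not divisible by `3` -/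
theorem kap3_prim {M : M4} (hdet : (9 : ℤ) ∣ M.X * M.v - 17 * M.w * M.Y)
    (hp : ¬ ((3 : ℤ) ∣ M.X ∧ (3 : ℤ) ∣ M.Y ∧ (3 : ℤ) ∣ M.w ∧ (3 : ℤ) ∣ M.v)) :
    kap3 M = if (M.w * M.Y) % 3 = 0 then 0 else if (M.w * M.Y) % 3 = 1 then 1 else -1 := by
  rw [kap3_eq]
  by_cases hw : (3 : ℤ) ∣ M.w
  · have h0 : (M.w * M.Y) % 3 = 0 := Int.emod_eq_zero_of_dvd (Dvd.dvd.mul_right hw _)
    rw [if_pos h0]
    have hno : ∀ c b : ℤ, ¬ T3 M c b := by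
      rintro c b ⟨h1, h2, h3, -⟩
      apply hp
      have a1 : (3 : ℤ) ∣ M.X := by
        have := dvd_sub h1 (Dvd.dvd.mul_left hw (17 * c))
        simpa using this
      have a2 : (3 : ℤ) ∣ M.v := by
        have := dvd_add h3 (Dvd.dvd.mul_left hw (17 * b))
        simpa using this
      have a3 : (3 : ℤ) ∣ M.Y := by
        have := dvd_sub h2 (Dvd.dvd.mul_left a2 c)
        simpa using this
      exact ⟨a1, a3, hw, a2⟩
    rw [if_neg (hno _ _), if_neg (hno _ _), if_neg (hno _ _), if_neg (hno _ _)]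
    norm_num
  · simp only [T3_iff hdet hw]
    have h3 : (M.X * M.v) % 3 = (- (M.w * M.Y)) % 3 := by
      obtain ⟨t, ht⟩ := hdet
      have : M.X * M.v = - (M.w * M.Y) + 3 * (3 * t + 6 * (M.w * M.Y)) := by linarith
      rw [this]; omega
    rw [Int.mul_emod] at h3
    have e4 : (M.w * M.Y) % 3 = ((M.w % 3) * (M.Y % 3)) % 3 := Int.mul_emod _ _ _
    have h5 : (-(M.w * M.Y)) % 3 = (-(((M.w % 3) * (M.Y % 3)) % 3)) % 3 := by omega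
    rw [h5] at h3
    rw [e4]
    have k1 : (3 : ℤ) ∣ M.X + 17 * 1 * M.w ↔ (M.X % 3 + 2 * (M.w % 3)) % 3 = 0 := by omega
    have k2 : (3 : ℤ) ∣ M.X + 17 * 2 * M.w ↔ (M.X % 3 + (M.w % 3)) % 3 = 0 := by omega
    have k3 : (3 : ℤ) ∣ M.v - 17 * 1 * M.w ↔ (M.v % 3 + (M.w % 3)) % 3 = 0 := by omega
    have k4 : (3 : ℤ) ∣ M.v - 17 * 2 * M.w ↔ (M.v % 3 + 2 * (M.w % 3)) % 3 = 0 := by omega
    simp only [k1, k2, k3, k4]
    have b1 : M.w % 3 = 1 ∨ M.w % 3 = 2 := by omega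
    have b2 : M.X % 3 = 0 ∨ M.X % 3 = 1 ∨ M.X % 3 = 2 := by omega
    have b3 : M.Y % 3 = 0 ∨ M.Y % 3 = 1 ∨ M.Y % 3 = 2 := by omega
    have b4 : M.v % 3 = 0 ∨ M.v % 3 = 1 ∨ M.v % 3 = 2 := by omega
    clear k1 k2 k3 k4 h5 e4
    generalize M.w % 3 = w at b1 h3 ⊢
    generalize M.X % 3 = x at b2 h3 ⊢
    generalize M.Y % 3 = y at b3 h3 ⊢
    generalize M.v % 3 = v at b4 h3 ⊢
    rcases b1 with rfl | rfl <;> rcases b2 with rfl | rfl | rfl <;>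
      rcases b3 with rfl | rfl | rfl <;>
      rcases b4 with rfl | rfl | rfl <;> revert h3 <;> decide

/-- the weight at `3` of the matrices divisible by `3` -/
def kpr (p r : ℕ × ℕ) : ℤ :=
  if 3 ∣ r.1 ∨ 3 ∣ r.2 then (if 3 ∣ r.1 ∧ 3 ∣ r.2 then 2 else -1)
  else if 3 ∣ p.1 ∨ 3 ∣ p.2 then (if 3 ∣ p.1 ∧ 3 ∣ p.2 then -2 else 1) else 0

theorem kap3_mul {p r : ℕ × ℕ} (hdet : (p.1 * p.2 + 17 * (r.1 * r.2)) % 3 = 1) :
    kap3 ⟨((3 * p.1 : ℕ) : ℤ), ((3 * r.2 : ℕ) : ℤ), -((3 * r.1 : ℕ) : ℤ), ((3 * p.2 : ℕ) : ℤ)⟩ =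
      kpr p r := by
  rw [kap3_eq]
  obtain ⟨p1, p2⟩ := p
  obtain ⟨r1, r2⟩ := r
  unfold kpr T3
  dsimp only at hdet ⊢
  have e : (p1 * p2 + 17 * (r1 * r2)) % 3 = ((p1 % 3) * (p2 % 3) + 2 * ((r1 % 3) * (r2 % 3))) % 3 := by
    have h1 : (p1 * p2) % 3 = ((p1 % 3) * (p2 % 3)) % 3 := Nat.mul_mod _ _ _
    have h2 : (r1 * r2) % 3 = ((r1 % 3) * (r2 % 3)) % 3 := Nat.mul_mod _ _ _
    omega
  rw [e] at hdet
  have key : ∀ c b : ℤ, ((3 : ℤ) ∣ ((3 * p1 : ℕ) : ℤ) + 17 * c * -((3 * r1 : ℕ) : ℤ) ∧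
      (3 : ℤ) ∣ ((3 * r2 : ℕ) : ℤ) + c * ((3 * p2 : ℕ) : ℤ) ∧
      (3 : ℤ) ∣ ((3 * p2 : ℕ) : ℤ) - 17 * b * -((3 * r1 : ℕ) : ℤ) ∧
      (9 : ℤ) ∣ ((3 * r2 : ℕ) : ℤ) + c * ((3 * p2 : ℕ) : ℤ) -
        b * (((3 * p1 : ℕ) : ℤ) + 17 * c * -((3 * r1 : ℕ) : ℤ))) ↔
      (3 : ℤ) ∣ (r2 : ℤ) + c * p2 - b * (p1 - 17 * c * r1) := by
    intro c b
    push_cast
    have h9 : (9 : ℤ) ∣ 3 * (r2 : ℤ) + c * (3 * p2) - b * (3 * p1 + 17 * c * -(3 * r1)) ↔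
        (3 : ℤ) ∣ (r2 : ℤ) + c * p2 - b * (p1 - 17 * c * r1) := by
      rw [show 3 * (r2 : ℤ) + c * (3 * p2) - b * (3 * p1 + 17 * c * -(3 * r1)) =
        3 * ((r2 : ℤ) + c * p2 - b * (p1 - 17 * c * r1)) by ring,
        show (9 : ℤ) = 3 * 3 by norm_num]
      exact mul_dvd_mul_iff_left (by norm_num)
    rw [h9]
    constructor
    · intro h; exact h.2.2.2
    · intro h
      refine ⟨⟨(p1 : ℤ) - 17 * c * r1, by ring⟩, ⟨(r2 : ℤ) + c * p2, by ring⟩,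
        ⟨(p2 : ℤ) + 17 * b * r1, by ring⟩, h⟩
  simp only [key]
  have k1 : (3 : ℤ) ∣ (r2 : ℤ) + 1 * p2 - 1 * (p1 - 17 * 1 * r1) ↔
      (r2 % 3 + p2 % 3 + 2 * (p1 % 3) + 2 * (r1 % 3)) % 3 = 0 := by omega
  have k2 : (3 : ℤ) ∣ (r2 : ℤ) + 1 * p2 - 2 * (p1 - 17 * 1 * r1) ↔
      (r2 % 3 + p2 % 3 + (p1 % 3) + (r1 % 3)) % 3 = 0 := by omega
  have k3 : (3 : ℤ) ∣ (r2 : ℤ) + 2 * p2 - 1 * (p1 - 17 * 2 * r1) ↔
      (r2 % 3 + 2 * (p2 % 3) + 2 * (p1 % 3) + (r1 % 3)) % 3 = 0 := by omega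
  have k4 : (3 : ℤ) ∣ (r2 : ℤ) + 2 * p2 - 2 * (p1 - 17 * 2 * r1) ↔
      (r2 % 3 + 2 * (p2 % 3) + (p1 % 3) + 2 * (r1 % 3)) % 3 = 0 := by omega
  simp only [k1, k2, k3, k4, Nat.dvd_iff_mod_eq_zero]
  have b1 : p1 % 3 = 0 ∨ p1 % 3 = 1 ∨ p1 % 3 = 2 := by omega
  have b2 : p2 % 3 = 0 ∨ p2 % 3 = 1 ∨ p2 % 3 = 2 := by omega
  have b3 : r1 % 3 = 0 ∨ r1 % 3 = 1 ∨ r1 % 3 = 2 := by omega
  have b4 : r2 % 3 = 0 ∨ r2 % 3 = 1 ∨ r2 % 3 = 2 := by omega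
  clear e key k1 k2 k3 k4
  generalize p1 % 3 = x at b1 hdet ⊢
  generalize p2 % 3 = y at b2 hdet ⊢
  generalize r1 % 3 = z at b3 hdet ⊢
  generalize r2 % 3 = u at b4 hdet ⊢
  rcases b1 with rfl | rfl | rfl <;> rcases b2 with rfl | rfl | rfl <;>
    rcases b3 with rfl | rfl | rfl <;>
    rcases b4 with rfl | rfl | rfl <;> revert hdet <;> decide

/-! ### weighted divisor sums -/

/-- the weight -/
def kw (p : ℕ × ℕ) : ℤ := if 3 ∣ p.1 ∧ 3 ∣ p.2 then 2 else -1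

theorem sum_dvd_left {A B k : ℕ} (hk : 0 < k) (h3 : 3 ∣ k) :
    ∑ p ∈ k.divisorsAntidiagonal.filter (fun p => 3 ∣ p.1), jacobiSym p.1 A * jacobiSym p.2 B =
      jacobiSym 3 A * R A B (k / 3) := by
  obtain ⟨k', rfl⟩ := h3
  rw [Nat.mul_div_cancel_left _ (by norm_num)]
  unfold R
  rw [Finset.mul_sum]
  refine Finset.sum_nbij' (fun p => (p.1 / 3, p.2)) (fun p => (3 * p.1, p.2)) ?_ ?_ ?_ ?_ ?_
  · rintro ⟨a, b⟩ h
    rw [Finset.mem_filter, Nat.mem_divisorsAntidiagonal] at h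
    obtain ⟨⟨h1, h2⟩, ⟨c, hc⟩⟩ := h
    dsimp only at h1 hc ⊢
    rw [Nat.mem_divisorsAntidiagonal, hc, Nat.mul_div_cancel_left _ (by norm_num)]
    rw [hc] at h1
    refine ⟨?_, by omega⟩
    have : 3 * (c * b) = 3 * k' := by rw [← h1]; ring
    exact Nat.eq_of_mul_eq_mul_left (by norm_num) this
  · rintro ⟨a, b⟩ h
    rw [Nat.mem_divisorsAntidiagonal] at h
    rw [Finset.mem_filter, Nat.mem_divisorsAntidiagonal]
    dsimp only at h ⊢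
    refine ⟨⟨?_, by omega⟩, Dvd.intro _ rfl⟩
    rw [← h.1]; ring
  · rintro ⟨a, b⟩ h
    rw [Finset.mem_filter] at h
    obtain ⟨-, ⟨c, hc⟩⟩ := h
    dsimp only at hc ⊢
    rw [hc, Nat.mul_div_cancel_left _ (by norm_num)]
  · rintro ⟨a, b⟩ _
    dsimp only
    rw [Nat.mul_div_cancel_left _ (by norm_num)]
  · rintro ⟨a, b⟩ h
    rw [Finset.mem_filter] at h
    obtain ⟨-, ⟨c, hc⟩⟩ := h
    dsimp only at hc ⊢
    rw [hc, Nat.mul_div_cancel_left _ (by norm_num)]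
    push_cast
    rw [jacobiSym.mul_left]; ring

theorem sum_dvd_right {A B k : ℕ} (hk : 0 < k) (h3 : 3 ∣ k) :
    ∑ p ∈ k.divisorsAntidiagonal.filter (fun p => 3 ∣ p.2), jacobiSym p.1 A * jacobiSym p.2 B =
      jacobiSym 3 B * R A B (k / 3) := by
  obtain ⟨k', rfl⟩ := h3
  rw [Nat.mul_div_cancel_left _ (by norm_num)]
  unfold R
  rw [Finset.mul_sum]
  refine Finset.sum_nbij' (fun p => (p.1, p.2 / 3)) (fun p => (p.1, 3 * p.2)) ?_ ?_ ?_ ?_ ?_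
  · rintro ⟨a, b⟩ h
    rw [Finset.mem_filter, Nat.mem_divisorsAntidiagonal] at h
    obtain ⟨⟨h1, h2⟩, ⟨c, hc⟩⟩ := h
    dsimp only at h1 hc ⊢
    rw [Nat.mem_divisorsAntidiagonal, hc, Nat.mul_div_cancel_left _ (by norm_num)]
    rw [hc] at h1
    refine ⟨?_, by omega⟩
    have : 3 * (a * c) = 3 * k' := by rw [← h1]; ring
    exact Nat.eq_of_mul_eq_mul_left (by norm_num) this
  · rintro ⟨a, b⟩ h
    rw [Nat.mem_divisorsAntidiagonal] at h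
    rw [Finset.mem_filter, Nat.mem_divisorsAntidiagonal]
    dsimp only at h ⊢
    refine ⟨⟨?_, by omega⟩, Dvd.intro _ rfl⟩
    rw [← h.1]; ring
  · rintro ⟨a, b⟩ h
    rw [Finset.mem_filter] at h
    obtain ⟨-, ⟨c, hc⟩⟩ := h
    dsimp only at hc ⊢
    rw [hc, Nat.mul_div_cancel_left _ (by norm_num)]
  · rintro ⟨a, b⟩ _
    dsimp only
    rw [Nat.mul_div_cancel_left _ (by norm_num)]
  · rintro ⟨a, b⟩ h
    rw [Finset.mem_filter] at h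
    obtain ⟨-, ⟨c, hc⟩⟩ := h
    dsimp only at hc ⊢
    rw [hc, Nat.mul_div_cancel_left _ (by norm_num)]
    push_cast
    rw [jacobiSym.mul_left]; ring

/-- the weighted sum is `-4` times the sum -/
theorem sum_kw {A B k : ℕ} (hk : 0 < k) (h3 : 3 ∣ k) (hJ : jacobiSym 3 A * jacobiSym 3 B = -1) :
    ∑ p ∈ k.divisorsAntidiagonal, kw p * (jacobiSym p.1 A * jacobiSym p.2 B) = -4 * R A B k := by
  have h1 := sum_dvd_left (A := A) (B := B) hk h3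
  have h2 := sum_dvd_right (A := A) (B := B) hk h3
  have hs : jacobiSym 3 A + jacobiSym 3 B = 0 := by
    rcases Int.eq_one_or_neg_one_of_mul_eq_neg_one' hJ with ⟨h, h'⟩ | ⟨h, h'⟩ <;>
      rw [h, h'] <;> norm_num
  have h4 : ∀ p ∈ k.divisorsAntidiagonal, 3 ∣ p.1 ∨ 3 ∣ p.2 := by
    intro p hp
    rw [Nat.mem_divisorsAntidiagonal] at hp
    exact (Nat.Prime.dvd_mul Nat.prime_three).mp (hp.1 ▸ h3)
  rw [Finset.sum_filter] at h1 h2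
  have e : ∀ p ∈ k.divisorsAntidiagonal, kw p * (jacobiSym p.1 A * jacobiSym p.2 B) =
      3 * ((if 3 ∣ p.1 then jacobiSym p.1 A * jacobiSym p.2 B else 0) +
        (if 3 ∣ p.2 then jacobiSym p.1 A * jacobiSym p.2 B else 0)) -
        4 * (jacobiSym p.1 A * jacobiSym p.2 B) := by
    intro p hp
    unfold kw
    rcases h4 p hp with h | h
    · by_cases h' : 3 ∣ p.2
      · rw [if_pos ⟨h, h'⟩, if_pos h, if_pos h']; ring
      · rw [if_neg (fun x => h' x.2), if_pos h, if_neg h']; ring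
    · by_cases h' : 3 ∣ p.1
      · rw [if_pos ⟨h', h⟩, if_pos h, if_pos h']; ring
      · rw [if_neg (fun x => h' x.1), if_neg h', if_pos h]; ring
  rw [Finset.sum_congr rfl e, Finset.sum_sub_distrib, ← Finset.mul_sum, ← Finset.mul_sum,
    Finset.sum_add_distrib, h1, h2, ← add_mul, hs]
  unfold R
  ring

end Vale.Agent.P014.H74
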