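import Vale.Agent.P014.H74.E4

/-!
# Conductor 3, part 5: `2^t N5(3 V, 3 W) = 8 (SAw w9 V W 9 + SAw w1 V W 1)`
-/

set_option linter.unusedSectionVars false
set_option linter.style.haveILetI false

namespace Vale.Agent.P014.H74

open Finset

theorem two_pow_Wt' {d1 d2 m : ℕ} (hm : Nat.Coprime m (d1 * d2)) (hk : Odd (d1 * d2))
    (hsq : Squarefree (d1 * d2)) (h17 : Nat.Coprime 17 (d1 * d2)) {X Y W V : ℕ}
    (hD : X * V + 17 * (W * Y) = m * (d1 * d2)) :
    2 ^ (d1 * d2).primeFactors.card * Wt d1 d2 ⟨X, Y, -(W : ℤ), V⟩ =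
      2 ^ ((d1 * d2).primeFactors.filter (fun q => q ∣ W * Y)).card *
        (DS d1 (17 * X * W) (-(Y * V)) * DS d2 (X * Y) (-(17 * W * V))) := by
  have hco : Nat.Coprime d1 d2 := (Nat.squarefree_mul_iff.mp hsq).1
  have hsq1 : Squarefree d1 := (Nat.squarefree_mul_iff.mp hsq).2.1
  have hsq2 : Squarefree d2 := (Nat.squarefree_mul_iff.mp hsq).2.2
  have hk1 : Odd d1 := Nat.Odd.of_mul_left hk
  have hk2 : Odd d2 := Nat.Odd.of_mul_right hk
  have hDz : (X : ℤ) * V + 17 * (W * Y) = m * (d1 * d2) := by exact_mod_cast hD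
  -- no prime of n divides everything
  have hno : ∀ q : ℕ, q.Prime → q ∣ d1 * d2 → ¬ ((q : ℤ) ∣ X ∧ (q : ℤ) ∣ W ∧ (q : ℤ) ∣ Y ∧ (q : ℤ) ∣ V) := by
    rintro q hq hqn ⟨h1, h2, h3, h4⟩
    have g1 : q ∣ X := by exact_mod_cast h1
    have g2 : q ∣ W := by exact_mod_cast h2
    have g3 : q ∣ Y := by exact_mod_cast h3
    have g4 : q ∣ V := by exact_mod_cast h4
    have g5 : q * q ∣ m * (d1 * d2) := by
      rw [← hD]
      exact dvd_add (mul_dvd_mul g1 g4) (Dvd.dvd.mul_left (mul_dvd_mul g2 g3) _)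
    have g6 : Nat.Coprime (q * q) m := by
      have : Nat.Coprime q m := (hm.symm.coprime_dvd_left hqn)
      exact Nat.Coprime.mul_left this this
    have g7 : q * q ∣ d1 * d2 := g6.dvd_of_dvd_mul_left g5
    exact hq.one_lt.ne' (Nat.isUnit_iff.mp (hsq q g7))
  have hq17 : ∀ q : ℕ, q.Prime → q ∣ d1 * d2 → ¬ q ∣ 17 := by
    intro q hq hqn h
    have : q ∣ 1 := by
      rw [← h17]; exact Nat.dvd_gcd h hqn
    exact hq.one_lt.ne' (Nat.dvd_one.mp this)
  have f1 := PP_formula d1 hk1 hsq1 X (17 * -(W : ℤ)) Y V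
    (by
      have e : (X : ℤ) * V - Y * (17 * -(W : ℤ)) = d1 * (m * d2) := by linear_combination hDz
      rw [e]; exact Dvd.intro _ rfl)
    (by
      rintro q hq hqd ⟨h1, h2, h3, h4⟩
      refine hno q hq (Dvd.dvd.mul_right hqd _) ⟨h1, ?_, h3, h4⟩
      rw [mul_neg, dvd_neg] at h2
      have h2' : q ∣ 17 * W := by exact_mod_cast h2
      have := (hq.dvd_mul.mp h2').resolve_left (hq17 q hq (Dvd.dvd.mul_right hqd _))
      exact_mod_cast this)
  have f2 := PP_formula d2 hk2 hsq2 Y (-(X : ℤ)) V (-17 * -(W : ℤ))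
    (by
      have e : (Y : ℤ) * (-17 * -(W : ℤ)) - V * (-(X : ℤ)) = d2 * (m * d1) := by
        linear_combination hDz
      rw [e]; exact Dvd.intro _ rfl)
    (by
      rintro q hq hqd ⟨h1, h2, h3, h4⟩
      refine hno q hq (Dvd.dvd.mul_left hqd _) ⟨?_, ?_, h1, h3⟩
      · rwa [dvd_neg] at h2
      rw [show (-17 : ℤ) * -(W : ℤ) = 17 * W by ring] at h4
      have h2' : q ∣ 17 * W := by exact_mod_cast h4
      have := (hq.dvd_mul.mp h2').resolve_left (hq17 q hq (Dvd.dvd.mul_left hqd _))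
      exact_mod_cast this)
  -- the primes dividing k
  have c1 : ∀ q ∈ d1.primeFactors, ((q : ℤ) ∣ (X : ℤ) * V ↔ q ∣ W * Y) := by
    intro q hq
    have hqp := Nat.prime_of_mem_primeFactors hq
    have hqd := Nat.dvd_of_mem_primeFactors hq
    have h3 : q ∣ X * V + 17 * (W * Y) := by
      rw [hD]; exact Dvd.dvd.mul_left (Dvd.dvd.mul_right hqd _) _
    have h4 : (q : ℤ) ∣ (X : ℤ) * V ↔ q ∣ X * V := by exact_mod_cast Int.natCast_dvd_natCast
    rw [h4]
    constructor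
    · intro h
      have h5 := (Nat.dvd_add_right h).mp h3
      exact (hqp.dvd_mul.mp h5).resolve_left (hq17 q hqp (Dvd.dvd.mul_right hqd _))
    · intro h
      exact (Nat.dvd_add_left (Dvd.dvd.mul_left h _)).mp h3
  have c2 : ∀ q ∈ d2.primeFactors, ((q : ℤ) ∣ (Y : ℤ) * (-17 * -(W : ℤ)) ↔ q ∣ W * Y) := by
    intro q hq
    have hqp := Nat.prime_of_mem_primeFactors hq
    have hqd := Nat.dvd_of_mem_primeFactors hq
    have e : (Y : ℤ) * (-17 * -(W : ℤ)) = ((17 * (W * Y) : ℕ) : ℤ) := by push_cast; ring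
    rw [e, Int.natCast_dvd_natCast]
    constructor
    · intro h
      exact (hqp.dvd_mul.mp h).resolve_left (hq17 q hqp (Dvd.dvd.mul_left hqd _))
    · intro h
      exact Dvd.dvd.mul_left h _
  rw [Finset.filter_congr c1] at f1
  rw [Finset.filter_congr c2] at f2
  have hdis : Disjoint d1.primeFactors d2.primeFactors := hco.disjoint_primeFactors
  rw [hco.primeFactors_mul, Finset.filter_union, Finset.card_union_of_disjoint hdis,
    Finset.card_union_of_disjoint (Finset.disjoint_filter_filter hdis), pow_add, pow_add]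
  unfold Wt
  dsimp only
  have e : 2 ^ d1.primeFactors.card * 2 ^ d2.primeFactors.card *
      (PP d1 X (17 * -(W : ℤ)) Y V * PP d2 Y (-(X : ℤ)) V (-17 * -(W : ℤ))) =
      (2 ^ d1.primeFactors.card * PP d1 X (17 * -(W : ℤ)) Y V) *
      (2 ^ d2.primeFactors.card * PP d2 Y (-(X : ℤ)) V (-17 * -(W : ℤ))) := by ring
  rw [e, f1, f2]
  rw [show -((X : ℤ) * (17 * -(W : ℤ))) = 17 * X * W by ring,
    show -((Y : ℤ) * -(X : ℤ)) = X * Y by ring,
    show -((V : ℤ) * (-17 * -(W : ℤ))) = -(17 * W * V) by ring]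
  ring

/-- the comparison of the symbols, with the other sign -/
theorem symbols' {d1 d2 U V : ℕ} (hd1 : 0 < d1) (hd2 : 0 < d2)
    (hU : U ∣ d1) (hV : V ∣ d2)
    (j : jacobiSym 17 d1 * jacobiSym (-17) d2 = -1)
    (x v w y : ℤ) :
    jacobiSym (-17) ((d1 / U) * V) * (jacobiSym x (U * V) * jacobiSym v ((d1 / U) * (d2 / V))) *
      (jacobiSym w (U * (d2 / V)) * jacobiSym y ((d1 / U) * V)) =
    -((jacobiSym (17 * x * w) U * jacobiSym (-(y * v)) (d1 / U)) *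
      (jacobiSym (x * y) V * jacobiSym (-(17 * w * v)) (d2 / V))) := by
  obtain ⟨c, rfl⟩ := hU
  obtain ⟨e, rfl⟩ := hV
  have hU0 : U ≠ 0 := by rintro rfl; simp at hd1
  have hc0 : c ≠ 0 := by rintro rfl; simp at hd1
  have hV0 : V ≠ 0 := by rintro rfl; simp at hd2
  have he0 : e ≠ 0 := by rintro rfl; simp at hd2
  rw [Nat.mul_div_cancel_left _ (Nat.pos_of_ne_zero hU0),
    Nat.mul_div_cancel_left _ (Nat.pos_of_ne_zero hV0)]
  rw [jacobiSym.mul_right' _ hU0 hc0, jacobiSym.mul_right' _ hV0 he0] at j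
  rw [jacobiSym.mul_right' _ hc0 hV0, jacobiSym.mul_right' _ hU0 hV0, jacobiSym.mul_right' _ hc0 he0,
    jacobiSym.mul_right' _ hU0 he0, jacobiSym.mul_right' _ hc0 hV0]
  have m1 : jacobiSym (17 * x * w) U = jacobiSym 17 U * jacobiSym x U * jacobiSym w U := by
    rw [jacobiSym.mul_left, jacobiSym.mul_left]
  have m2 : jacobiSym (-(y * v)) c = jacobiSym (-1) c * jacobiSym y c * jacobiSym v c := by
    rw [show -(y * v) = -1 * y * v by ring, jacobiSym.mul_left, jacobiSym.mul_left]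
  have m3 : jacobiSym (x * y) V = jacobiSym x V * jacobiSym y V := jacobiSym.mul_left _ _ _
  have m4 : jacobiSym (-(17 * w * v)) e = jacobiSym (-17) e * jacobiSym w e * jacobiSym v e := by
    rw [show -(17 * w * v) = -17 * w * v by ring, jacobiSym.mul_left, jacobiSym.mul_left]
  have m5 : jacobiSym (-17) c = jacobiSym (-1) c * jacobiSym 17 c := by
    rw [← jacobiSym.mul_left]; norm_num
  -- squares
  have sq : ∀ a b : ℤ, a * b = -1 → a = -b := by
    intro a b h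
    have h' : a * (-b) = 1 := by linarith
    rcases Int.eq_one_or_neg_one_of_mul_eq_one h' with h1 | h1
    · rw [h1] at h' ⊢; linarith
    · rw [h1] at h' ⊢; linarith
  have k1 : jacobiSym 17 U * jacobiSym (-17) e = -(jacobiSym 17 c * jacobiSym (-17) V) := by
    apply sq
    linear_combination j
  rw [m1, m2, m3, m4, m5]
  linear_combination ((jacobiSym (-1) c * jacobiSym x U * jacobiSym x V * jacobiSym v c *
    jacobiSym v e * jacobiSym w U * jacobiSym w e * jacobiSym y c * jacobiSym y V)) * k1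

/-- the product of the two divisor sums -/
def GG (d1 d2 : ℕ) (p r : ℕ × ℕ) : ℤ :=
  DS d1 (17 * p.1 * r.1) (-(r.2 * p.2)) * DS d2 (p.1 * r.2) (-(17 * r.1 * p.2))

/-- the weighted version of `SU` -/
def SUw (f g : ℕ × ℕ → ℤ) (d1 d2 x k : ℕ) : ℤ :=
  ∑ U ∈ d1.divisors, ∑ V ∈ d2.divisors, jacobiSym (-17) ((d1 / U) * V) *
    (∑ p ∈ x.divisorsAntidiagonal, f p * (jacobiSym p.1 (U * V) *
        jacobiSym p.2 ((d1 / U) * (d2 / V)))) *
    (∑ r ∈ k.divisorsAntidiagonal, g r * (jacobiSym r.1 (U * (d2 / V)) *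
        jacobiSym r.2 ((d1 / U) * V)))

theorem SUw_eq {d1 d2 : ℕ} (hd1 : 0 < d1) (hd2 : 0 < d2)
    (j : jacobiSym 17 d1 * jacobiSym (-17) d2 = -1) (f g : ℕ × ℕ → ℤ) (x k : ℕ) :
    ∑ p ∈ x.divisorsAntidiagonal, ∑ r ∈ k.divisorsAntidiagonal, f p * g r * GG d1 d2 p r =
      - SUw f g d1 d2 x k := by
  have e1 : ∀ (p r : ℕ × ℕ), f p * g r * GG d1 d2 p r =
      ∑ U ∈ d1.divisors, ∑ V ∈ d2.divisors,
      -(jacobiSym (-17) ((d1 / U) * V) * (f p * (jacobiSym p.1 (U * V) *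
        jacobiSym p.2 ((d1 / U) * (d2 / V)))) *
      (g r * (jacobiSym r.1 (U * (d2 / V)) * jacobiSym r.2 ((d1 / U) * V)))) := by
    intro p r
    unfold GG DS
    rw [Finset.sum_mul_sum, Finset.mul_sum]
    refine Finset.sum_congr rfl fun U hU => ?_
    rw [Finset.mul_sum]
    refine Finset.sum_congr rfl fun V hV => ?_
    have := symbols' hd1 hd2 (Nat.dvd_of_mem_divisors hU) (Nat.dvd_of_mem_divisors hV) j
      p.1 p.2 r.1 r.2
    linear_combination (f p * g r) * this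
  simp only [e1]
  unfold SUw
  rw [← Finset.sum_neg_distrib]
  have e2 : ∀ U ∈ d1.divisors, -(∑ V ∈ d2.divisors, jacobiSym (-17) ((d1 / U) * V) *
    (∑ p ∈ x.divisorsAntidiagonal, f p * (jacobiSym p.1 (U * V) *
        jacobiSym p.2 ((d1 / U) * (d2 / V)))) *
    (∑ r ∈ k.divisorsAntidiagonal, g r * (jacobiSym r.1 (U * (d2 / V)) *
        jacobiSym r.2 ((d1 / U) * V)))) =
      ∑ p ∈ x.divisorsAntidiagonal, ∑ r ∈ k.divisorsAntidiagonal, ∑ V ∈ d2.divisors,
      -(jacobiSym (-17) ((d1 / U) * V) * (f p * (jacobiSym p.1 (U * V) *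
        jacobiSym p.2 ((d1 / U) * (d2 / V)))) *
      (g r * (jacobiSym r.1 (U * (d2 / V)) * jacobiSym r.2 ((d1 / U) * V)))) := by
    intro U _
    have h1 : ∀ p ∈ x.divisorsAntidiagonal, ∑ r ∈ k.divisorsAntidiagonal, ∑ V ∈ d2.divisors,
      -(jacobiSym (-17) ((d1 / U) * V) * (f p * (jacobiSym p.1 (U * V) *
        jacobiSym p.2 ((d1 / U) * (d2 / V)))) *
      (g r * (jacobiSym r.1 (U * (d2 / V)) * jacobiSym r.2 ((d1 / U) * V)))) =
      ∑ V ∈ d2.divisors, ∑ r ∈ k.divisorsAntidiagonal,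
      -(jacobiSym (-17) ((d1 / U) * V) * (f p * (jacobiSym p.1 (U * V) *
        jacobiSym p.2 ((d1 / U) * (d2 / V)))) *
      (g r * (jacobiSym r.1 (U * (d2 / V)) * jacobiSym r.2 ((d1 / U) * V)))) :=
      fun p _ => Finset.sum_comm
    rw [Finset.sum_congr rfl h1, Finset.sum_comm, ← Finset.sum_neg_distrib]
    refine Finset.sum_congr rfl fun V _ => ?_
    rw [mul_assoc, Finset.sum_mul_sum, Finset.mul_sum, ← Finset.sum_neg_distrib]
    refine Finset.sum_congr rfl fun p _ => ?_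
    rw [Finset.mul_sum, ← Finset.sum_neg_distrib]
    refine Finset.sum_congr rfl fun r _ => ?_
    ring
  rw [Finset.sum_congr rfl e2]
  symm
  rw [Finset.sum_comm]
  refine Finset.sum_congr rfl fun p _ => ?_
  rw [Finset.sum_comm]

theorem SUw_one {d1 d2 : ℕ} (hco : Nat.Coprime d1 d2) (x k : ℕ) :
    SUw (fun _ => 1) (fun _ => 1) d1 d2 x k = SU d1 d2 x k := by
  unfold SUw SU
  rw [sum_div_mul hco]
  refine Finset.sum_congr rfl fun U hU => Finset.sum_congr rfl fun V hV => ?_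
  have hU' := Nat.mem_divisors.mp hU
  have hV' := Nat.mem_divisors.mp hV
  have hU0 : 0 < U := Nat.pos_of_ne_zero (ne_zero_of_dvd_ne_zero hU'.2 hU'.1)
  have hV0 : 0 < V := Nat.pos_of_ne_zero (ne_zero_of_dvd_ne_zero hV'.2 hV'.1)
  rw [sd_left hco hU'.1 hV'.1 hU0, sd_right hco hU'.1 hV'.1 hV0,
    Nat.mul_div_mul_comm hU'.1 hV'.1]
  unfold R
  simp only [one_mul]

theorem J3_split {d1 d2 U V : ℕ} (hd1 : 0 < d1) (hd2 : 0 < d2) (hU : U ∣ d1) (hV : V ∣ d2)
    (h : jacobiSym 3 (d1 * d2) = -1) :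
    jacobiSym 3 (U * V) * jacobiSym 3 ((d1 / U) * (d2 / V)) = -1 ∧
    jacobiSym 3 (U * (d2 / V)) * jacobiSym 3 ((d1 / U) * V) = -1 := by
  obtain ⟨c, rfl⟩ := hU
  obtain ⟨e, rfl⟩ := hV
  have hU0 : U ≠ 0 := by rintro rfl; simp at hd1
  have hc0 : c ≠ 0 := by rintro rfl; simp at hd1
  have hV0 : V ≠ 0 := by rintro rfl; simp at hd2
  have he0 : e ≠ 0 := by rintro rfl; simp at hd2
  rw [Nat.mul_div_cancel_left _ (Nat.pos_of_ne_zero hU0),
    Nat.mul_div_cancel_left _ (Nat.pos_of_ne_zero hV0)]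
  rw [jacobiSym.mul_right' _ (mul_ne_zero hU0 hc0) (mul_ne_zero hV0 he0),
    jacobiSym.mul_right' _ hU0 hc0, jacobiSym.mul_right' _ hV0 he0] at h
  rw [jacobiSym.mul_right' _ hc0 hV0, jacobiSym.mul_right' _ hU0 hV0, jacobiSym.mul_right' _ hc0 he0,
    jacobiSym.mul_right' _ hU0 he0]
  exact ⟨by rw [← h]; ring, by rw [← h]; ring⟩

theorem SUw_r {d1 d2 : ℕ} (hd1 : 0 < d1) (hd2 : 0 < d2) (hco : Nat.Coprime d1 d2)
    (h : jacobiSym 3 (d1 * d2) = -1) {x k : ℕ} (hk : 0 < k) (h3 : 3 ∣ k) :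
    SUw (fun _ => 1) kw d1 d2 x k = -4 * SU d1 d2 x k := by
  rw [← SUw_one hco]
  unfold SUw
  rw [Finset.mul_sum]
  refine Finset.sum_congr rfl fun U hU => ?_
  rw [Finset.mul_sum]
  refine Finset.sum_congr rfl fun V hV => ?_
  have hJ := (J3_split hd1 hd2 (Nat.dvd_of_mem_divisors hU) (Nat.dvd_of_mem_divisors hV) h).2
  rw [sum_kw hk h3 hJ]
  unfold R
  simp only [one_mul]
  ring

theorem SUw_p {d1 d2 : ℕ} (hd1 : 0 < d1) (hd2 : 0 < d2) (hco : Nat.Coprime d1 d2)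
    (h : jacobiSym 3 (d1 * d2) = -1) {x k : ℕ} (hx : 0 < x) (h3 : 3 ∣ x) :
    SUw kw (fun _ => 1) d1 d2 x k = -4 * SU d1 d2 x k := by
  rw [← SUw_one hco]
  unfold SUw
  rw [Finset.mul_sum]
  refine Finset.sum_congr rfl fun U hU => ?_
  rw [Finset.mul_sum]
  refine Finset.sum_congr rfl fun V hV => ?_
  have hJ := (J3_split hd1 hd2 (Nat.dvd_of_mem_divisors hU) (Nat.dvd_of_mem_divisors hV) h).1
  rw [sum_kw hx h3 hJ]
  unfold R
  simp only [one_mul]
  ring

/-- the sum of the products with the local weight -/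
theorem GG_kpr {d1 d2 : ℕ} (hd1 : 0 < d1) (hd2 : 0 < d2) (hco : Nat.Coprime d1 d2)
    (j : jacobiSym 17 d1 * jacobiSym (-17) d2 = -1)
    (h : jacobiSym 3 (d1 * d2) = -1) {x k : ℕ} (hx : 0 < x) (hk : 0 < k)
    (hm : (x + 17 * k) % 3 = 1) :
    ∑ p ∈ x.divisorsAntidiagonal, ∑ r ∈ k.divisorsAntidiagonal, kpr p r * GG d1 d2 p r =
      w1 k * SU d1 d2 x k := by
  have hpx : ∀ p ∈ x.divisorsAntidiagonal, (3 ∣ p.1 ∨ 3 ∣ p.2 ↔ 3 ∣ x) := by
    intro p hp
    rw [Nat.mem_divisorsAntidiagonal] at hp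
    rw [← hp.1, Nat.Prime.dvd_mul Nat.prime_three]
  have hrk : ∀ p ∈ k.divisorsAntidiagonal, (3 ∣ p.1 ∨ 3 ∣ p.2 ↔ 3 ∣ k) := by
    intro p hp
    rw [Nat.mem_divisorsAntidiagonal] at hp
    rw [← hp.1, Nat.Prime.dvd_mul Nat.prime_three]
  unfold w1
  by_cases h3k : 3 ∣ k
  · have hk0 : k % 3 = 0 := Nat.mod_eq_zero_of_dvd h3k
    rw [if_pos hk0]
    have e : ∀ p ∈ x.divisorsAntidiagonal, ∀ r ∈ k.divisorsAntidiagonal,
        kpr p r * GG d1 d2 p r = 1 * kw r * GG d1 d2 p r := by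
      intro p _ r hr
      unfold kpr kw
      rw [if_pos ((hrk r hr).mpr h3k), one_mul]
    rw [Finset.sum_congr rfl (fun p hp => Finset.sum_congr rfl (e p hp)),
      SUw_eq hd1 hd2 j (fun _ => 1) kw, SUw_r hd1 hd2 hco h hk h3k]
    ring
  · have hk0 : k % 3 ≠ 0 := fun h => h3k (Nat.dvd_of_mod_eq_zero h)
    rw [if_neg hk0]
    by_cases h3x : 3 ∣ x
    · have hx0 : x % 3 = 0 := Nat.mod_eq_zero_of_dvd h3x
      have hk2 : k % 3 = 2 := by omega
      rw [if_pos hk2]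
      have e : ∀ p ∈ x.divisorsAntidiagonal, ∀ r ∈ k.divisorsAntidiagonal,
          kpr p r * GG d1 d2 p r = -(kw p * 1 * GG d1 d2 p r) := by
        intro p hp r hr
        unfold kpr kw
        rw [if_neg (fun h => h3k ((hrk r hr).mp h)), if_pos ((hpx p hp).mpr h3x)]
        split_ifs <;> ring
      rw [Finset.sum_congr rfl (fun p hp => Finset.sum_congr rfl (e p hp))]
      simp only [Finset.sum_neg_distrib]
      rw [SUw_eq hd1 hd2 j kw (fun _ => 1), SUw_p hd1 hd2 hco h hx h3x]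
      ring
    · have hx0 : x % 3 ≠ 0 := fun h => h3x (Nat.dvd_of_mod_eq_zero h)
      have hk2 : k % 3 ≠ 2 := by omega
      rw [if_neg hk2, zero_mul]
      refine Finset.sum_eq_zero fun p hp => Finset.sum_eq_zero fun r hr => ?_
      unfold kpr
      rw [if_neg (fun h => h3k ((hrk r hr).mp h)), if_neg (fun h => h3x ((hpx p hp).mp h)), zero_mul]

end Vale.Agent.P014.H74
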