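import Vale.Agent.P014.H74.E5

/-!
# Conductor 3, part 6: the final period relation
-/

set_option linter.unusedSectionVars false
set_option linter.style.haveILetI false

namespace Vale.Agent.P014.H74

open Finset

theorem T3_nM (M : M4) (c b : ℤ) : T3 (nM M) c b ↔ T3 M c b := by
  unfold T3 nM
  dsimp only
  rw [show -M.X + 17 * c * -M.w = -(M.X + 17 * c * M.w) by ring,
    show -M.Y + c * -M.v = -(M.Y + c * M.v) by ring,
    show -M.v - 17 * b * -M.w = -(M.v - 17 * b * M.w) by ring,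
    show -(M.Y + c * M.v) - b * -(M.X + 17 * c * M.w) =
      -((M.Y + c * M.v) - b * (M.X + 17 * c * M.w)) by ring]
  simp only [dvd_neg]

theorem T3_cn (M : M4) (c b : ℤ) : T3 (cn M) c b ↔ T3 M (-c) (-b) := by
  unfold T3 cn
  dsimp only
  rw [show M.X + 17 * c * -M.w = M.X + 17 * -c * M.w by ring,
    show -M.Y + c * M.v = -(M.Y + -c * M.v) by ring,
    show M.v - 17 * b * -M.w = M.v - 17 * -b * M.w by ring,
    show -(M.Y + -c * M.v) - b * (M.X + 17 * -c * M.w) =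
      -((M.Y + -c * M.v) - -b * (M.X + 17 * -c * M.w)) by ring]
  simp only [dvd_neg]

theorem kap3_nM (M : M4) : kap3 (nM M) = kap3 M := by
  rw [kap3_eq, kap3_eq]
  simp only [T3_nM]

theorem kap3_cn (M : M4) : kap3 (cn M) = kap3 M := by
  rw [kap3_eq, kap3_eq]
  have h11 : T3 (cn M) 1 1 ↔ T3 M 2 2 := (T3_cn M 1 1).trans (T3_congr (by norm_num) (by norm_num))
  have h12 : T3 (cn M) 1 2 ↔ T3 M 2 1 := (T3_cn M 1 2).trans (T3_congr (by norm_num) (by norm_num))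
  have h21 : T3 (cn M) 2 1 ↔ T3 M 1 2 := (T3_cn M 2 1).trans (T3_congr (by norm_num) (by norm_num))
  have h22 : T3 (cn M) 2 2 ↔ T3 M 1 1 := (T3_cn M 2 2).trans (T3_congr (by norm_num) (by norm_num))
  simp only [h11, h12, h21, h22]
  ring

theorem sum_nine {n : ℕ} (hn : 0 < n) (F : ℕ × ℕ → ℤ) :
    ∑ p ∈ (9 * n).divisorsAntidiagonal, (if 3 ∣ p.1 ∧ 3 ∣ p.2 then F p else 0) =
      ∑ p ∈ n.divisorsAntidiagonal, F (3 * p.1, 3 * p.2) := by
  rw [← Finset.sum_filter]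
  refine Finset.sum_nbij' (fun p => (p.1 / 3, p.2 / 3)) (fun p => (3 * p.1, 3 * p.2)) ?_ ?_ ?_ ?_ ?_
  · rintro ⟨a, b⟩ h
    rw [Finset.mem_filter, Nat.mem_divisorsAntidiagonal] at h
    obtain ⟨⟨h1, h2⟩, ⟨c, hc⟩, ⟨d, hd⟩⟩ := h
    dsimp only at h1 hc hd ⊢
    rw [Nat.mem_divisorsAntidiagonal, hc, hd, Nat.mul_div_cancel_left _ (by norm_num),
      Nat.mul_div_cancel_left _ (by norm_num)]
    rw [hc, hd] at h1
    refine ⟨?_, by omega⟩
    have : 9 * (c * d) = 9 * n := by rw [← h1]; ring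
    exact Nat.eq_of_mul_eq_mul_left (by norm_num) this
  · rintro ⟨a, b⟩ h
    rw [Nat.mem_divisorsAntidiagonal] at h
    rw [Finset.mem_filter, Nat.mem_divisorsAntidiagonal]
    dsimp only at h ⊢
    refine ⟨⟨?_, by omega⟩, Dvd.intro _ rfl, Dvd.intro _ rfl⟩
    rw [← h.1]; ring
  · rintro ⟨a, b⟩ h
    rw [Finset.mem_filter] at h
    obtain ⟨-, ⟨c, hc⟩, ⟨d, hd⟩⟩ := h
    dsimp only at hc hd ⊢
    rw [hc, hd, Nat.mul_div_cancel_left _ (by norm_num), Nat.mul_div_cancel_left _ (by norm_num)]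
  · rintro ⟨a, b⟩ _
    dsimp only
    rw [Nat.mul_div_cancel_left _ (by norm_num), Nat.mul_div_cancel_left _ (by norm_num)]
  · rintro ⟨a, b⟩ h
    rw [Finset.mem_filter] at h
    obtain ⟨-, ⟨c, hc⟩, ⟨d, hd⟩⟩ := h
    dsimp only at hc hd ⊢
    rw [hc, hd, Nat.mul_div_cancel_left _ (by norm_num), Nat.mul_div_cancel_left _ (by norm_num)]

theorem sum_not_nine {n : ℕ} (hn : ¬ 9 ∣ n) (F : ℕ × ℕ → ℤ) :
    ∑ p ∈ n.divisorsAntidiagonal, (if 3 ∣ p.1 ∧ 3 ∣ p.2 then F p else 0) = 0 := by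
  refine Finset.sum_eq_zero fun p hp => if_neg ?_
  rintro ⟨h1, h2⟩
  rw [Nat.mem_divisorsAntidiagonal] at hp
  apply hn
  rw [← hp.1]
  exact mul_dvd_mul h1 h2

theorem DS_nine {d : ℕ} (h3 : Nat.Coprime 3 d) (a b : ℤ) : DS d (9 * a) (9 * b) = DS d a b := by
  unfold DS
  refine Finset.sum_congr rfl fun U hU => ?_
  have hU' := Nat.mem_divisors.mp hU
  have h9 : ∀ V : ℕ, V ∣ d → ∀ t : ℤ, jacobiSym (9 * t) V = jacobiSym t V := by
    intro V hV t
    have hc : Int.gcd 3 V = 1 := by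
      have : Nat.Coprime 3 V := Nat.Coprime.coprime_dvd_right hV h3
      exact this
    rw [show (9 : ℤ) * t = 3 ^ 2 * t by norm_num, jacobiSym.mul_left, jacobiSym.sq_one' hc, one_mul]
  rw [h9 U hU'.1, h9 (d / U) (Nat.div_dvd_of_dvd hU'.1)]

theorem GG_three {d1 d2 : ℕ} (h1 : Nat.Coprime 3 d1) (h2 : Nat.Coprime 3 d2) (p r : ℕ × ℕ) :
    GG d1 d2 (3 * p.1, 3 * p.2) (3 * r.1, 3 * r.2) = GG d1 d2 p r := by
  unfold GG
  dsimp only
  push_cast
  rw [show (17 * (3 * (p.1 : ℤ)) * (3 * r.1)) = 9 * (17 * p.1 * r.1) by ring,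
    show -((3 * (r.2 : ℤ)) * (3 * p.2)) = 9 * (-(r.2 * p.2)) by ring,
    show ((3 * (p.1 : ℤ)) * (3 * r.2)) = 9 * (p.1 * r.2) by ring,
    show -(17 * (3 * (r.1 : ℤ)) * (3 * p.2)) = 9 * (-(17 * r.1 * p.2)) by ring,
    DS_nine h1, DS_nine h2]

/-- the weight of a primitive matrix -/
theorem kap3_prim' {D : ℕ} {p r : ℕ × ℕ} (hD : p.1 * p.2 + 17 * (r.1 * r.2) = 9 * D)
    (hn : ¬ ((3 ∣ p.1 ∧ 3 ∣ p.2) ∧ (3 ∣ r.1 ∧ 3 ∣ r.2))) :
    kap3 ⟨(p.1 : ℤ), (r.2 : ℤ), -(r.1 : ℤ), (p.2 : ℤ)⟩ = - w9 (r.1 * r.2) := by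
  have hDz : (p.1 : ℤ) * p.2 + 17 * (r.1 * r.2) = 9 * D := by exact_mod_cast hD
  rw [kap3_prim]
  · dsimp only
    have e : (-(r.1 : ℤ) * r.2) % 3 = (-(((r.1 * r.2 : ℕ) % 3 : ℕ) : ℤ)) % 3 := by
      push_cast
      rw [neg_mul]
      omega
    rw [e]
    unfold w9
    have h3 : (r.1 * r.2) % 3 < 3 := Nat.mod_lt _ (by norm_num)
    generalize (r.1 * r.2) % 3 = t at h3 ⊢
    interval_cases t <;> decide
  · dsimp only
    exact ⟨D, by linear_combination hDz⟩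
  · dsimp only
    rintro ⟨h1, h2, h3, h4⟩
    rw [dvd_neg] at h3
    apply hn
    exact ⟨⟨by exact_mod_cast h1, by exact_mod_cast h4⟩, by exact_mod_cast h3, by exact_mod_cast h2⟩

section

variable {V W : ℕ}

/-- **T3 for conductor 3** -/
theorem N5_SAw [NeZero V] [NeZero W] (hV4 : V % 4 = 3) (hW4 : W % 4 = 1) (hsq : Squarefree (V * W))
    (h17 : Nat.Coprime 17 (V * W)) (h3 : Nat.Coprime 3 (V * W)) (hm : (V * W) % 3 = 1)
    (j : jacobiSym 17 V * jacobiSym (-17) W = -1) :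
    2 ^ (V * W).primeFactors.card * N5 (3 * V) (3 * W) =
      8 * (SAw w9 V W 9 + SAw w1 V W 1) := by
  have hd1 : 0 < V := Nat.pos_of_ne_zero (NeZero.ne V)
  have hd2 : 0 < W := Nat.pos_of_ne_zero (NeZero.ne W)
  have hco : Nat.Coprime V W := (Nat.squarefree_mul_iff.mp hsq).1
  have h3V : Nat.Coprime 3 V := Nat.Coprime.coprime_mul_right_right h3
  have h3W : Nat.Coprime 3 W := Nat.Coprime.coprime_mul_left_right h3
  have hk : Odd (V * W) := Nat.odd_iff.mpr (by rw [Nat.mul_mod, Nat.odd_iff.mp (Nat.odd_iff.mpr (by omega : V % 2 = 1)), (by omega : W % 2 = 1)])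
  have hneg : jacobiSym (-1) V * jacobiSym (-1) W = -1 := by
    rw [Jneg_three hV4, Jneg_one hW4]; norm_num
  have h9 : Nat.Coprime 9 (V * W) := by
    have : Nat.Coprime (3 * 3) (V * W) := Nat.Coprime.mul_left h3 h3
    simpa using this
  have hJ3 : jacobiSym 3 (V * W) = -1 := by
    have hm4 : (V * W) % 4 = 3 := by rw [Nat.mul_mod, hV4, hW4]
    have := jacobiSym.quadratic_reciprocity_three_mod_four (a := 3) (b := V * W) (by norm_num) hm4
    rw [show ((3 : ℤ)) = ((3 : ℕ) : ℤ) by norm_num, this]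
    have h1 : ((V * W : ℕ) : ℤ) ≡ 1 [ZMOD (3 : ℕ)] := by
      unfold Int.ModEq; push_cast; exact_mod_cast hm
    rw [jacobiSym.mod_left' h1, jacobiSym.one_left]
  set m := V * W with hmdef
  set N : ℕ → ℤ := fun k => 2 ^ (m.primeFactors.filter (fun q => q ∣ k)).card with hN
  -- the sum over the matrices
  have e1 : 2 ^ m.primeFactors.card * N5 (3 * V) (3 * W) = 8 *
      ∑ k ∈ (Finset.Ico 1 (9 * m)).filter (fun k => 17 * k < 9 * m),
        ∑ p ∈ (9 * m - 17 * k).divisorsAntidiagonal, ∑ r ∈ k.divisorsAntidiagonal,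
          N k * (kap3 ⟨(p.1 : ℤ), (r.2 : ℤ), -(r.1 : ℤ), (p.2 : ℤ)⟩ * GG V W p r) := by
    rw [N5_sum hco h3V h3W]
    rw [sum_piece (fun M => ff V W M * kap3 M)
      (fun M => by simp only [ff_nM, kap3_nM]) (fun M => by simp only [ff_cn hneg, kap3_cn]),
      sum_param, Finset.mul_sum, Finset.mul_sum, Finset.mul_sum]
    refine Finset.sum_congr rfl fun k hk' => ?_
    rw [Finset.mem_filter, Finset.mem_Ico] at hk'
    rw [Finset.mul_sum, Finset.mul_sum, Finset.mul_sum]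
    refine Finset.sum_congr rfl fun p hp => ?_
    rw [Finset.mul_sum, Finset.mul_sum, Finset.mul_sum]
    refine Finset.sum_congr rfl fun r hr => ?_
    rw [Nat.mem_divisorsAntidiagonal] at hp hr
    have hr1 : 0 < r.1 := Nat.pos_of_ne_zero (by intro h; rw [h] at hr; simp at hr; omega)
    have hp2 : 0 < p.2 := Nat.pos_of_ne_zero (by intro h; rw [h] at hp; simp at hp; omega)
    have hD : p.1 * p.2 + 17 * (r.1 * r.2) = 9 * (V * W) := by
      rw [hp.1, hr.1]; omega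
    have h := two_pow_Wt' h9 hk hsq h17 hD
    rw [hr.1] at h
    have hf : ff V W ⟨(p.1 : ℤ), (r.2 : ℤ), -(r.1 : ℤ), (p.2 : ℤ)⟩ =
        2 * Wt V W ⟨(p.1 : ℤ), (r.2 : ℤ), -(r.1 : ℤ), (p.2 : ℤ)⟩ := by
      unfold ff
      dsimp only
      have : (-(r.1 : ℤ) * (p.2 : ℤ)).sign = -1 := by
        apply Int.sign_eq_neg_one_of_neg
        have h1 : (0 : ℤ) < r.1 := by exact_mod_cast hr1
        have h2 : (0 : ℤ) < p.2 := by exact_mod_cast hp2
        nlinarith [mul_pos h1 h2]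
      rw [this]; ring
    rw [hf]
    unfold GG
    rw [hN]
    linear_combination (8 * kap3 ⟨(p.1 : ℤ), (r.2 : ℤ), -(r.1 : ℤ), (p.2 : ℤ)⟩) * h
  -- the splitting
  have e2 : ∀ k ∈ (Finset.Ico 1 (9 * m)).filter (fun k => 17 * k < 9 * m),
      ∑ p ∈ (9 * m - 17 * k).divisorsAntidiagonal, ∑ r ∈ k.divisorsAntidiagonal,
          N k * (kap3 ⟨(p.1 : ℤ), (r.2 : ℤ), -(r.1 : ℤ), (p.2 : ℤ)⟩ * GG V W p r) =
      w9 k * N k * SU V W (9 * m - 17 * k) k +
      (if 9 ∣ k then N (k / 9) * (w1 (k / 9) * SU V W (m - 17 * (k / 9)) (k / 9)) else 0) := by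
    intro k hk'
    rw [Finset.mem_filter, Finset.mem_Ico] at hk'
    obtain ⟨⟨hk1, hk2⟩, hk3⟩ := hk'
    set x := 9 * m - 17 * k with hx
    have hx0 : 0 < x := by omega
    have f1 : ∀ p ∈ x.divisorsAntidiagonal, ∀ r ∈ k.divisorsAntidiagonal,
        N k * (kap3 ⟨(p.1 : ℤ), (r.2 : ℤ), -(r.1 : ℤ), (p.2 : ℤ)⟩ * GG V W p r) =
        -(w9 k * N k) * (1 * 1 * GG V W p r) +
        N k * (if 3 ∣ p.1 ∧ 3 ∣ p.2 then (if 3 ∣ r.1 ∧ 3 ∣ r.2 then
          kap3 ⟨(p.1 : ℤ), (r.2 : ℤ), -(r.1 : ℤ), (p.2 : ℤ)⟩ * GG V W p r else 0) else 0) := by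
      intro p hp r hr
      rw [Nat.mem_divisorsAntidiagonal] at hp hr
      have hD : p.1 * p.2 + 17 * (r.1 * r.2) = 9 * m := by
        rw [hp.1, hr.1]; omega
      by_cases hall : (3 ∣ p.1 ∧ 3 ∣ p.2) ∧ (3 ∣ r.1 ∧ 3 ∣ r.2)
      · have hk0 : w9 k = 0 := by
          have : 3 ∣ k := by rw [← hr.1]; exact Dvd.dvd.mul_right hall.2.1 _
          have h0 : k % 3 = 0 := Nat.mod_eq_zero_of_dvd this
          unfold w9; rw [h0]; norm_num
        rw [if_pos hall.1, if_pos hall.2, hk0]; ring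
      · rw [kap3_prim' hD hall, hr.1]
        by_cases h1 : 3 ∣ p.1 ∧ 3 ∣ p.2
        · rw [if_pos h1, if_neg (fun h => hall ⟨h1, h⟩)]; ring
        · rw [if_neg h1]; ring
    rw [Finset.sum_congr rfl (fun p hp => Finset.sum_congr rfl (f1 p hp))]
    simp only [Finset.sum_add_distrib]
    have f2 : ∑ p ∈ x.divisorsAntidiagonal, ∑ r ∈ k.divisorsAntidiagonal,
        -(w9 k * N k) * (1 * 1 * GG V W p r) = w9 k * N k * SU V W x k := by
      have key := SUw_eq hd1 hd2 j (fun _ => 1) (fun _ => 1) x k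
      rw [SUw_one hco] at key
      have e3 : ∀ p ∈ x.divisorsAntidiagonal, ∑ r ∈ k.divisorsAntidiagonal,
          -(w9 k * N k) * (1 * 1 * GG V W p r) =
          -(w9 k * N k) * ∑ r ∈ k.divisorsAntidiagonal, (1 * 1 * GG V W p r) :=
        fun p _ => (Finset.mul_sum _ _ _).symm
      rw [Finset.sum_congr rfl e3, ← Finset.mul_sum, key]; ring
    rw [f2]
    congr 1
    have f3 : ∑ p ∈ x.divisorsAntidiagonal, ∑ r ∈ k.divisorsAntidiagonal,
        N k * (if 3 ∣ p.1 ∧ 3 ∣ p.2 then (if 3 ∣ r.1 ∧ 3 ∣ r.2 then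
          kap3 ⟨(p.1 : ℤ), (r.2 : ℤ), -(r.1 : ℤ), (p.2 : ℤ)⟩ * GG V W p r else 0) else 0) =
        N k * ∑ p ∈ x.divisorsAntidiagonal, (if 3 ∣ p.1 ∧ 3 ∣ p.2 then
          (∑ r ∈ k.divisorsAntidiagonal, (if 3 ∣ r.1 ∧ 3 ∣ r.2 then
          kap3 ⟨(p.1 : ℤ), (r.2 : ℤ), -(r.1 : ℤ), (p.2 : ℤ)⟩ * GG V W p r else 0)) else 0) := by
      rw [Finset.mul_sum]
      refine Finset.sum_congr rfl fun p _ => ?_
      rw [← Finset.mul_sum]
      congr 1
      split_ifs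
      · rfl
      · exact Finset.sum_const_zero
    rw [f3]
    by_cases h9k : 9 ∣ k
    · rw [if_pos h9k]
      obtain ⟨k', rfl⟩ := h9k
      rw [Nat.mul_div_cancel_left _ (by norm_num : 0 < 9)]
      have hk'0 : 0 < k' := by omega
      have hx' : x = 9 * (m - 17 * k') := by omega
      have hx'0 : 0 < m - 17 * k' := by omega
      rw [hx', sum_nine hx'0]
      have f4 : N (9 * k') = N k' := by
        rw [hN]
        dsimp only
        congr 2
        refine Finset.filter_congr fun q hq => ?_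
        have hqp := Nat.prime_of_mem_primeFactors hq
        have hqm := Nat.dvd_of_mem_primeFactors hq
        have hq9 : Nat.Coprime q 9 := (h9.coprime_dvd_right hqm).symm
        exact ⟨fun h => hq9.dvd_of_dvd_mul_left h, fun h => Dvd.dvd.mul_left h _⟩
      rw [f4]
      congr 1
      have f5 : ∀ p ∈ (m - 17 * k').divisorsAntidiagonal,
          (∑ r ∈ (9 * k').divisorsAntidiagonal, (if 3 ∣ r.1 ∧ 3 ∣ r.2 then
          kap3 ⟨((3 * p.1, 3 * p.2).1 : ℤ), (r.2 : ℤ), -(r.1 : ℤ), ((3 * p.1, 3 * p.2).2 : ℤ)⟩ *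
            GG V W (3 * p.1, 3 * p.2) r else 0)) =
          ∑ r ∈ k'.divisorsAntidiagonal, kpr p r * GG V W p r := by
        intro p hp
        rw [sum_nine hk'0 (fun r => kap3 ⟨((3 * p.1 : ℕ) : ℤ), (r.2 : ℤ), -(r.1 : ℤ),
          ((3 * p.2 : ℕ) : ℤ)⟩ * GG V W (3 * p.1, 3 * p.2) r)]
        refine Finset.sum_congr rfl fun r hr => ?_
        rw [Nat.mem_divisorsAntidiagonal] at hp hr
        have hdet : (p.1 * p.2 + 17 * (r.1 * r.2)) % 3 = 1 := by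
          rw [hp.1, hr.1]; omega
        have := kap3_mul hdet
        dsimp only
        rw [this, GG_three h3V h3W]
      have f6 : ∑ p ∈ (m - 17 * k').divisorsAntidiagonal,
          (∑ r ∈ (9 * k').divisorsAntidiagonal, (if 3 ∣ r.1 ∧ 3 ∣ r.2 then
          kap3 ⟨((3 * p.1, 3 * p.2).1 : ℤ), (r.2 : ℤ), -(r.1 : ℤ), ((3 * p.1, 3 * p.2).2 : ℤ)⟩ *
            GG V W (3 * p.1, 3 * p.2) r else 0)) =
          w1 k' * SU V W (m - 17 * k') k' := by
        rw [Finset.sum_congr rfl f5]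
        exact GG_kpr hd1 hd2 hco j hJ3 hx'0 hk'0 (by omega)
      exact f6
    · rw [if_neg h9k]
      have f4 : ∀ p ∈ x.divisorsAntidiagonal, (if 3 ∣ p.1 ∧ 3 ∣ p.2 then
          (∑ r ∈ k.divisorsAntidiagonal, (if 3 ∣ r.1 ∧ 3 ∣ r.2 then
          kap3 ⟨(p.1 : ℤ), (r.2 : ℤ), -(r.1 : ℤ), (p.2 : ℤ)⟩ * GG V W p r else 0)) else 0) =
          (0 : ℤ) := by
        intro p _
        rw [sum_not_nine h9k (fun r => kap3 ⟨(p.1 : ℤ), (r.2 : ℤ), -(r.1 : ℤ), (p.2 : ℤ)⟩ *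
          GG V W p r), ite_self]
      rw [Finset.sum_congr rfl f4, Finset.sum_const_zero, mul_zero]
  rw [e1, Finset.sum_congr rfl e2, Finset.sum_add_distrib]
  congr 1
  congr 1
  unfold SAw
  rw [← Finset.sum_filter]
  refine Finset.sum_nbij' (fun k => k / 9) (fun k => 9 * k) ?_ ?_ ?_ ?_ ?_
  · intro k hk'
    rw [Finset.mem_filter, Finset.mem_filter, Finset.mem_Ico] at hk'
    obtain ⟨⟨⟨a1, a2⟩, a3⟩, ⟨c, rfl⟩⟩ := hk'
    rw [Nat.mul_div_cancel_left _ (by norm_num : 0 < 9), Finset.mem_filter, Finset.mem_Ico]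
    refine ⟨⟨by omega, by omega⟩, by omega⟩
  · intro k hk'
    rw [Finset.mem_filter, Finset.mem_Ico] at hk'
    rw [Finset.mem_filter, Finset.mem_filter, Finset.mem_Ico]
    refine ⟨⟨⟨by omega, by omega⟩, by omega⟩, Dvd.intro _ rfl⟩
  · intro k hk'
    rw [Finset.mem_filter] at hk'
    exact Nat.mul_div_cancel' hk'.2
  · intro k _
    exact Nat.mul_div_cancel_left _ (by norm_num : 0 < 9)
  · intro k _
    rw [one_mul, hN]
    ring

end

end Vale.Agent.P014.H74
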