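import Mathlib

/-!
# Theorem B: the formal identities satisfied by the exponential of a set function over `𝔽₂`
-/

set_option linter.unusedSectionVars false

namespace Vale.Agent.P014.H74

open Finset

variable {I : Type*} [DecidableEq I]

/-- subset convolution -/
def cv (f g : Finset I → ZMod 2) (T : Finset I) : ZMod 2 := ∑ S ∈ T.powerset, f S * g (T \ S)

theorem cv_comm (f g : Finset I → ZMod 2) (T : Finset I) : cv f g T = cv g f T := by
  unfold cv
  refine Finset.sum_nbij' (fun S => T \ S) (fun S => T \ S) ?_ ?_ ?_ ?_ ?_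
  · intro S _; rw [mem_powerset]; exact sdiff_subset
  · intro S _; rw [mem_powerset]; exact sdiff_subset
  · intro S hS; rw [mem_powerset] at hS; exact Finset.sdiff_sdiff_eq_self hS
  · intro S hS; rw [mem_powerset] at hS; exact Finset.sdiff_sdiff_eq_self hS
  · intro S hS; rw [mem_powerset] at hS; rw [Finset.sdiff_sdiff_eq_self hS, mul_comm]

theorem cv_assoc (f g h : Finset I → ZMod 2) (T : Finset I) :
    cv (cv f g) h T = cv f (cv g h) T := by
  unfold cv
  simp only [Finset.sum_mul, Finset.mul_sum]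
  rw [Finset.sum_sigma', Finset.sum_sigma']
  refine Finset.sum_nbij' (fun x => ⟨x.2, x.1 \ x.2⟩) (fun x => ⟨x.1 ∪ x.2, x.1⟩) ?_ ?_ ?_ ?_ ?_
  · rintro ⟨S, B⟩ h
    simp only [mem_sigma, mem_powerset] at h ⊢
    exact ⟨h.2.trans h.1, sdiff_subset_sdiff h.1 (subset_refl _)⟩
  · rintro ⟨B, C⟩ h
    simp only [mem_sigma, mem_powerset] at h ⊢
    exact ⟨union_subset h.1 (h.2.trans sdiff_subset), subset_union_left⟩
  · rintro ⟨S, B⟩ h
    simp only [mem_sigma, mem_powerset] at h ⊢
    rw [union_sdiff_of_subset h.2]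
  · rintro ⟨B, C⟩ h
    simp only [mem_sigma, mem_powerset] at h ⊢
    congr 1
    have : Disjoint C B := by
      have := h.2
      rw [subset_sdiff] at this
      exact this.2
    rw [union_sdiff_left, sdiff_eq_self_of_disjoint this]
  · rintro ⟨S, B⟩ h
    simp only [mem_sigma, mem_powerset] at h ⊢
    have e : (T \ B) \ (S \ B) = T \ S := by
      rw [sdiff_sdiff_left, sup_eq_union, union_sdiff_of_subset h.2]
    rw [e]; ring

/-- squares vanish -/
theorem cv_self (f : Finset I → ZMod 2) {T : Finset I} (hT : T.Nonempty) : cv f f T = 0 := by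
  unfold cv
  refine Finset.sum_involution (fun S _ => T \ S) ?_ ?_ ?_ ?_
  · intro S hS
    rw [mem_powerset] at hS
    rw [Finset.sdiff_sdiff_eq_self hS, mul_comm (f (T \ S))]
    exact CharTwo.add_self_eq_zero _
  · intro S hS _ h
    rw [mem_powerset] at hS
    obtain ⟨x, hx⟩ := hT
    by_cases hxS : x ∈ S
    · have : x ∈ T \ S := by rw [h]; exact hxS
      exact (mem_sdiff.mp this).2 hxS
    · exact hxS (by rw [← h]; exact mem_sdiff.mpr ⟨hx, hxS⟩)
  · intro S _; rw [mem_powerset]; exact sdiff_subset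
  · intro S hS; rw [mem_powerset] at hS; exact Finset.sdiff_sdiff_eq_self hS

theorem cv_empty (f g : Finset I → ZMod 2) : cv f g ∅ = f ∅ * g ∅ := by
  unfold cv; simp

/-- the unit -/
def u1 (T : Finset I) : ZMod 2 := if T = ∅ then 1 else 0

theorem u1_cv (f : Finset I → ZMod 2) (T : Finset I) : cv u1 f T = f T := by
  unfold cv u1
  rw [Finset.sum_eq_single ∅]
  · simp
  · intro S _ h; rw [if_neg h, zero_mul]
  · intro h; exact absurd (empty_mem_powerset T) h

theorem cv_congr {f f' g g' : Finset I → ZMod 2} {T : Finset I} (h1 : ∀ S ⊆ T, f S = f' S)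
    (h2 : ∀ S ⊆ T, g S = g' S) : cv f g T = cv f' g' T := by
  unfold cv
  refine Finset.sum_congr rfl fun S hS => ?_
  rw [mem_powerset] at hS
  rw [h1 S hS, h2 _ sdiff_subset]

/-- the recursion of the exponential -/
structure Ex (e s : I → ZMod 2) (D g : Finset I → ZMod 2) : Prop where
  empty : D ∅ = 1
  rcs : ∀ T : Finset I, ∀ q ∈ T, D T = ∑ B ∈ T.powerset.filter (fun B => q ∈ B), g B * D (T \ B)
  gpar : ∀ B : Finset I, g B ≠ 0 → ∑ i ∈ B, e i = 1
  gpar2 : ∀ B : Finset I, g B ≠ 0 → ∑ i ∈ B, s i = 1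

namespace Ex

variable {e s : I → ZMod 2} {D g : Finset I → ZMod 2} (h : Ex e s D g)

include h

theorem g_empty : g ∅ = 0 := by
  by_contra hne
  have := h.gpar ∅ hne
  simp at this

/-- the two parities agree on the support -/
theorem par (T : Finset I) (hT : D T ≠ 0) : ∑ i ∈ T, e i = ∑ i ∈ T, s i := by
  induction T using Finset.strongInduction with
  | H T ih =>
    rcases T.eq_empty_or_nonempty with rfl | ⟨q, hq⟩
    · simp
    · rw [h.rcs T q hq] at hT
      obtain ⟨B, hB, hne⟩ := Finset.exists_ne_zero_of_sum_ne_zero hT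
      rw [mem_filter, mem_powerset] at hB
      have h1 : g B ≠ 0 := left_ne_zero_of_mul hne
      have h2 : D (T \ B) ≠ 0 := right_ne_zero_of_mul hne
      have h3 := ih (T \ B) (sdiff_ssubset hB.1 ⟨q, hB.2⟩) h2
      rw [← Finset.sum_sdiff hB.1, ← Finset.sum_sdiff hB.1 (f := s), h3, h.gpar B h1, h.gpar2 B h1]

/-- the weighted recursion -/
theorem wrec (c : I → ZMod 2) (T : Finset I) :
    (∑ i ∈ T, c i) * D T = ∑ B ∈ T.powerset, (∑ i ∈ B, c i) * g B * D (T \ B) := by
  rw [Finset.sum_mul]
  have h1 : ∀ i ∈ T, c i * D T = ∑ B ∈ T.powerset, (if i ∈ B then c i * g B * D (T \ B) else 0) := by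
    intro i hi
    rw [h.rcs T i hi, Finset.mul_sum, Finset.sum_filter]
    refine Finset.sum_congr rfl fun B _ => ?_
    split_ifs <;> ring
  rw [Finset.sum_congr rfl h1, Finset.sum_comm]
  refine Finset.sum_congr rfl fun B hB => ?_
  rw [mem_powerset] at hB
  rw [← Finset.sum_filter, Finset.sum_mul, Finset.sum_mul]
  congr 1
  exact Finset.filter_mem_eq_inter.trans (inter_eq_right.mpr hB)

omit h in
/-- the two parts -/
def part (e : I → ZMod 2) (a : ZMod 2) (f : Finset I → ZMod 2) (T : Finset I) : ZMod 2 :=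
  if ∑ i ∈ T, e i = a then f T else 0

theorem cD (c : I → ZMod 2) (a : ZMod 2) (T : Finset I) :
    part e a (fun S => (∑ i ∈ S, c i) * D S) T =
      cv (fun S => (∑ i ∈ S, c i) * g S) (part e (a + 1) D) T := by
  unfold cv part
  dsimp only
  by_cases hT : ∑ i ∈ T, e i = a
  · rw [if_pos hT, h.wrec c T]
    refine Finset.sum_congr rfl fun B hB => ?_
    rw [mem_powerset] at hB
    by_cases hg : g B = 0
    · rw [hg]; ring
    · have h1 := h.gpar B hg
      have h2 : ∑ i ∈ T \ B, e i = a + 1 := by
        have h3 := Finset.sum_sdiff (f := e) hB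
        rw [h1, hT] at h3
        rw [← h3, add_assoc, CharTwo.add_self_eq_zero, add_zero]
      rw [if_pos h2]
  · rw [if_neg hT]
    symm
    refine Finset.sum_eq_zero fun B hB => ?_
    rw [mem_powerset] at hB
    by_cases hg : g B = 0
    · rw [hg]; ring
    · have h1 := h.gpar B hg
      rw [if_neg, mul_zero]
      intro h2
      apply hT
      have h3 := Finset.sum_sdiff (f := e) hB
      rw [h1, h2] at h3
      rw [← h3, add_assoc, CharTwo.add_self_eq_zero, add_zero]

theorem Dminus (T : Finset I) : part e 1 D T = cv g (part e 0 D) T := by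
  have h1 := h.cD e 1 T
  have e1 : part e 1 (fun S => (∑ i ∈ S, e i) * D S) T = part e 1 D T := by
    unfold part
    dsimp only
    split_ifs with h2
    · rw [h2, one_mul]
    · rfl
  rw [e1] at h1
  rw [h1]
  refine cv_congr (fun S _ => ?_) (fun S _ => ?_)
  · by_cases hg : g S = 0
    · rw [hg]; ring
    · rw [h.gpar S hg, one_mul]
  · rw [show (1 : ZMod 2) + 1 = 0 by decide]

theorem Dplus_sq (T : Finset I) : cv (part e 0 D) (part e 0 D) T = u1 T := by
  rcases T.eq_empty_or_nonempty with rfl | hT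
  · rw [cv_empty]; unfold part u1; simp [h.empty]
  · rw [cv_self _ hT]; unfold u1; rw [if_neg hT.ne_empty]

theorem Dminus_sq (T : Finset I) : cv (part e 1 D) (part e 1 D) T = 0 := by
  rcases T.eq_empty_or_nonempty with rfl | hT
  · rw [cv_empty]; unfold part; simp
  · exact cv_self _ hT

theorem DD (T : Finset I) : cv (part e 0 D) (part e 1 D) T = g T := by
  have h1 : cv (part e 0 D) (part e 1 D) T = cv (part e 0 D) (cv g (part e 0 D)) T :=
    cv_congr (fun _ _ => rfl) (fun S _ => h.Dminus S)
  rw [h1, cv_comm, cv_assoc]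
  have h2 : cv g (cv (part e 0 D) (part e 0 D)) T = cv g u1 T :=
    cv_congr (fun _ _ => rfl) (fun S _ => h.Dplus_sq S)
  rw [h2, cv_comm, u1_cv]

/-- **first identity** -/
theorem F1 {T : Finset I} (hT : ∑ i ∈ T, e i = 1) :
    ∑ S ∈ T.powerset.filter (fun S => ∑ i ∈ S, e i = 0), D S * D (T \ S) = g T := by
  rw [← h.DD T]
  unfold cv part
  rw [Finset.sum_filter]
  refine Finset.sum_congr rfl fun S hS => ?_
  rw [mem_powerset] at hS
  split_ifs with h1 h2 h2
  · rfl
  · exfalso; apply h2
    have h3 := Finset.sum_sdiff (f := e) hS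
    rw [h1, hT, add_zero] at h3
    exact h3
  · ring
  · ring

/-- **second identity** -/
theorem F2 (c : I → ZMod 2) {T : Finset I} (hT : ∑ i ∈ T, e i = 1) :
    ∑ S ∈ T.powerset.filter (fun S => ∑ i ∈ S, e i = 0), (∑ i ∈ S, c i) * (D S * D (T \ S)) = 0 := by
  have h0 : cv (part e 0 (fun S => (∑ i ∈ S, c i) * D S)) (part e 1 D) T = 0 := by
    have h1 : cv (part e 0 (fun S => (∑ i ∈ S, c i) * D S)) (part e 1 D) T =
        cv (cv (fun S => (∑ i ∈ S, c i) * g S) (part e 1 D)) (part e 1 D) T :=
      cv_congr (fun S _ => by rw [h.cD c 0 S, zero_add]) (fun _ _ => rfl)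
    rw [h1, cv_assoc]
    unfold cv
    refine Finset.sum_eq_zero fun S _ => ?_
    have := h.Dminus_sq (T \ S)
    unfold cv at this
    rw [this, mul_zero]
  refine Eq.trans ?_ h0
  unfold cv part
  rw [Finset.sum_filter]
  refine Finset.sum_congr rfl fun S hS => ?_
  rw [mem_powerset] at hS
  dsimp only
  split_ifs with h1 h2 h2
  · ring
  · exfalso; apply h2
    have h3 := Finset.sum_sdiff (f := e) hS
    rw [h1, hT, add_zero] at h3
    exact h3
  · ring
  · ring

/-- **third identity** -/
theorem F3 {i0 : I} (h0 : e i0 = 1) (hg : g {i0} = 1) {T : Finset I} (hi : i0 ∉ T)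
    (hT : ∑ i ∈ T, e i = 1) :
    ∑ S ∈ T.powerset.filter (fun S => ∑ i ∈ S, e i = 1),
      D (insert i0 S) * D (insert i0 (T \ S)) = g T := by
  set hh : Finset I → ZMod 2 := fun S => g (insert i0 S) with hhh
  have hD : ∀ S : Finset I, i0 ∉ S → D (insert i0 S) = cv hh D S := by
    intro S hS
    rw [h.rcs (insert i0 S) i0 (mem_insert_self _ _)]
    unfold cv
    refine Finset.sum_nbij' (fun B => B.erase i0) (fun B => insert i0 B) ?_ ?_ ?_ ?_ ?_
    · intro B hB
      rw [mem_filter, mem_powerset] at hB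
      rw [mem_powerset]
      intro x hx
      rw [mem_erase] at hx
      exact (mem_insert.mp (hB.1 hx.2)).resolve_left hx.1
    · intro B hB
      rw [mem_powerset] at hB
      rw [mem_filter, mem_powerset]
      exact ⟨insert_subset_insert _ hB, mem_insert_self _ _⟩
    · intro B hB
      rw [mem_filter, mem_powerset] at hB
      exact insert_erase hB.2
    · intro B hB
      rw [mem_powerset] at hB
      exact erase_insert (fun h => hS (hB h))
    · intro B hB
      rw [mem_filter, mem_powerset] at hB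
      rw [hhh]
      dsimp only
      rw [insert_erase hB.2]
      congr 2
      ext x
      simp only [mem_sdiff, mem_insert, mem_erase]
      constructor
      · rintro ⟨h1 | h1, h2⟩
        · exact absurd (h1 ▸ hB.2) h2
        · exact ⟨h1, fun h => h2 h.2⟩
      · rintro ⟨h1, h2⟩
        refine ⟨Or.inr h1, fun h => h2 ⟨?_, h⟩⟩
        rintro rfl; exact hS h1
  -- the parity of hh
  have hpar : ∀ S : Finset I, i0 ∉ S → hh S ≠ 0 → ∑ i ∈ S, e i = 0 := by
    intro S hS hne
    have := h.gpar _ hne
    rw [sum_insert hS, h0] at this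
    have h2 : (1 : ZMod 2) + (1 + ∑ i ∈ S, e i) = 1 + 1 := by rw [this]
    rw [← add_assoc, show (1 : ZMod 2) + 1 = 0 by decide, zero_add] at h2
    exact h2
  have hpart : ∀ (a : ZMod 2) (S : Finset I), i0 ∉ S →
      part e a (fun S => cv hh D S) S = cv hh (part e a D) S := by
    intro a S hS
    unfold part cv
    dsimp only
    by_cases ha : ∑ i ∈ S, e i = a
    · rw [if_pos ha]
      refine Finset.sum_congr rfl fun B hB => ?_
      rw [mem_powerset] at hB
      by_cases hb : hh B = 0
      · rw [hb]; ring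
      · have h1 := hpar B (fun h => hS (hB h)) hb
        rw [if_pos]
        have h3 := Finset.sum_sdiff (f := e) hB
        rw [h1, add_zero] at h3
        rw [h3, ha]
    · rw [if_neg ha]
      symm
      refine Finset.sum_eq_zero fun B hB => ?_
      rw [mem_powerset] at hB
      by_cases hb : hh B = 0
      · rw [hb]; ring
      · have h1 := hpar B (fun h => hS (hB h)) hb
        rw [if_neg, mul_zero]
        intro h2
        apply ha
        have h3 := Finset.sum_sdiff (f := e) hB
        rw [h1, add_zero, h2] at h3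
        exact h3.symm
  -- the square of hh
  have hhsq : ∀ S : Finset I, cv hh hh S = u1 S := by
    intro S
    rcases S.eq_empty_or_nonempty with rfl | hS
    · rw [cv_empty, hhh]; unfold u1; simp [hg]
    · rw [cv_self _ hS]; unfold u1; rw [if_neg hS.ne_empty]
  have e1 : ∑ S ∈ T.powerset.filter (fun S => ∑ i ∈ S, e i = 1),
      D (insert i0 S) * D (insert i0 (T \ S)) =
      cv (cv hh (part e 1 D)) (cv hh (part e 0 D)) T := by
    have e2 : cv (cv hh (part e 1 D)) (cv hh (part e 0 D)) T =
        ∑ S ∈ T.powerset, part e 1 (fun S => cv hh D S) S * part e 0 (fun S => cv hh D S) (T \ S) := by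
      unfold cv
      refine Finset.sum_congr rfl fun S hS => ?_
      rw [mem_powerset] at hS
      have a1 := hpart 1 S (fun h => hi (hS h))
      have a2 := hpart 0 (T \ S) (fun h => hi (mem_sdiff.mp h).1)
      unfold cv at a1 a2
      rw [a1, a2]
    rw [e2, Finset.sum_filter]
    refine Finset.sum_congr rfl fun S hS => ?_
    rw [mem_powerset] at hS
    unfold part
    have h3 := Finset.sum_sdiff (f := e) hS
    by_cases h1 : ∑ i ∈ S, e i = 1
    · rw [if_pos h1, if_pos h1, if_pos]
      · rw [hD S (fun h => hi (hS h)), hD (T \ S) (fun h => hi (mem_sdiff.mp h).1)]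
      · rw [h1, hT] at h3
        have h4 : (∑ i ∈ T \ S, e i + 1) + 1 = 1 + 1 := by rw [h3]
        rw [add_assoc, show (1 : ZMod 2) + 1 = 0 by decide, add_zero] at h4
        exact h4
    · rw [if_neg h1, if_neg h1, zero_mul]
  rw [e1]
  -- rearrange
  have e3 : cv (cv hh (part e 1 D)) (cv hh (part e 0 D)) T =
      cv (cv hh hh) (cv (part e 1 D) (part e 0 D)) T := by
    rw [cv_assoc hh, cv_assoc hh hh]
    refine cv_congr (fun _ _ => rfl) (fun S _ => ?_)
    rw [← cv_assoc, ← cv_assoc hh (part e 1 D)]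
    refine cv_congr (fun U _ => cv_comm _ _ _) (fun _ _ => rfl)
  rw [e3]
  have e4 : cv (cv hh hh) (cv (part e 1 D) (part e 0 D)) T = cv u1 g T :=
    cv_congr (fun S _ => hhsq S) (fun S _ => by rw [cv_comm, h.DD S])
  rw [e4, u1_cv]

end Ex

end Vale.Agent.P014.H74
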