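import Vale.Agent.P014.H74.F2

/-!
# Theorem B, part 3: the recursion
-/

set_option linter.unusedSectionVars false
set_option linter.style.haveILetI false

namespace Vale.Agent.P014.H74

open Finset

/-- the inputs of the recursion -/
structure Inp (D g : Finset ℕ → ZMod 2) : Prop where
  ex : Ex eP sP D g
  g1 : ∀ q : ℕ, q.Prime → Dm q → g {q} = 1
  bd : ∀ n, Dm n → 3 < n → ∃ (C : Type) (_ : CommGroup C) (_ : Fintype C) (phi : C → ℤ)
    (chi : ℕ → C → ℤ), BD n C phi chi ∧ ChiAdd n chi ∧ ((nsq C : ℕ) : ZMod 2) = g n.primeFactors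
  bd3 : ∀ n, Dm n → n % 3 = 1 → ∃ (C : Type) (_ : CommGroup C) (_ : Fintype C) (y : C → ℤ)
    (chi : ℕ → C → ℤ), BD3 n C y chi ∧ ((nsq C : ℕ) : ZMod 2) = g n.primeFactors

theorem prime_card {q : ℕ} (hq : q.Prime) : q.primeFactors.card = 1 := by
  rw [hq.primeFactors]; exact card_singleton _

theorem prime_of_card {n : ℕ} (hsq : Squarefree n) (h : n.primeFactors.card = 1) : n.Prime := by
  obtain ⟨p, hp⟩ := Finset.card_eq_one.mp h
  have h1 := Nat.prod_primeFactors_of_squarefree hsq
  rw [hp, Finset.prod_singleton] at h1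
  rw [← h1]
  exact Nat.prime_of_mem_primeFactors (n := n) (by rw [hp]; exact mem_singleton_self _)

theorem card_pos' {n : ℕ} (h : 1 < n) : 0 < n.primeFactors.card := by
  rw [Finset.card_pos, Nat.nonempty_primeFactors]; exact h

theorem e_D1 {n V : ℕ} (hn : Dm n) (hV : V ∈ D1 n) : ∑ q ∈ V.primeFactors, eP q = 0 := by
  have hVp := D1_props hn hV
  have := esum hVp.2.2.2.2.1 (by have := hVp.2.1; omega)
  rcases z2 (∑ q ∈ V.primeFactors, eP q) with h1 | h1
  · exact h1
  · rw [h1, if_neg (by decide), hVp.2.1] at this; omega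

section

variable {D g : Finset ℕ → ZMod 2} (hI : Inp D g)

include hI

theorem Inp.dq {q : ℕ} (hq : q.Prime) (h : Dm q) : D {q} = 1 := by
  rw [hI.ex.rcs {q} q (mem_singleton_self _)]
  have : ({q} : Finset ℕ).powerset.filter (fun B => q ∈ B) = {{q}} := by
    ext B
    rw [mem_filter, mem_powerset, mem_singleton, Finset.subset_singleton_iff]
    constructor
    · rintro ⟨h1 | h1, h2⟩
      · rw [h1] at h2; simp at h2
      · exact h1
    · rintro rfl; exact ⟨Or.inr rfl, mem_singleton_self _⟩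
  rw [this, Finset.sum_singleton, Finset.sdiff_self, hI.g1 q hq h, hI.ex.empty, one_mul]

/-- the product of the two determinants vanishes -/
theorem Inp.vanD {n V : ℕ} (hn : Dm n) (hV : V ∈ D1 n) (hJ : jacobiSym V 17 = -1) :
    D V.primeFactors = 0 := by
  by_contra hne
  have h1 := hI.ex.par _ hne
  rw [e_D1 hn hV] at h1
  have hVp := D1_props hn hV
  have h2 := ssum hVp.2.2.2.2.1 (by rw [hJ]; norm_num)
  rw [← h1, if_pos rfl, hJ] at h2
  norm_num at h2

theorem Inp.f1 {n : ℕ} (hn : Dm n) :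
    ∑ V ∈ D1 n, D V.primeFactors * D (n / V).primeFactors = g n.primeFactors := by
  have h := hI.ex.F1 hn.e
  rw [sum_D1 hn.2.1 (by have := hn.1; omega)
    (fun S => D S * D (n.primeFactors \ S))] at h
  rw [← h]
  refine Finset.sum_congr rfl fun V hV => ?_
  rw [pf_div hn.2.1 (D1_props hn hV).1]

theorem Inp.f2 {n : ℕ} (hn : Dm n) (c : ℕ → ZMod 2) :
    ∑ V ∈ (D1 n).filter (fun V => ∑ q ∈ V.primeFactors, c q = 1),
      D V.primeFactors * D (n / V).primeFactors = 0 := by
  have h := hI.ex.F2 c hn.e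
  rw [sum_D1 hn.2.1 (by have := hn.1; omega)
    (fun S => (∑ i ∈ S, c i) * (D S * D (n.primeFactors \ S)))] at h
  rw [Finset.sum_filter]
  refine Eq.trans ?_ h
  refine Finset.sum_congr rfl fun V hV => ?_
  rw [pf_div hn.2.1 (D1_props hn hV).1]
  rcases z2 (∑ q ∈ V.primeFactors, c q) with h1 | h1
  · rw [h1, if_neg (by decide), zero_mul]
  · rw [h1, if_pos rfl, one_mul]

/-- exchange of two primes in terms of the toric periods -/
theorem Inp.pair {n : ℕ} {C : Type} [CommGroup C] [Fintype C] {phi : C → ℤ} {chi : ℕ → C → ℤ}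
    (h : BD n C phi chi) (ha : ChiAdd n chi) (hn : Dm n) {p q : ℕ} (hp : p ∈ n.primeFactors)
    (hq : q ∈ n.primeFactors) (hpq : p ≠ q)
    (hgood : ∀ V ∈ D1 n, V ≠ 1 → ¬ (n / V).Prime → Gd (n.primeFactors.card - 1)
      (PV phi chi V) (D V.primeFactors * D (n / V).primeFactors))
    (hp' : n / p ∈ D1 n → Gd (n.primeFactors.card - 1)
      (PV phi chi (n / p)) (D (n / p).primeFactors * D (n / (n / p)).primeFactors))
    (hq' : n / q ∈ D1 n) : Gd (n.primeFactors.card - 1)
      (PV phi chi (n / q)) (D (n / q).primeFactors * D (n / (n / q)).primeFactors) := by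
  classical
  set s := n.primeFactors.card - 1 with hs
  set c : ℕ → ZMod 2 := fun r => if r = p ∨ r = q then 1 else 0 with hc
  have hpd := Nat.dvd_of_mem_primeFactors hp
  have hqd := Nat.dvd_of_mem_primeFactors hq
  have hpp := Nat.prime_of_mem_primeFactors hp
  have hqp := Nat.prime_of_mem_primeFactors hq
  have hn0 : n ≠ 0 := hn.2.1.ne_zero
  obtain ⟨x, hx⟩ := h.surj ha hn c
  have hone : ∀ V ∈ D1 n, chi V 1 = 1 := by
    intro V hV
    have := h.chi_mul V hV 1 1
    rw [mul_one] at this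
    rcases h.chi_val V hV 1 with h | h
    · exact h
    · rw [h] at this; norm_num at this
  obtain ⟨k1, hk1⟩ := h.coset 1
  obtain ⟨k2, hk2⟩ := h.coset x
  set A := (D1 n).filter (fun V => ∑ q ∈ V.primeFactors, c q = 1) with hA
  have hsumA : ∑ V ∈ A, PV phi chi V = 2 ^ s * (2 * (k1 - k2)) := by
    have e1 : 2 * ∑ V ∈ A, PV phi chi V =
        ∑ V ∈ D1 n, chi V 1 * PV phi chi V - ∑ V ∈ D1 n, chi V x * PV phi chi V := by
      rw [← Finset.sum_sub_distrib, Finset.mul_sum, hA, Finset.sum_filter]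
      refine Finset.sum_congr rfl fun V hV => ?_
      rw [hone V hV, hx V hV]
      rcases z2 (∑ q ∈ V.primeFactors, c q) with h1 | h1
      · rw [h1, if_neg (by decide)]
        have : sg 0 = 1 := by decide
        rw [this]; ring
      · rw [h1, if_pos rfl]
        have : sg 1 = -1 := by decide
        rw [this]; ring
    rw [hk1, hk2, ← hs] at e1
    linarith
  have hcn : ∑ r ∈ n.primeFactors, c r = 0 := by
    have e1 : ∑ r ∈ n.primeFactors, c r = ∑ r ∈ ({p, q} : Finset ℕ), c r := by
      symm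
      refine Finset.sum_subset ?_ ?_
      · intro r hr
        rw [mem_insert, mem_singleton] at hr
        rcases hr with rfl | rfl
        · exact hp
        · exact hq
      · intro r _ hr
        rw [mem_insert, mem_singleton] at hr
        rw [hc]; dsimp only
        rw [if_neg hr]
    rw [e1, Finset.sum_pair hpq, hc]
    dsimp only
    rw [if_pos (Or.inl rfl), if_pos (Or.inr rfl)]; decide
  -- the value of `c` on the quotient by a prime
  have hcV : ∀ V ∈ D1 n, (n / V).Prime → ∑ r ∈ V.primeFactors, c r = c (n / V) := by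
    intro V hV hpr
    have hVp := D1_props hn hV
    have hmono := Nat.primeFactors_mono hVp.1 hn0
    have h1 := Finset.sum_sdiff (f := c) hmono
    rw [← pf_div hn.2.1 hVp.1, hcn, hpr.primeFactors, Finset.sum_singleton] at h1
    have h2 := CharTwo.add_self_eq_zero (c (n / V))
    linear_combination h1 - h2
  have hdq : n / (n / q) = q := Nat.div_div_self hqd hn0
  have hdp : n / (n / p) = p := Nat.div_div_self hpd hn0
  have hqA : n / q ∈ A := by
    rw [hA, mem_filter]
    refine ⟨hq', ?_⟩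
    rw [hcV _ hq' (by rw [hdq]; exact hqp), hdq, hc]
    dsimp only
    rw [if_pos (Or.inr rfl)]
  have hrest : ∀ V ∈ A.erase (n / q), Gd s (PV phi chi V)
      (D V.primeFactors * D (n / V).primeFactors) := by
    intro V hV
    obtain ⟨hne, hVA⟩ := Finset.mem_erase.mp hV
    rw [hA, mem_filter] at hVA
    obtain ⟨hVm, hcv⟩ := hVA
    have hV1 : V ≠ 1 := by
      rintro rfl
      simp at hcv
    by_cases hpr : (n / V).Prime
    · rw [hcV V hVm hpr, hc] at hcv
      dsimp only at hcv
      have hVd := (D1_props hn hVm).1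
      have hdV : n / (n / V) = V := Nat.div_div_self hVd hn0
      split_ifs at hcv with h1
      · rcases h1 with h1 | h1
        · have : V = n / p := by rw [← h1, hdV]
          rw [this]
          exact hp' (this ▸ hVm)
        · exact absurd (by rw [← h1, hdV]) hne
      · exact absurd hcv (by decide)
    · exact hgood V hVm hV1 hpr
  have hG := Gd.sum (A.erase (n / q)) hrest
  have hf2 := hI.f2 hn c
  rw [← hA] at hf2
  rw [← Finset.add_sum_erase _ _ hqA] at hsumA hf2
  have hfin := (Gd.of_mul (s := s) (2 * (k1 - k2))).sub hG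
  refine hfin.congr (by linarith) ?_
  push_cast
  rw [show (2 : ZMod 2) = 0 by decide, zero_mul, zero_add]
  have h2 := CharTwo.add_self_eq_zero (∑ V ∈ A.erase (n / q),
    D V.primeFactors * D (n / V).primeFactors)
  linear_combination h2 - hf2

/-- the induction hypothesis -/
def IHt (D : Finset ℕ → ZMod 2) (t : ℕ) : Prop :=
  (∀ n, Dm n → n.primeFactors.card < t → SAp n (D n.primeFactors)) ∧
  (∀ V, Dp V → V ≠ 1 → V.primeFactors.card + 1 < t → SBp V (D V.primeFactors))

/-- the terms known by induction -/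
theorem Inp.good {t n : ℕ} (hIH : IHt D t) {C : Type} [CommGroup C] [Fintype C] {phi : C → ℤ}
    {chi : ℕ → C → ℤ} (h : BD n C phi chi) (hn : Dm n) (ht : n.primeFactors.card = t)
    {V : ℕ} (hV : V ∈ D1 n) (hV1 : V ≠ 1) (hQ : Dp V → Dm (n / V) → SBp V (D V.primeFactors)) :
    Gd (n.primeFactors.card - 1) (PV phi chi V) (D V.primeFactors * D (n / V).primeFactors) := by
  have hVp := D1_props hn hV
  obtain ⟨h4, hsq, h17⟩ := hn
  rcases hVp.2.2.2.2.2.2 with hJ | hJ
  · obtain ⟨hp, hm⟩ := D1_split ⟨h4, hsq, h17⟩ hV hJ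
    have hm' := h.mixed h4 hsq h17 hV hV1 hJ
    have hV2 : 1 < V := by have := hVp.2.1; omega
    have hW2 : 1 < n / V := by
      have := hVp.2.2.1
      generalize n / V = w at this ⊢
      omega
    have hc := card_split hsq hVp.1
    have c1 := card_pos' hV2
    have c2 := card_pos' hW2
    exact Gd_of_SS hm' (hQ hp hm) (hIH.1 _ hm (by omega)) (by omega)
  · rw [h.vanish h4 hsq h17 hV hV1 hJ, hI.vanD ⟨h4, hsq, h17⟩ hV hJ, zero_mul]
    exact Gd.zero _

theorem Inp.good' {t n : ℕ} (hIH : IHt D t) {C : Type} [CommGroup C] [Fintype C] {phi : C → ℤ}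
    {chi : ℕ → C → ℤ} (h : BD n C phi chi) (hn : Dm n) (ht : n.primeFactors.card = t)
    {V : ℕ} (hV : V ∈ D1 n) (hV1 : V ≠ 1) (hpr : ¬ (n / V).Prime) :
    Gd (n.primeFactors.card - 1) (PV phi chi V) (D V.primeFactors * D (n / V).primeFactors) := by
  refine hI.good hIH h hn ht hV hV1 fun hp hm => ?_
  have hVp := D1_props hn hV
  have hW2 : 1 < n / V := by
    have := hVp.2.2.1
    generalize n / V = w at this ⊢
    omega
  have hc := card_split hn.2.1 hVp.1
  have c2 := card_pos' hW2
  have c3 : (n / V).primeFactors.card ≠ 1 := fun h => hpr (prime_of_card hVp.2.2.2.2.2.1 h)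
  exact hIH.2 V hp hV1 (by omega)

theorem Dm.jmul {a b : ℕ} (h : jacobiSym ((a * b : ℕ) : ℤ) 17 = -1) (h2 : jacobiSym a 17 = -1) :
    jacobiSym b 17 = 1 := by
  push_cast at h
  rw [jacobiSym.mul_left, h2] at h
  linarith

/-- **exchange of a prime** -/
theorem Inp.replace {t : ℕ} (hIH : IHt D t) {p q V1 : ℕ} (hp : p.Prime) (hq : q.Prime)
    (hn : Dm (p * V1 * q)) (hDq : Dm q) (ht : (p * V1 * q).primeFactors.card = t)
    (h : Dm p → SBp (V1 * q) (D (V1 * q).primeFactors)) :
    SBp (p * V1) (D (p * V1).primeFactors) := by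
  have hn0 := hn.2.1.ne_zero
  have hsq := hn.2.1
  have hp2 := hp.two_le
  have hV10 : V1 ≠ 0 := by rintro rfl; simp at hn0
  have hV1pos : 0 < V1 := Nat.pos_of_ne_zero hV10
  have hco := (Nat.squarefree_mul_iff.mp hsq).1
  have hpq : p ≠ q := by
    rintro rfl
    have : p ∣ 1 := by
      have := Nat.dvd_gcd (Dvd.intro V1 rfl : p ∣ p * V1) (dvd_refl p)
      rwa [Nat.Coprime.gcd_eq_one hco] at this
    exact hp.one_lt.ne' (Nat.dvd_one.mp this)
  have hq3 : 3 ≤ q := by have := hDq.1; omega
  have hn3 : 3 < p * V1 * q := by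
    calc 3 < 2 * 1 * 3 := by norm_num
      _ ≤ p * V1 * q := Nat.mul_le_mul (Nat.mul_le_mul hp2 hV1pos) hq3
  obtain ⟨C, _, _, phi, chi, hB, ha, -⟩ := hI.bd _ hn hn3
  have ediv1 : p * V1 * q / q = p * V1 := Nat.mul_div_cancel _ hq.pos
  have ediv2 : p * V1 * q / p = V1 * q := by
    rw [mul_assoc, Nat.mul_div_cancel_left _ hp.pos]
  have ediv3 : p * V1 * q / (p * V1) = q := Nat.mul_div_cancel_left _ (Nat.mul_pos hp.pos hV1pos)
  have ediv4 : p * V1 * q / (V1 * q) = p := by
    rw [mul_assoc, Nat.mul_div_cancel _ (Nat.mul_pos hV1pos hq.pos)]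
  have hV4 : (p * V1) % 4 = 1 := by
    have h1 := hn.1
    rw [Nat.mul_mod, hDq.1] at h1
    omega
  have hVm : p * V1 ∈ D1 (p * V1 * q) := by
    rw [D1, mem_filter, Nat.mem_divisors]
    exact ⟨⟨Dvd.intro _ rfl, hn0⟩, hV4⟩
  have hVne : p * V1 ≠ 1 := by
    have : 2 * 1 ≤ p * V1 := Nat.mul_le_mul hp2 hV1pos
    omega
  have hJV : jacobiSym ((p * V1 : ℕ) : ℤ) 17 = 1 := by
    have h1 := hn.2.2
    push_cast at h1 ⊢
    rw [jacobiSym.mul_left _ (q : ℤ), hDq.2.2] at h1
    linarith
  have hcd := card_split hsq (Dvd.intro _ rfl : p * V1 ∣ p * V1 * q)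
  rw [ediv3, prime_card hq] at hcd
  have hcV : 0 < (p * V1).primeFactors.card := card_pos' (by
    have : 2 * 1 ≤ p * V1 := Nat.mul_le_mul hp2 hV1pos
    omega)
  have hSq : SAp q 1 := by
    have := hIH.1 q hDq (by rw [prime_card hq]; omega)
    rwa [hq.primeFactors, hI.dq hq hDq] at this
  have hpair := hI.pair hB ha hn (p := p) (q := q)
    (Nat.mem_primeFactors.mpr ⟨hp, ⟨V1 * q, by ring⟩, hn0⟩)
    (Nat.mem_primeFactors.mpr ⟨hq, ⟨p * V1, by ring⟩, hn0⟩) hpq
    (fun V hV hV1' hpr => hI.good' hIH hB hn ht hV hV1' hpr) ?_ (by rw [ediv1]; exact hVm)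
  · rw [ediv1, ediv3, hq.primeFactors, hI.dq hq hDq, mul_one, hcd, Nat.add_sub_cancel] at hpair
    have hm := hB.mixed hn.1 hsq hn.2.2 hVm hVne hJV
    rw [ediv3] at hm
    exact SBp_of hm hSq (prime_card hq) hpair
  · rw [ediv2, ediv4]
    intro hm
    have hne : V1 * q ≠ 1 := by
      have : 1 * 3 ≤ V1 * q := Nat.mul_le_mul hV1pos hq3
      omega
    have := hI.good hIH hB hn ht hm hne (fun _ h2 => h (by rwa [ediv4] at h2))
    rwa [ediv4] at this

/-- the case of the conductor `3` -/
theorem Inp.three {t m : ℕ} (hIH : IHt D t) (hm : Dm m) (h3 : m % 3 = 1)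
    (ht : m.primeFactors.card + 2 = t) : SBp (3 * m) (D (3 * m).primeFactors) := by
  classical
  obtain ⟨C, _, _, y, chi, hB, hR⟩ := hI.bd3 m hm h3
  obtain ⟨h4, hsq, h17⟩ := hm
  have hm' : Dm m := ⟨h4, hsq, h17⟩
  have h3m : ¬ 3 ∣ m := by omega
  have h3p : (3 : ℕ).Prime := Nat.prime_three
  have hm1 : 1 < m := by omega
  have hcm := card_pos' hm1
  have hD3 : Dm 3 := ⟨rfl, sq3, J3_17⟩
  have hD31 : D {3} = 1 := hI.dq h3p hD3
  have hsing : ∀ V, V ∣ m → (3 * V).primeFactors = insert 3 V.primeFactors := by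
    intro V hV
    have hco : Nat.Coprime 3 V := (Nat.Prime.coprime_iff_not_dvd h3p).mpr
      (fun h => h3m (h.trans hV))
    rw [hco.primeFactors_mul, h3p.primeFactors]; rfl
  have hcard : ∀ V, V ∣ m → (3 * V).primeFactors.card = V.primeFactors.card + 1 := by
    intro V hV
    rw [hsing V hV, card_insert_of_notMem]
    intro h
    exact h3m ((Nat.dvd_of_mem_primeFactors h).trans hV)
  -- the sum of the determinants
  have hF3 : ∑ W ∈ D1 m, D (3 * W).primeFactors * D (3 * (m / W)).primeFactors =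
      g m.primeFactors := by
    have e3 : eP 3 = 1 := by decide
    have hg3 : g {3} = 1 := hI.g1 3 h3p hD3
    have h := hI.ex.F3 e3 hg3 (T := m.primeFactors)
      (fun h => h3m (Nat.dvd_of_mem_primeFactors h)) hm'.e
    rw [← h]
    have hs1 : ∑ S ∈ m.primeFactors.powerset.filter (fun S => ∑ i ∈ S, eP i = 1),
        D (insert 3 S) * D (insert 3 (m.primeFactors \ S)) =
        ∑ S ∈ m.primeFactors.powerset.filter (fun S => ∑ i ∈ S, eP i = 0),
        D (insert 3 (m.primeFactors \ S)) * D (insert 3 S) := by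
      refine Finset.sum_nbij' (fun S => m.primeFactors \ S) (fun S => m.primeFactors \ S)
        ?_ ?_ ?_ ?_ ?_
      · intro S hS
        rw [mem_filter, mem_powerset] at hS ⊢
        refine ⟨sdiff_subset, ?_⟩
        have h1 := Finset.sum_sdiff (f := eP) hS.1
        rw [hS.2, hm'.e] at h1
        have h2 := CharTwo.add_self_eq_zero (1 : ZMod 2)
        linear_combination h1 - h2 + h2
      · intro S hS
        rw [mem_filter, mem_powerset] at hS ⊢
        refine ⟨sdiff_subset, ?_⟩
        have h1 := Finset.sum_sdiff (f := eP) hS.1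
        rw [hS.2, hm'.e, add_zero] at h1
        exact h1
      · intro S hS
        rw [mem_filter, mem_powerset] at hS
        exact Finset.sdiff_sdiff_eq_self hS.1
      · intro S hS
        rw [mem_filter, mem_powerset] at hS
        exact Finset.sdiff_sdiff_eq_self hS.1
      · intro S hS
        rw [mem_filter, mem_powerset] at hS
        rw [Finset.sdiff_sdiff_eq_self hS.1]
    rw [hs1, sum_D1 hsq (by omega)
      (fun S => D (insert 3 (m.primeFactors \ S)) * D (insert 3 S))]
    refine Finset.sum_congr rfl fun W hW => ?_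
    have hWd := (D1_props hm' hW).1
    rw [hsing W hWd, hsing (m / W) (Nat.div_dvd_of_dvd hWd), pf_div hsq hWd, mul_comm]
  -- the terms
  have hterm : ∀ W ∈ D1 m, W ≠ 1 → Gd (m.primeFactors.card + 1) (PV y chi W)
      (D (3 * W).primeFactors * D (3 * (m / W)).primeFactors) := by
    intro W hW hW1
    obtain ⟨hWd, hW4, hV4, hmW, hsW, hsV, hJ⟩ := D1_props hm' hW
    set V := m / W with hV
    have hmVW : m = V * W := by rw [mul_comm]; exact hmW
    have hVd : V ∣ m := Dvd.intro _ hmVW.symm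
    have hco3W : Nat.Coprime 3 W := (Nat.Prime.coprime_iff_not_dvd h3p).mpr
      (fun h => h3m (h.trans hWd))
    have hco3V : Nat.Coprime 3 V := (Nat.Prime.coprime_iff_not_dvd h3p).mpr
      (fun h => h3m (h.trans hVd))
    rcases hJ with hJ | hJ
    · have hmix := hB.mixed h4 h3 hsq h17 hmVW hW4 hJ
      have hDmW : Dm (3 * W) := by
        refine ⟨by omega, Nat.squarefree_mul_iff.mpr ⟨hco3W, sq3, hsW⟩, ?_⟩
        push_cast
        rw [jacobiSym.mul_left, hJ, J3_17]; norm_num
      have hJV : jacobiSym V 17 = -1 := (D1_split hm' hW hJ).2.2.2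
      have hDpV : Dp (3 * V) := by
        refine ⟨by omega, Nat.squarefree_mul_iff.mpr ⟨hco3V, sq3, hsV⟩, ?_⟩
        push_cast
        rw [jacobiSym.mul_left, hJV, J3_17]; norm_num
      have hc := card_split hsq hWd
      have cW := card_pos' (n := W) (by omega)
      have cV := card_pos' (n := V) (by clear_value V; omega)
      rw [← hV] at hc
      have c1 := hcard W hWd
      have c2 := hcard V hVd
      have h1 := hIH.1 _ hDmW (by omega)
      have h2 := hIH.2 _ hDpV (by omega) (by omega)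
      have := Gd_of_SS hmix h2 h1 (s := m.primeFactors.card + 1) (by omega)
      rwa [mul_comm (D (3 * V).primeFactors)] at this
    · have hz : D (3 * W).primeFactors = 0 := by
        by_contra hne
        have h1 := hI.ex.par _ hne
        have h3n : 3 ∉ W.primeFactors := fun h => h3m ((Nat.dvd_of_mem_primeFactors h).trans hWd)
        rw [hsing W hWd, Finset.sum_insert h3n, Finset.sum_insert h3n, e_D1 hm' hW] at h1
        have h2 := ssum hsW (by rw [hJ]; norm_num)
        have e3 : eP 3 = 1 := by decide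
        have s3 : sP 3 = 1 := by unfold sP; rw [if_pos]; exact J3_17
        rw [e3, s3, add_zero] at h1
        rcases z2 (∑ q ∈ W.primeFactors, sP q) with h5 | h5
        · rw [h5, if_pos rfl, hJ] at h2; norm_num at h2
        · rw [h5] at h1; exact absurd h1 (by decide)
      rw [hB.vanish h4 h3 hsq h17 hmVW hW4 hJ, hz, zero_mul]
      exact Gd.zero _
  -- the sum
  obtain ⟨k, hk⟩ := hB.coset
  have hone := one_mem_D1 (n := m) hsq.ne_zero
  rw [← Finset.add_sum_erase _ _ hone] at hk hF3
  have hG := Gd.sum ((D1 m).erase 1) (fun W hW => hterm W (Finset.mem_erase.mp hW).2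
    (Finset.mem_erase.mp hW).1)
  have h8 : (2 : ℤ) ^ (m.primeFactors.card - 1) * (4 * (nsq C : ℤ) + 8 * k) =
      2 ^ (m.primeFactors.card + 1) * ((nsq C : ℤ) + 2 * k) := by
    obtain ⟨c, hc⟩ : ∃ c, m.primeFactors.card = c + 1 := ⟨m.primeFactors.card - 1, by omega⟩
    rw [hc, Nat.add_sub_cancel]; ring
  rw [h8] at hk
  have hG1 := (Gd.of_mul (s := m.primeFactors.card + 1) ((nsq C : ℤ) + 2 * k)).sub hG
  have hG2 : Gd (m.primeFactors.card + 1) (PV y chi 1) (D (3 * m).primeFactors) := by
    refine hG1.congr (by linarith) ?_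
    push_cast
    rw [hR, show (2 : ZMod 2) = 0 by decide, zero_mul, add_zero]
    rw [mul_one, h3p.primeFactors, hD31, one_mul, Nat.div_one] at hF3
    rw [← hF3]
    have h2 := CharTwo.add_self_eq_zero (∑ W ∈ (D1 m).erase 1,
      D (3 * W).primeFactors * D (3 * (m / W)).primeFactors)
    linear_combination h2
  have hmix := hB.mixed h4 h3 hsq h17 (V := m) (W := 1) (by ring) rfl (by
    exact_mod_cast jacobiSym.one_left 17)
  rw [mul_one] at hmix
  have hS3 : SAp 3 1 := by
    have := hIH.1 3 hD3 (by rw [prime_card h3p]; omega)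
    rwa [h3p.primeFactors, hD31] at this
  refine SBp_of hmix hS3 (prime_card h3p) ?_
  rw [hcard m dvd_rfl]
  exact hG2

end

end Vale.Agent.P014.H74
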