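import Vale.Agent.P014.H74.F5
import Vale.Agent.P014.H74.TamS
import Vale.Agent.P014.H483.EvF
import Vale.Agent.P014.H71.FinalB

/-!
# Theorem B for the twists by `+V`: the side of the `L`-value
-/

namespace Vale.Agent.P014.H74

open Vale.Agent.P014.H71 (DF gF)
open Vale.Agent.P014.H483 (rhoE)
open Vale.Agent.P014.H687 (an)
open Vale.Agent.P014.H70 (r3)

theorem not17_of_Dp {V : ℕ} (hV : Dp V) : ¬ (17 : ℤ) ∣ (V : ℤ) := by
  intro hc
  have h17 : Nat.Coprime 17 V := coprime_of_J (by rw [hV.2.2]; norm_num)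
  exact ((Nat.Prime.coprime_iff_not_dvd (by norm_num)).mp h17) (by exact_mod_cast hc)

/-- the value of the `L`-function of the twist by `V > 0` -/
theorem mainE_L (hI : Inp DF gF) {V : ℕ} (hV : Dp V) (hV1 : V ≠ 1) {k : ℤ}
    (hk : 4 * k + 1 = (V : ℤ)) :
    ∃ L : ℂ → ℂ, IsHasseWeil (tw k) L ∧
      ∃ (e : ℤ) (q u : ℤ), (e = 1 ∨ e = -1) ∧ Odd u ∧ (Odd q ↔ DF V.primeFactors ≠ 0) ∧
        L 1 = (((e : ℝ) * ((q : ℝ) / u) ^ 2 *
          (realPeriod (tw k) * (tamagawaProduct (tw k) : ℝ) / 4 ^ 2) : ℝ) : ℂ) := by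
  have h17 : Nat.Coprime 17 V := coprime_of_J (by rw [hV.2.2]; norm_num)
  have h1n : 1 < V := by have := hV.1; omega
  have h3 := ell_even hV (H483.par_E H687.form17) (ρ := rhoE (an r3)) H483.even_E
  obtain ⟨L, hL, ε, hε, hL1⟩ := H483.hw_value_even hV.1 h1n hV.2.1 h17 hk h3
  obtain ⟨q, u, hu, h1, h2⟩ := hI.main_even hV hV1
  obtain ⟨e, he, heε⟩ : ∃ e : ℤ, (e = 1 ∨ e = -1) ∧ (e : ℝ) = -ε := by
    rcases hε with h | h
    · exact ⟨-1, Or.inr rfl, by rw [h]; norm_num⟩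
    · exact ⟨1, Or.inl rfl, by rw [h]; norm_num⟩
  have hu0 : (u : ℝ) ≠ 0 := by
    have : u ≠ 0 := by rintro rfl; simp at hu
    exact_mod_cast this
  refine ⟨L, hL, e, q, u, he, hu, H71.odd_iff_zmod h2, ?_⟩
  have hT : tamagawaProduct (tw k) = 2 * 4 ^ V.primeFactors.card := by
    have := H71.tamagawaProduct_tw' (m := (V : ℤ)) hk (Int.squarefree_natCast.mpr hV.2.1)
      (not17_of_Dp hV)
    simpa using this
  rw [hL1, hT, heε]
  congr 1
  have h5 : ee V = -2 * ((2 ^ V.primeFactors.card * q : ℤ) : ℝ) ^ 2 / (u : ℝ) ^ 2 := by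
    field_simp
    rw [h1, neg_mul]
  have h4 : (4 : ℝ) ^ V.primeFactors.card = 2 ^ V.primeFactors.card * 2 ^ V.primeFactors.card := by
    rw [← mul_pow]; norm_num
  rw [h5]
  push_cast
  rw [h4]
  field_simp
  ring

theorem padicValRat_odd {w : ℤ} (hw : Odd w) : padicValRat 2 (w : ℚ) = 0 := by
  rw [padicValRat.of_int]
  have : padicValInt 2 w = 0 := by
    apply padicValInt.eq_zero_of_not_dvd
    intro h
    have : Even w := even_iff_two_dvd.mpr (by exact_mod_cast h)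
    exact (Int.not_even_iff_odd.mpr hw) this
  rw [this]; simp

/-- from the value of the `L`-function to the 2-part of the formula -/
theorem ppart_even {k : ℤ} {L : ℂ → ℂ} {e q u m : ℤ} (he : e = 1 ∨ e = -1) (hu : Odd u)
    (hq : Odd q) (hm : Odd m) (htors : (torsionOrder (tw k) : ℤ) = 4 * m)
    (hsha : Nat.card (shaPrimary (tw k) 2) = 1)
    (hL1 : L 1 = (((e : ℝ) * ((q : ℝ) / u) ^ 2 *
      (realPeriod (tw k) * (tamagawaProduct (tw k) : ℝ) / 4 ^ 2) : ℝ) : ℂ)) :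
    PPartRankZero (tw k) L 2 := by
  have h0 : ∀ {w : ℤ}, Odd w → (w : ℚ) ≠ 0 := by
    intro w hw h
    have : w = 0 := by exact_mod_cast h
    rw [this] at hw
    simp at hw
  have hR : ∀ {w : ℤ}, Odd w → (w : ℝ) ≠ 0 := by
    intro w hw
    have := h0 hw
    exact_mod_cast this
  have heo : Odd e := by
    rcases he with h | h
    · rw [h]; exact odd_one
    · rw [h]; exact odd_neg_one
  refine ⟨e * ((q : ℚ) * m / u) ^ 2, mul_ne_zero (h0 heo)
    (pow_ne_zero _ (div_ne_zero (mul_ne_zero (h0 hq) (h0 hm)) (h0 hu))), ?_, ?_⟩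
  · rw [padicValRat.mul (h0 heo) (pow_ne_zero _ (div_ne_zero (mul_ne_zero (h0 hq) (h0 hm)) (h0 hu))),
      padicValRat.pow, padicValRat.div (mul_ne_zero (h0 hq) (h0 hm)) (h0 hu),
      padicValRat.mul (h0 hq) (h0 hm), padicValRat_odd heo, padicValRat_odd hq,
      padicValRat_odd hm, padicValRat_odd hu]
    norm_num
  · have ht : (torsionOrder (tw k) : ℝ) = 4 * m := by exact_mod_cast htors
    have hm0 : (m : ℝ) ≠ 0 := hR hm
    have hu0 : (u : ℝ) ≠ 0 := hR hu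
    rw [hL1, hsha, ht]
    push_cast
    have hm1 : (m : ℂ) ≠ 0 := by exact_mod_cast hm0
    have hu1 : (u : ℂ) ≠ 0 := by exact_mod_cast hu0
    field_simp

end Vale.Agent.P014.H74
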